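import Vale.Agent.P095.AF.Intertwine
import Vale.Agent.P101.Tensor.Absorbs

/-!
# P095: invariant maps into the central sequences make an action absorb the identity of `Z`

The unitaries of the half flips are fixed by the induced automorphisms, so the intertwining can be
done with almost invariant unitaries.
-/

set_option maxSynthPendingDepth 5

open Filter Topology
open scoped ComplexOrder unitInterval

noncomputable section

universe u

namespace Vale.Agent.P095.AF

open P101 (FO cseq toFO toFO_surjective)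
open P101.SeqAlg (SQ toSQ bseq)
open P101.JiangSu (p q conn connTo)
open P101.Drop (dropAlg)

section Seq

variable {B : Type*} [CStarAlgebra B] {ω : Ultrafilter ℕ} (τ : B →⋆ₐ[ℂ] B)

/-- A homomorphism applied to a bounded sequence. -/
def mapBseq (x : bseq B ω) : bseq B ω :=
  ⟨fun n => τ ((x : ℕ → B) n), by
    obtain ⟨C, hC⟩ := P101.SeqAlg.bseq_bdd x
    exact ⟨C, fun n => (NonUnitalStarAlgHom.norm_apply_le τ _).trans (hC n)⟩⟩

theorem toSQ_mapBseq_congr {x y : bseq B ω} (h : toSQ x = toSQ y) :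
    toSQ (mapBseq τ x) = toSQ (mapBseq τ y) := by
  rw [P101.SeqAlg.toSQ_eq_iff] at h ⊢
  refine squeeze_zero_norm (fun n => ?_) (by simpa using h.norm)
  show ‖τ ((x : ℕ → B) n) - τ ((y : ℕ → B) n)‖ ≤ _
  rw [← map_sub]
  exact NonUnitalStarAlgHom.norm_apply_le τ _

/-- The map on sequence classes. -/
def mapSQFun (z : SQ B ω) : SQ B ω :=
  toSQ (mapBseq τ (P101.SeqAlg.toSQ_surjective z).choose)

theorem mapSQFun_toSQ (x : bseq B ω) : mapSQFun τ (toSQ x) = toSQ (mapBseq τ x) :=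
  toSQ_mapBseq_congr τ (P101.SeqAlg.toSQ_surjective (toSQ x)).choose_spec

variable (ω) in
/-- The endomorphism of the sequence algebra induced by one of the algebra. -/
def mapSQ : SQ B ω →⋆ₐ[ℂ] SQ B ω where
  toFun := mapSQFun τ
  map_one' := by
    rw [← P101.SeqAlg.toSQ_one, mapSQFun_toSQ]
    exact congrArg toSQ (Subtype.ext (funext fun n => map_one τ))
  map_mul' a b := by
    obtain ⟨x, rfl⟩ := P101.SeqAlg.toSQ_surjective a
    obtain ⟨y, rfl⟩ := P101.SeqAlg.toSQ_surjective b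
    rw [← P101.SeqAlg.toSQ_mul, mapSQFun_toSQ, mapSQFun_toSQ, mapSQFun_toSQ,
      ← P101.SeqAlg.toSQ_mul]
    exact congrArg toSQ (Subtype.ext (funext fun n => map_mul τ _ _))
  map_zero' := by
    rw [← P101.SeqAlg.toSQ_zero, mapSQFun_toSQ]
    exact congrArg toSQ (Subtype.ext (funext fun n => map_zero τ))
  map_add' a b := by
    obtain ⟨x, rfl⟩ := P101.SeqAlg.toSQ_surjective a
    obtain ⟨y, rfl⟩ := P101.SeqAlg.toSQ_surjective b
    rw [← P101.SeqAlg.toSQ_add, mapSQFun_toSQ, mapSQFun_toSQ, mapSQFun_toSQ,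
      ← P101.SeqAlg.toSQ_add]
    exact congrArg toSQ (Subtype.ext (funext fun n => map_add τ _ _))
  commutes' c := by
    rw [← P101.SeqAlg.toSQ_algebraMap, mapSQFun_toSQ]
    exact congrArg toSQ (Subtype.ext (funext fun n => AlgHomClass.commutes τ c))
  map_star' a := by
    obtain ⟨x, rfl⟩ := P101.SeqAlg.toSQ_surjective a
    rw [P101.SeqAlg.star_toSQ, mapSQFun_toSQ, mapSQFun_toSQ, P101.SeqAlg.star_toSQ]
    exact congrArg toSQ (Subtype.ext (funext fun n => map_star τ _))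

theorem mapSQ_toSQ (x : bseq B ω) : mapSQ ω τ (toSQ x) = toSQ (mapBseq τ x) := mapSQFun_toSQ τ x

theorem mapSQ_const (b : B) :
    mapSQ ω τ (P101.SeqAlg.const ω b) = P101.SeqAlg.const ω (τ b) :=
  mapSQFun_toSQ τ ⟨fun _ => b, ‖b‖, fun _ => le_rfl⟩

end Seq

section Unitary

variable {A : Type*} [CStarAlgebra A] {C : Type*} [CStarAlgebra C] {ω : Ultrafilter ℕ}

/-- The pushed unitary is fixed by every endomorphism fixing both legs. -/
theorem exists_pushed_fixed {P Q : ℕ} [NeZero P] [NeZero Q] {D : Type*} [CStarAlgebra D]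
    [PartialOrder D] [StarOrderedRing D] {B : Type*} [CStarAlgebra B] (ι : D →⋆ₐ[ℂ] B)
    (ψ : dropAlg P Q ℂ →⋆ₐ[ℂ] B) (hc : ∀ d z, Commute (ι d) (ψ z))
    {W : dropAlg P Q D} (hW : W ∈ unitary (dropAlg P Q D)) :
    ∃ u ∈ unitary B,
      (∀ b, (∀ d, Commute (ι d) b) → (∀ z, Commute (ψ z) b) → Commute u b) ∧
      (∀ τ : B →⋆ₐ[ℂ] B, (∀ d, τ (ι d) = ι d) → (∀ z, τ (ψ z) = ψ z) → τ u = u) ∧
      ∀ (f : D) (g : dropAlg P Q ℂ) (ε : ℝ),
        ‖star W * P101.Drop.tensor f 1 * W - P101.Drop.tensor 1 g‖ ≤ ε →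
          ‖u * ψ g * star u - ι f‖ ≤ ε := by
  set μ := P101.Drop.lift ι ψ hc with hμ
  have hu : μ W ∈ unitary B := Unitary.map_mem μ hW
  refine ⟨μ W, hu, fun b hι hψ => ?_, fun τ h₁ h₂ => ?_, fun f g ε h => ?_⟩
  · have hcb : ∀ n, Commute (μ (P101.Drop.bern n W)) b := fun n => by
      simp only [P101.Drop.bern, map_sum, hμ, P101.Drop.lift_tensor]
      exact Commute.sum_left _ _ _ fun k _ => Commute.sum_left _ _ _ fun i _ =>
        Commute.sum_left _ _ _ fun j _ => (hι _).mul_left (hψ _)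
    have hlim := ((P101.Drop.continuous_hom μ).tendsto W).comp (P101.Drop.tendsto_bern W)
    exact tendsto_nhds_unique (hlim.mul_const _) ((hlim.const_mul _).congr fun n => (hcb n).symm)
  · have e : τ.comp μ = μ := P101.Drop.hom_ext fun d z => by
      rw [StarAlgHom.comp_apply, hμ, P101.Drop.lift_tensor, map_mul, h₁, h₂]
    exact DFunLike.congr_fun e W
  · have h' := (NonUnitalStarAlgHom.norm_apply_le μ
      (star W * P101.Drop.tensor f 1 * W - P101.Drop.tensor 1 g)).trans h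
    rw [map_sub, map_mul, map_mul, map_star] at h'
    simp only [hμ, P101.Drop.lift_tensor, map_one, mul_one, one_mul] at h'
    rw [← hμ] at h'
    have e : μ W * ψ g * star (μ W) - ι f =
        -(μ W * (star (μ W) * ι f * μ W - ψ g) * star (μ W)) := by
      rw [mul_sub, sub_mul, neg_sub, ← mul_assoc (μ W), ← mul_assoc (μ W),
        Unitary.mul_star_self_of_mem hu, one_mul, mul_assoc _ (μ W) (star (μ W)),
        Unitary.mul_star_self_of_mem hu, mul_one]
    rw [e, norm_neg, CStarRing.norm_mul_mem_unitary _ (Unitary.star_mem hu),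
      CStarRing.norm_mem_unitary_mul _ hu]
    exact h'

/-- The unitary of one stage, fixed by the endomorphisms fixing both legs. -/
theorem exists_unitary_fixed {P Q : ℕ} [NeZero P] [NeZero Q] (ι : A →⋆ₐ[ℂ] C)
    (κ : dropAlg P Q ℂ →⋆ₐ[ℂ] C) (hcomm : ∀ a z, Commute (ι a) (κ z))
    (φ : dropAlg P Q ℂ →⋆ₐ[ℂ] FO A ω)
    (v : C(I, P101.HalfFlip.MM P Q)) (hv : ∀ t, v t ∈ unitary (P101.HalfFlip.MM P Q))
    (h0 : v 0 = 1) :
    ∃ u ∈ unitary (SQ C ω), (∀ a, Commute u (P101.SeqAlg.const ω (ι a))) ∧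
      (∀ τ : SQ C ω →⋆ₐ[ℂ] SQ C ω,
        (∀ f, τ (P101.SeqAlg.mapHom ι (φ f)) = P101.SeqAlg.mapHom ι (φ f)) →
        (∀ z, τ (P101.SeqAlg.const ω (κ z)) = P101.SeqAlg.const ω (κ z)) → τ u = u) ∧
      ∀ (f : dropAlg P Q ℂ) (ε : ℝ),
        (∀ t, ‖(f : C(I, P101.HalfFlip.MM P Q)) t
            - v t * (f : C(I, P101.HalfFlip.MM P Q)) 0 * star (v t)‖ ≤ ε) →
          ‖u * P101.SeqAlg.const ω (κ f) * star u - P101.SeqAlg.mapHom ι (φ f)‖ ≤ 6 * ε := by
  let _ := CStarAlgebra.spectralOrder (dropAlg P Q ℂ)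
  have _ := CStarAlgebra.spectralOrderedRing (dropAlg P Q ℂ)
  obtain ⟨W, hW, hflip⟩ := P101.HalfFlip.exists_halfFlip v hv h0
  obtain ⟨u, hu, hcomm', hfix, hest⟩ := exists_pushed_fixed (D := dropAlg P Q ℂ)
    ((P101.SeqAlg.mapHom ι).comp φ) ((P101.SeqAlg.const ω).comp κ)
    (fun f g => P101.Absorb.commute_mapHom ι (φ f) fun a => hcomm a g) hW
  exact ⟨u, hu, fun a => hcomm' _ (fun d => P101.SeqAlg.commute_mapHom_const ι (φ d) a)
    (fun z => (hcomm a z).symm.map (P101.SeqAlg.const ω)), hfix,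
    fun f ε hf => hest f f _ (hflip f ε hf)⟩

variable {G : Type*} (α : G → A ≃⋆ₐ[ℂ] A) (τ : G → C ≃⋆ₐ[ℂ] C) (ι : A →⋆ₐ[ℂ] C)
  (κ : ∀ j, dropAlg (p j) (q j) ℂ →⋆ₐ[ℂ] C)

/-- Invariant homomorphisms of all stages into `F_ω(A)` make `ι` equivariantly intertwinable. -/
theorem canIntertwineEq_of_homs (hcomm : ∀ a j z, Commute (ι a) (κ j z))
    (hconn : ∀ j z, κ (j + 1) (conn j z) = κ j z)
    (hdense : Dense ((⨆ j, P101.Absorb.stageSpan ι κ j : Submodule ℂ C) : Set C))
    (hτι : ∀ g a, τ g (ι a) = ι (α g a)) (hτκ : ∀ g j z, τ g (κ j z) = κ j z)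
    (φ : ∀ j, ∃ φ : dropAlg (p j) (q j) ℂ →⋆ₐ[ℂ] FO A ω,
      ∀ (g : G) z, ∀ x : cseq A ω, toFO x = φ z →
        Tendsto (fun n => α g ((x : ℕ → A) n) - (x : ℕ → A) n) (ω : Filter ℕ) (𝓝 0)) :
    CanIntertwineEq ι τ := by
  classical
  intro F D K ε hε
  have hmono := P101.Absorb.monotone_stageSpan ι κ hconn
  have happrox : ∀ b : C, ∃ s i, s ∈ P101.Absorb.stageSpan ι κ i ∧ ‖b - s‖ < ε / 4 := fun b => by
    obtain ⟨s, hs, hb⟩ := Metric.mem_closure_iff.1 (hdense b) (ε / 4) (by positivity)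
    obtain ⟨i, hi⟩ := (Submodule.mem_iSup_of_directed _ hmono.directed_le).1 hs
    exact ⟨s, i, hi, by rwa [← dist_eq_norm]⟩
  choose s stage hs hsb using happrox
  set i := D.sup stage with hi
  have hsi : ∀ b : D, ∃ c : (A × dropAlg (p i) (q i) ℂ) →₀ ℂ,
      (c.sum fun x r => r • (ι x.1 * κ i x.2)) = s b := fun b =>
    Finsupp.mem_span_range_iff_exists_finsupp.1 (hmono (Finset.le_sup b.2) (hs b))
  choose c hc using hsi
  set M : ℝ := 1 + ∑ b : D, ∑ x ∈ (c b).support, ‖c b x‖ * ‖x.1‖ with hM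
  have hM0 : 0 < M := by positivity
  set δ : ℝ := ε / (24 * M) with hδ
  obtain ⟨n, v, hv, hv0, hvf⟩ := (P101.JiangSu.near_constant i
    (Finset.univ.biUnion fun b : D => (c b).support.image Prod.snd)
    (show 0 < δ by positivity)).exists
  obtain ⟨φm, hφm⟩ := φ (i + n)
  obtain ⟨u, hu, hua, hufix, huf⟩ :=
    exists_unitary_fixed ι (κ (i + n)) (fun a z => hcomm a _ z) φm v hv hv0
  obtain ⟨V, hV⟩ := P101.SeqAlg.exists_unitary_lift (Unitary.star_mem hu)
  choose x hx using fun z : dropAlg (p i) (q i) ℂ => toFO_surjective (φm (connTo i n z))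
  let K' : C → bseq C ω := fun b => ⟨fun _ => b, ‖b‖, fun _ => le_rfl⟩
  have hK : ∀ b, toSQ (K' b) = P101.SeqAlg.const ω b := fun b => rfl
  let Y : D → bseq C ω := fun b =>
    ∑ z ∈ (c b).support, c b z • (K' (ι z.1) * P101.SeqAlg.mapSeq ι (x z.2))
  have hY : ∀ b : D,
      ‖star (star u) * P101.SeqAlg.const ω (b : C) * star u - toSQ (Y b)‖ < ε := by
    intro b
    rw [star_star]
    have e1 : (P101.SeqAlg.const ω (s b) : SQ C ω) = ∑ z ∈ (c b).support,
        c b z • (P101.SeqAlg.const ω (ι z.1) *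
          P101.SeqAlg.const ω (κ (i + n) (connTo i n z.2))) := by
      simp only [← map_mul, ← map_smul, ← map_sum, P101.Absorb.beta_connTo κ hconn, ← hc b,
        Finsupp.sum]
    have e2 : (toSQ (Y b) : SQ C ω) = ∑ z ∈ (c b).support,
        c b z • (P101.SeqAlg.const ω (ι z.1) *
          P101.SeqAlg.mapHom ι (φm (connTo i n z.2))) := by
      simp only [Y, P101.Absorb.toSQ_sum, P101.SeqAlg.toSQ_smul, P101.SeqAlg.toSQ_mul, hK,
        ← P101.SeqAlg.mapHom_toFO, hx]
    have e3 : u * P101.SeqAlg.const ω (s b) * star u - toSQ (Y b) = ∑ z ∈ (c b).support,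
        c b z • (P101.SeqAlg.const ω (ι z.1) *
          (u * P101.SeqAlg.const ω (κ (i + n) (connTo i n z.2)) * star u -
            P101.SeqAlg.mapHom ι (φm (connTo i n z.2)))) := by
      rw [e1, e2, Finset.mul_sum, Finset.sum_mul, ← Finset.sum_sub_distrib]
      refine Finset.sum_congr rfl fun z _ => ?_
      rw [mul_smul_comm, smul_mul_assoc, ← smul_sub, mul_sub, ← mul_assoc u, (hua z.1).eq]
      simp only [mul_assoc]
    have h2 : ‖u * P101.SeqAlg.const ω (s b) * star u - toSQ (Y b)‖ ≤ M * (6 * δ) := by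
      rw [e3, hM, add_mul, one_mul, Finset.sum_mul]
      refine le_trans ?_ (le_add_of_nonneg_left (by positivity))
      refine le_trans ?_ (Finset.single_le_sum
        (f := fun b : D => (∑ x ∈ (c b).support, ‖c b x‖ * ‖x.1‖) * (6 * δ))
        (fun b _ => by positivity) (Finset.mem_univ b))
      simp only [Finset.sum_mul]
      refine norm_sum_le_of_le _ fun z hz => ?_
      rw [norm_smul, show ‖c b z‖ * ‖z.1‖ * (6 * δ) = ‖c b z‖ * (‖z.1‖ * (6 * δ)) from
        mul_assoc _ _ _]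
      refine mul_le_mul_of_nonneg_left ((norm_mul_le _ _).trans ?_) (norm_nonneg (c b z))
      refine mul_le_mul ?_ ?_ (norm_nonneg _) (norm_nonneg z.1)
      · rw [P101.SeqAlg.norm_const]; exact NonUnitalStarAlgHom.norm_apply_le ι _
      · exact huf _ δ (hvf z.2 (Finset.mem_biUnion.2
          ⟨b, Finset.mem_univ _, Finset.mem_image_of_mem _ hz⟩))
    have h3 : ‖u * P101.SeqAlg.const ω (b : C) * star u
        - u * P101.SeqAlg.const ω (s b) * star u‖ < ε / 4 := by
      rw [← sub_mul, ← mul_sub, CStarRing.norm_mul_mem_unitary _ (Unitary.star_mem hu),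
        CStarRing.norm_mem_unitary_mul _ hu, ← map_sub, P101.SeqAlg.norm_const]
      exact hsb _
    have h4 : M * (6 * δ) = ε / 4 := by rw [hδ]; field_simp; ring
    calc _ ≤ ‖u * P101.SeqAlg.const ω (b : C) * star u
            - u * P101.SeqAlg.const ω (s b) * star u‖
          + ‖u * P101.SeqAlg.const ω (s b) * star u - toSQ (Y b)‖ :=
          norm_sub_le_norm_sub_add_norm_sub _ _ _
      _ < ε := by linarith
  let S : bseq C ω := P101.SeqAlg.unitarySeq V
  have hFev : ∀ a ∈ F, ∀ᶠ k in (ω : Filter ℕ),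
      ‖((V k : unitary C) : C) * ι a - ι a * (V k : C)‖ < ε := fun a _ => by
    have h : (toSQ (S * K' (ι a) - K' (ι a) * S) : SQ C ω) = 0 := by
      rw [P101.SeqAlg.toSQ_sub, P101.SeqAlg.toSQ_mul, P101.SeqAlg.toSQ_mul, hK,
        show toSQ S = star u from hV, sub_eq_zero]
      have h' := (hua (star a)).star_star
      rw [← map_star, ← map_star ι, star_star] at h'
      exact h'.eq
    have hn := P101.SeqAlg.tendsto_norm_toSQ (S * K' (ι a) - K' (ι a) * S) (ω := ω)
    rw [h, norm_zero] at hn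
    exact hn.eventually (eventually_lt_nhds hε)
  have hGev : ∀ b : D, ∀ᶠ k in (ω : Filter ℕ),
      ‖(star (V k : C)) * (b : C) * (V k : C) - (Y b : ℕ → C) k‖ < ε := fun b => by
    have hn := P101.SeqAlg.tendsto_norm_toSQ (star S * K' (b : C) * S - Y b) (ω := ω)
    rw [P101.SeqAlg.toSQ_sub, P101.SeqAlg.toSQ_mul, P101.SeqAlg.toSQ_mul,
      ← P101.SeqAlg.star_toSQ, hK, show toSQ S = star u from hV] at hn
    exact hn.eventually (eventually_lt_nhds (hY b))
  have hKev : ∀ g ∈ K, ∀ᶠ k in (ω : Filter ℕ),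
      ‖τ g (V k : C) - (V k : C)‖ < ε := fun g _ => by
    set ρ : C →⋆ₐ[ℂ] C := ↑(τ g) with hρ
    have hfix : mapSQ ω ρ (star u) = star u := by
      rw [map_star, hufix (mapSQ ω ρ) (fun f => ?_) (fun z => ?_)]
      · obtain ⟨y, hy⟩ := toFO_surjective (φm f)
        rw [← hy, P101.SeqAlg.mapHom_toFO, mapSQ_toSQ, P101.SeqAlg.toSQ_eq_iff]
        refine squeeze_zero_norm (fun m => ?_) (by simpa using (hφm g f y hy).norm)
        show ‖τ g (ι ((y : ℕ → A) m)) - ι ((y : ℕ → A) m)‖ ≤ _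
        rw [hτι, ← map_sub]
        exact NonUnitalStarAlgHom.norm_apply_le ι _
      · rw [mapSQ_const]
        exact congrArg (P101.SeqAlg.const ω) (hτκ g _ z)
    have h : (toSQ (mapBseq ρ S - S) : SQ C ω) = 0 := by
      rw [P101.SeqAlg.toSQ_sub, ← mapSQ_toSQ, show toSQ S = star u from hV, hfix, sub_self]
    have hn := P101.SeqAlg.tendsto_norm_toSQ (mapBseq ρ S - S) (ω := ω)
    rw [h, norm_zero] at hn
    exact hn.eventually (eventually_lt_nhds hε)
  obtain ⟨k, ⟨hkF, hkK⟩, hkG⟩ := (((F.eventually_all.2 hFev).and (K.eventually_all.2 hKev)).and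
    (Filter.eventually_all.2 hGev)).exists
  refine ⟨V k, hkF, fun b hb => ⟨∑ z ∈ (c ⟨b, hb⟩).support,
    c ⟨b, hb⟩ z • (z.1 * (x z.2 : ℕ → A) k), ?_⟩, hkK⟩
  refine lt_of_eq_of_lt ?_ (hkG ⟨b, hb⟩)
  congr 2
  simp [Y, K', map_sum, map_smul, P101.SeqAlg.coe_mapSeq]

end Unitary

section Tensor

open P101.Tensor (sys inclA alpha stage beta)

variable {A : Type u} [CStarAlgebra A] [PartialOrder A] [StarOrderedRing A]

/-- Homomorphisms out of the tensor product agree if they agree on both legs. -/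
theorem tens_ext {X : Type*} [CStarAlgebra X] {f g : (sys A).Z →⋆ₐ[ℂ] X}
    (ha : ∀ a, f (alpha A a) = g (alpha A a))
    (hz : ∀ j z, f (stage A j z) = g (stage A j z)) : f = g := by
  refine StarAlgHom.ext fun b => congr_fun (Continuous.ext_on (P101.Tensor.dense_span A)
    (P101.Drop.continuous_hom f) (P101.Drop.continuous_hom g) fun x hx => ?_) b
  refine (iSup_le fun j => Submodule.span_le.2 ?_ :
    (⨆ j, Submodule.span ℂ (Set.range fun x : A × dropAlg (p j) (q j) ℂ =>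
      alpha A x.1 * stage A j x.2) : Submodule ℂ (sys A).Z) ≤
      LinearMap.eqLocus f.toAlgHom.toLinearMap g.toAlgHom.toLinearMap) hx
  rintro _ ⟨⟨a, z⟩, rfl⟩
  show f (alpha A a * stage A j z) = g (alpha A a * stage A j z)
  rw [map_mul, map_mul, ha, hz]

/-- An endomorphism of the coefficients, extended to one stage. -/
def extHom (τ : A →⋆ₐ[ℂ] A) (j : ℕ) : dropAlg (p j) (q j) A →⋆ₐ[ℂ] (sys A).Z :=
  P101.Drop.lift ((alpha A).comp τ) (stage A j)
    fun a z => P101.Tensor.commute_alpha_stage A j (τ a) z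

theorem extHom_tensor (τ : A →⋆ₐ[ℂ] A) (j : ℕ) (a : A) (z : dropAlg (p j) (q j) ℂ) :
    extHom τ j (P101.Drop.tensor a z) = alpha A (τ a) * stage A j z :=
  P101.Drop.lift_tensor ((alpha A).comp τ) (stage A j) _ a z

theorem extHom_conn (τ : A →⋆ₐ[ℂ] A) (j : ℕ) (x : dropAlg (p j) (q j) A) :
    extHom τ (j + 1) (P101.Drop.extend A (conn j) x) = extHom τ j x := by
  have h : (extHom τ (j + 1)).comp (P101.Drop.extend A (conn j)) = extHom τ j :=
    P101.Drop.hom_ext fun a z => by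
      rw [StarAlgHom.comp_apply, P101.Drop.extend_tensor, extHom_tensor, extHom_tensor,
        P101.Tensor.stage_conn]
  exact DFunLike.congr_fun h x

/-- An endomorphism of the coefficients, extended to the tensor product. -/
def tensHom (τ : A →⋆ₐ[ℂ] A) : (sys A).Z →⋆ₐ[ℂ] (sys A).Z :=
  (sys A).lift (extHom τ) (extHom_conn τ)

theorem tensHom_inclA (τ : A →⋆ₐ[ℂ] A) (j : ℕ) (x : dropAlg (p j) (q j) A) :
    tensHom τ (inclA A j x) = extHom τ j x :=
  (sys A).lift_incl (extHom τ) (extHom_conn τ) j x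

theorem tensHom_alpha (τ : A →⋆ₐ[ℂ] A) (a : A) : tensHom τ (alpha A a) = alpha A (τ a) := by
  rw [P101.Tensor.alpha_eq A 0 a, tensHom_inclA, extHom_tensor, map_one, mul_one,
    P101.Tensor.alpha_eq A 0 (τ a)]

theorem tensHom_stage (τ : A →⋆ₐ[ℂ] A) (j : ℕ) (z : dropAlg (p j) (q j) ℂ) :
    tensHom τ (stage A j z) = stage A j z := by
  rw [show stage A j z = inclA A j (P101.Drop.tensor 1 z) from rfl, tensHom_inclA, extHom_tensor,
    map_one, map_one, one_mul]
  rfl

theorem tensHom_comp (τ ρ : A →⋆ₐ[ℂ] A) (b : (sys A).Z) :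
    tensHom τ (tensHom ρ b) = tensHom (τ.comp ρ) b := by
  have h : (tensHom τ).comp (tensHom ρ) = tensHom (τ.comp ρ) := tens_ext
    (fun a => by rw [StarAlgHom.comp_apply, tensHom_alpha, tensHom_alpha, tensHom_alpha]; rfl)
    fun j z => by rw [StarAlgHom.comp_apply, tensHom_stage, tensHom_stage, tensHom_stage]
  exact DFunLike.congr_fun h b

theorem tensHom_id {τ : A →⋆ₐ[ℂ] A} (h : ∀ a, τ a = a) (b : (sys A).Z) : tensHom τ b = b := by
  have e : tensHom τ = StarAlgHom.id ℂ (sys A).Z := tens_ext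
    (fun a => by rw [tensHom_alpha, h]; rfl) fun j z => tensHom_stage τ j z
  exact DFunLike.congr_fun e b

end Tensor

variable {G : Type*} [Group G] {A : Type u} [CStarAlgebra A] {α : G → A ≃⋆ₐ[ℂ] A}

theorem act_one (hmul : ∀ g h a, α (g * h) a = α g (α h a)) (a : A) : α 1 a = a :=
  EquivLike.injective (α 1) (by rw [← hmul, one_mul])

/-- **Absorption**: invariant maps of the dimension drop algebras into the central sequences make
an action cocycle conjugate to its tensor product with the identity of the Jiang-Su algebra. -/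
theorem isEquivariantlyZStable_of_drop [Countable G] [TopologicalSpace.SeparableSpace A]
    {ω : Ultrafilter ℕ} (hmul : ∀ g h a, α (g * h) a = α g (α h a)) (h : DropGoal α ω) :
    IsEquivariantlyZStable α := by
  let := CStarAlgebra.spectralOrder A
  let := CStarAlgebra.spectralOrderedRing A
  have := P101.Tensor.separableSpace_limit A
  set B := (P101.Tensor.sys A).Z
  let τ : G → A →⋆ₐ[ℂ] A := fun g => ↑(α g)
  have hτ : ∀ g k : G, ∀ b : B, tensHom (τ g) (tensHom (τ k) b) = tensHom (τ (g * k)) b :=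
    fun g k b => by
      rw [tensHom_comp]
      exact congrArg (fun ρ => tensHom ρ b) (StarAlgHom.ext fun a => (hmul g k a).symm)
  have hid : ∀ g k : G, g * k = 1 → ∀ b : B, tensHom (τ g) (tensHom (τ k) b) = b :=
    fun g k hgk b => by
      rw [hτ, hgk]
      exact tensHom_id (act_one hmul) b
  let β : G → B ≃⋆ₐ[ℂ] B := fun g => StarAlgEquiv.ofBijective (tensHom (τ g))
    ⟨Function.LeftInverse.injective (g := tensHom (τ g⁻¹)) (hid g⁻¹ g (inv_mul_cancel g)),
      fun b => ⟨_, hid g g⁻¹ (mul_inv_cancel g) b⟩⟩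
  have hβ : ∀ g b, β g b = tensHom (τ g) b := fun g b => rfl
  have hβα : ∀ g a, β g (P101.Tensor.alpha A a) = P101.Tensor.alpha A (α g a) := fun g a => by
    rw [hβ, tensHom_alpha]; rfl
  have hβs : ∀ g j z, β g (P101.Tensor.stage A j z) = P101.Tensor.stage A j z := fun g j z => by
    rw [hβ, tensHom_stage]
  have hmulβ : ∀ g k b, β (g * k) b = β g (β k b) := fun g k b => by
    rw [hβ, hβ, hβ, hτ]
  have hβz : ∀ g z, β g (P101.Tensor.beta A z) = P101.Tensor.beta A z := fun g z => by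
    refine P101.Tensor.dense_inc.induction
      (P := fun z => β g (P101.Tensor.beta A z) = P101.Tensor.beta A z) ?_ ?_ z
    · intro w hw
      obtain ⟨j, y, rfl⟩ := Set.mem_iUnion.1 hw
      have e := P101.Tensor.beta_incl A j y
      show β g (P101.Tensor.beta A (P101.Limit.jsSys.inc j y)) =
        P101.Tensor.beta A (P101.Limit.jsSys.inc j y)
      exact e.symm ▸ hβs g j y
    · exact isClosed_eq ((StarAlgEquiv.isometry (β g)).continuous.comp
        (P101.Drop.continuous_hom _)) (P101.Drop.continuous_hom _)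
  have hcan : CanIntertwineEq (P101.Tensor.alpha A) β :=
    canIntertwineEq_of_homs α β (P101.Tensor.alpha A) (P101.Tensor.stage A)
      (fun a j z => P101.Tensor.commute_alpha_stage A j a z) (P101.Tensor.stage_conn A)
      (P101.Tensor.dense_span A) hβα hβs
      fun j => h (P101.JiangSu.Dims.seq j).m
        (le_trans (by norm_num) (P101.JiangSu.Dims.seq j).two_le_m)
  obtain ⟨Φ, w, hw, hwc, hwα⟩ := exists_cocycle_equiv (P101.Tensor.alpha A)
    (P101.Tensor.norm_alpha A) α β hmulβ hβα hcan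
  exact ⟨P101.Limit.JS, inferInstance,
    P101.Statement.isJiangSuAlgebra P101.Limit.isJiangSu, B, inferInstance, P101.Tensor.alpha A,
    P101.Tensor.beta A, P101.Tensor.isTensor A, β, ⟨hmulβ, hβα, hβz⟩, Φ, w, hw, hwc, hwα⟩

end Vale.Agent.P095.AF
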