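import Vale.Agent.P095.AF.Stages

/-!
# P095: every AF algebra has a tower of matrix units
-/

open scoped ComplexOrder
open Finset

noncomputable section

namespace Vale.Agent.P095.AF

variable {A : Type*} [CStarAlgebra A]

/-- The images of the matrix units of one term. -/
def rawUnit {β : Type*} [Fintype β] [DecidableEq β] {d : β → ℕ}
    (ψ : (∀ b, Matrix (Fin (d b)) (Fin (d b)) ℂ) →⋆ₐ[ℂ] A) (b : β) (i j : Fin (d b)) : A :=
  ψ (Pi.single b (Matrix.single i j 1))

section raw

variable {β : Type*} [Fintype β] [DecidableEq β] {d : β → ℕ}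
  (ψ : (∀ b, Matrix (Fin (d b)) (Fin (d b)) ℂ) →⋆ₐ[ℂ] A)

theorem rawUnit_mul (b : β) (i j l r : Fin (d b)) :
    rawUnit ψ b i j * rawUnit ψ b l r = if j = l then rawUnit ψ b i r else 0 := by
  rw [rawUnit, rawUnit, ← map_mul, ← Pi.single_mul]
  split_ifs with h
  · subst h; simp [rawUnit]
  · simp [h]

theorem rawUnit_mul_ne {b b' : β} (h : b ≠ b') (i j : Fin (d b)) (l r : Fin (d b')) :
    rawUnit ψ b i j * rawUnit ψ b' l r = 0 := by
  rw [rawUnit, rawUnit, ← map_mul]
  convert map_zero ψ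
  funext c
  rcases eq_or_ne c b with rfl | hc
  · simp [Pi.single_eq_of_ne h]
  · simp [Pi.single_eq_of_ne hc]

theorem star_rawUnit (b : β) (i j : Fin (d b)) : star (rawUnit ψ b i j) = rawUnit ψ b j i := by
  rw [rawUnit, rawUnit, ← map_star]
  congr 1
  funext c
  rcases eq_or_ne c b with rfl | hc
  · simp [Matrix.star_eq_conjTranspose]
  · simp [Pi.single_eq_of_ne hc]

theorem map_eq_sum_rawUnit (X : ∀ b, Matrix (Fin (d b)) (Fin (d b)) ℂ) :
    ψ X = ∑ b, ∑ i, ∑ j, X b i j • rawUnit ψ b i j := by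
  have e : X = ∑ b, ∑ i, ∑ j, X b i j • Pi.single b (Matrix.single i j (1 : ℂ)) := by
    funext c
    simp only [Finset.sum_apply, Pi.smul_apply]
    rw [Finset.sum_eq_single c]
    · simp [Matrix.smul_single, ← Matrix.matrix_eq_sum_single]
    · intro b _ hb; simp [Pi.single_eq_of_ne (Ne.symm hb)]
    · simp
  conv_lhs => rw [e]
  simp [map_sum, map_smul, rawUnit]

theorem rawUnit_eq_zero {b : β} (h : ∀ i, rawUnit ψ b i i = 0) (i j : Fin (d b)) :
    rawUnit ψ b i j = 0 := by
  have := rawUnit_mul ψ b i i i j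
  rw [h i, zero_mul, if_pos rfl] at this
  exact this.symm

theorem rawUnit_ne_diag {b : β} (h : ∃ i, rawUnit ψ b i i ≠ 0) (l : Fin (d b)) :
    rawUnit ψ b l l ≠ 0 := by
  obtain ⟨i, hi⟩ := h
  intro h0
  apply hi
  have := rawUnit_mul ψ b i l l i
  rw [if_pos rfl] at this
  rw [← this, ← show rawUnit ψ b l l * rawUnit ψ b l i = rawUnit ψ b l i by
    rw [rawUnit_mul, if_pos rfl], h0, zero_mul, mul_zero]

end raw

open Classical in
/-- Every nonzero AF algebra has a tower of matrix units. -/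
theorem IsAF.nonempty_tower [Nontrivial A] (h : IsAF A) : Nonempty (Tower A) := by
  obtain ⟨B, d, ψ, hnest, hdense⟩ := h
  let S : ∀ k, Type := fun k => {b : Fin (B k) // ∃ i, rawUnit (ψ k) b i i ≠ 0}
  have : ∀ k, Fintype (S k) := fun k => inferInstanceAs (Fintype {b // _})
  let e : ∀ k, Fin (Fintype.card (S k)) ≃ S k := fun k => (Fintype.equivFin (S k)).symm
  let bl : ∀ k, Fin (Fintype.card (S k)) → Fin (B k) := fun k b => (e k b).1
  have hpos : ∀ k b, d k (bl k b) - 1 + 1 = d k (bl k b) := fun k b => by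
    obtain ⟨i, -⟩ := (e k b).2
    have := i.isLt
    simp only [bl] at *
    omega
  have hbl : ∀ k b b', bl k b = bl k b' → b = b' := fun k b b' hh =>
    (e k).injective (Subtype.ext hh)
  let U : ∀ k b, Fin (d k (bl k b) - 1 + 1) → Fin (d k (bl k b) - 1 + 1) → A := fun k b i j =>
    rawUnit (ψ k) (bl k b) (Fin.cast (hpos k b) i) (Fin.cast (hpos k b) j)
  have hspan : ∀ k X, ψ k X ∈ Submodule.span ℂ
      (Set.range fun x : Σ b, Fin (d k (bl k b) - 1 + 1) × Fin (d k (bl k b) - 1 + 1) =>
        U k x.1 x.2.1 x.2.2) := by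
    intro k X
    rw [map_eq_sum_rawUnit]
    refine Submodule.sum_mem _ fun b _ => Submodule.sum_mem _ fun i _ => Submodule.sum_mem _
      fun j _ => Submodule.smul_mem _ _ ?_
    by_cases hb : ∃ l, rawUnit (ψ k) b l l ≠ 0
    · obtain ⟨c, hc⟩ := (e k).surjective ⟨b, hb⟩
      obtain rfl : bl k c = b := congrArg Subtype.val hc
      exact Submodule.subset_span ⟨⟨c, Fin.cast (hpos k c).symm i, Fin.cast (hpos k c).symm j⟩,
        by simp [U]⟩
    · push Not at hb
      rw [rawUnit_eq_zero (ψ k) hb]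
      exact zero_mem _
  refine ⟨{
    B := fun k => Fintype.card (S k)
    d := fun k b => d k (bl k b) - 1
    u := U
    star_u := fun k b i j => star_rawUnit (ψ k) _ _ _
    mul_u := fun k b i j l r => ?_
    mul_u_ne := fun k b b' hb i j l r => rawUnit_mul_ne (ψ k) (fun hh => hb (hbl k b b' hh)) _ _ _ _
    sum_u := fun k => ?_
    u_ne := fun k b => rawUnit_ne_diag (ψ k) (e k b).2 _
    nested := fun k b i j => ?_
    dense := hdense.mono (Set.iUnion_mono fun k => ?_) }⟩
  · simp only [U]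
    rw [rawUnit_mul]
    simp [Fin.cast_inj]
  · have h1 : (1 : A) = ∑ b : Fin (B k), ∑ i, rawUnit (ψ k) b i i := by
      rw [← map_one (ψ k), map_eq_sum_rawUnit]
      simp [Matrix.one_apply]
    rw [h1, ← Finset.sum_subset (Finset.subset_univ (Finset.univ.filter
      fun b : Fin (B k) => ∃ i, rawUnit (ψ k) b i i ≠ 0))]
    · rw [Finset.sum_subtype (p := fun b => ∃ i, rawUnit (ψ k) b i i ≠ 0) _ (by simp)]
      refine Fintype.sum_equiv (e k) _ _ fun b => ?_
      exact Fintype.sum_equiv (finCongr (hpos k b)) _ _ fun i => rfl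
    · intro b _ hb
      simp only [Finset.mem_filter, Finset.mem_univ, true_and, not_exists, not_not] at hb
      exact Finset.sum_eq_zero fun i _ => hb i
  · obtain ⟨Y, hY⟩ := hnest k (Set.mem_range_self
      (Pi.single (bl k b) (Matrix.single (Fin.cast (hpos k b) i) (Fin.cast (hpos k b) j) (1 : ℂ))))
    show ψ k _ ∈ _
    rw [← hY]
    exact hspan (k + 1) Y
  · rintro _ ⟨X, rfl⟩
    exact hspan k X

/-- An algebra with a tower is separable. -/
theorem Tower.separableSpace (T : Tower A) : TopologicalSpace.SeparableSpace A := by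
  rw [← TopologicalSpace.isSeparable_univ_iff]
  have h : TopologicalSpace.IsSeparable (⋃ k, (T.stage k : Set A)) :=
    TopologicalSpace.IsSeparable.iUnion fun k =>
      ((Set.finite_range _).countable.isSeparable).span
  exact h.closure.mono T.dense.closure_eq.ge

end Vale.Agent.P095.AF
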