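import Vale.Agent.P101.Defs
import Vale.Agent.P101.Statement

/-!
# P095: the notions in the statement on AF algebras
-/

open scoped ComplexOrder

set_option maxSynthPendingDepth 3

universe u v

noncomputable section

namespace Vale.Agent.P095.AF

/-- A unital AF algebra: the closure of an increasing union of images of finite direct sums of
matrix algebras. -/
def IsAF (A : Type*) [CStarAlgebra A] : Prop :=
  ∃ (B : ℕ → ℕ) (d : ∀ k, Fin (B k) → ℕ)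
    (ψ : ∀ k, (∀ b, Matrix (Fin (d k b)) (Fin (d k b)) ℂ) →⋆ₐ[ℂ] A),
    (∀ k, Set.range (ψ k) ⊆ Set.range (ψ (k + 1))) ∧ Dense (⋃ k, Set.range (ψ k))

/-- `β` is an action of the group. -/
def IsActionOn {G : Type v} [Group G] {B : Type u} [CStarAlgebra B] (β : G → B ≃⋆ₐ[ℂ] B) : Prop :=
  ∀ g h b, β (g * h) b = β g (β h b)

/-- `β` fixes the range of `κ`. -/
def FixesRange {G : Type v} {Z : Type} {B : Type u} [CStarAlgebra Z] [CStarAlgebra B]
    (κ : Z →⋆ₐ[ℂ] B) (β : G → B ≃⋆ₐ[ℂ] B) : Prop :=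
  ∀ g z, β g (κ z) = κ z

/-- `β` is an action extending `α` and trivial on the second leg, i.e. `α ⊗ id`. -/
def IsTensorId {G : Type v} [Group G] {A : Type u} {Z : Type} {B : Type u} [CStarAlgebra A]
    [CStarAlgebra Z] [CStarAlgebra B] (α : G → A ≃⋆ₐ[ℂ] A) (ι : A →⋆ₐ[ℂ] B) (κ : Z →⋆ₐ[ℂ] B)
    (β : G → B ≃⋆ₐ[ℂ] B) : Prop :=
  IsActionOn β ∧ (∀ g a, β g (ι a) = ι (α g a)) ∧ FixesRange κ β

/-- Cocycle conjugacy of two actions on unital algebras. -/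
def IsCocycleConjugate {G : Type v} [Group G] {A B : Type u} [CStarAlgebra A] [CStarAlgebra B]
    (α : G → A ≃⋆ₐ[ℂ] A) (β : G → B ≃⋆ₐ[ℂ] B) : Prop :=
  ∃ (Φ : A ≃⋆ₐ[ℂ] B) (w : G → B),
    (∀ g, w g ∈ unitary B) ∧ (∀ g h, w (g * h) = w g * β g (w h)) ∧
    ∀ g a, Φ (α g a) = w g * β g (Φ a) * star (w g)

/-- `α` is cocycle conjugate to `α ⊗ id` on some (equivalently: the) tensor product with a
Jiang-Su algebra. -/
def IsEquivariantlyZStable {G : Type v} [Group G] {A : Type u} [CStarAlgebra A]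
    (α : G → A ≃⋆ₐ[ℂ] A) : Prop :=
  ∃ (Z : Type) (_ : CStarAlgebra Z), P101.Statement.IsJiangSuAlgebra Z ∧
    ∃ (B : Type u) (_ : CStarAlgebra B) (ι : A →⋆ₐ[ℂ] B) (κ : Z →⋆ₐ[ℂ] B), P101.IsTensor ι κ ∧
      ∃ β : G → B ≃⋆ₐ[ℂ] B, IsTensorId α ι κ β ∧ IsCocycleConjugate α β

end Vale.Agent.P095.AF
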