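import Vale.Agent.P095.Defs
import Vale.Agent.P095.AF.Statement

/-!
# P095: AF algebras with a chosen tower of matrix units
-/

open scoped ComplexOrder

noncomputable section

namespace Vale.Agent.P095.AF

/-- An increasing sequence of systems of matrix units with dense span. -/
structure Tower (A : Type*) [CStarAlgebra A] where
  B : ℕ → ℕ
  d : ∀ k, Fin (B k) → ℕ
  u : ∀ k b, Fin (d k b + 1) → Fin (d k b + 1) → A
  star_u : ∀ k b i j, star (u k b i j) = u k b j i
  mul_u : ∀ k b i j l r, u k b i j * u k b l r = if j = l then u k b i r else 0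
  mul_u_ne : ∀ k b b', b ≠ b' → ∀ i j l r, u k b i j * u k b' l r = 0
  sum_u : ∀ k, ∑ b, ∑ i, u k b i i = 1
  u_ne : ∀ k b, u k b 0 0 ≠ 0
  nested : ∀ k b i j, u k b i j ∈ Submodule.span ℂ
    (Set.range fun x : Σ b', Fin (d (k + 1) b' + 1) × Fin (d (k + 1) b' + 1) =>
      u (k + 1) x.1 x.2.1 x.2.2)
  dense : Dense (⋃ k, (Submodule.span ℂ (Set.range fun x : Σ b, Fin (d k b + 1) × Fin (d k b + 1) =>
    u k x.1 x.2.1 x.2.2) : Set A))

namespace Tower

variable {A : Type*} [CStarAlgebra A] (T : Tower A)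

/-- The span of the `k`-th matrix units. -/
def stage (k : ℕ) : Submodule ℂ A :=
  Submodule.span ℂ (Set.range fun x : Σ b, Fin (T.d k b + 1) × Fin (T.d k b + 1) =>
    T.u k x.1 x.2.1 x.2.2)

/-- `x` commutes with the `k`-th stage. -/
def InComm (k : ℕ) (x : A) : Prop := ∀ b i j, Commute x (T.u k b i j)

/-- The first minimal projection of a block. -/
def pr (k : ℕ) (b : Fin (T.B k)) : A := T.u k b 0 0

/-- The unit of a block. -/
def zr (k : ℕ) (b : Fin (T.B k)) : A := ∑ i, T.u k b i i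

/-- The conditional expectation onto the commutant of a stage. -/
def exp (k : ℕ) (x : A) : A := ∑ b, ∑ i, T.u k b i 0 * x * T.u k b 0 i

/-- An automorphism which is asymptotically trivial on the commutants of the stages. -/
def CentrallyTrivial (σ : A ≃⋆ₐ[ℂ] A) : Prop :=
  ∀ ε : ℝ, 0 < ε → ∃ k, ∀ x, ‖x‖ ≤ 1 → T.InComm k x → ‖σ x - x‖ ≤ ε

/-- Comparison by traces in the commutant of a stage. -/
def CompareGoal : Prop :=
  ∀ (k m : ℕ) (e t : A), k ≤ m → e ∈ T.stage m → t ∈ T.stage m → T.InComm k e → T.InComm k t →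
    IsStarProjection e → IsStarProjection t →
    (∀ b, ∀ τ : A →ₗ[ℂ] ℂ, IsTracial τ → (τ (T.pr k b * e)).re < (τ (T.pr k b * t)).re) →
    ∃ v, T.InComm k v ∧ ‖v‖ ≤ 1 ∧ star v * v = e ∧ t * v = v

/-- Every nonzero element of a stage has nonzero component in every block of all later stages. -/
def FullGoal : Prop :=
  ∀ (k : ℕ) (p : A), p ∈ T.stage k → p ≠ 0 → ∃ m₀, ∀ m, m₀ ≤ m → ∀ b, T.zr m b * p ≠ 0

/-- Traces are bounded below on nonzero projections. -/
def PosGoal : Prop :=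
  ∀ (k : ℕ) (p : A), p ∈ T.stage k → IsStarProjection p → p ≠ 0 →
    ∃ c : ℝ, 0 < c ∧ ∀ τ : A →ₗ[ℂ] ℂ, IsTracial τ → c ≤ (τ p).re

/-- A projection meeting every block of a stage and moved away by finitely many automorphisms
which are not centrally trivial. -/
def MoveGoal : Prop :=
  ∀ (n : ℕ) (σ : Fin n → A ≃⋆ₐ[ℂ] A), (∀ i, ¬T.CentrallyTrivial (σ i)) →
    ∀ (k : ℕ) (ε : ℝ), 0 < ε → ∃ m q, k ≤ m ∧ q ∈ T.stage m ∧ T.InComm k q ∧ IsStarProjection q ∧
      (∀ b, T.pr k b * q ≠ 0) ∧ ∀ i, ‖q * σ i q‖ ≤ ε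

end Tower

end Vale.Agent.P095.AF
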