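import Vale.Agent.P095.Basic
import Vale.Agent.P095.Upgrade.MainDefs

/-!
# P095: almost invariant almost central matrix units of size a power of two
-/

open scoped ComplexOrder

namespace Vale.Agent.P095.AF

variable {G : Type*} [Group G] {A : Type*} [CStarAlgebra A] [PartialOrder A] [StarOrderedRing A]

/-- The trace structure of a tracial state. -/
noncomputable def trOf {τ : A →ₗ[ℂ] ℂ} (h : IsTracial τ) : Tr A :=
  ⟨PositiveLinearMap.mk₀ τ fun x hx => by
    obtain ⟨s, rfl⟩ := CStarAlgebra.nonneg_iff_eq_star_mul_self.1 hx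
    exact h.2.1 s, h.1, h.2.2⟩

@[simp] theorem trOf_apply {τ : A →ₗ[ℂ] ℂ} (h : IsTracial τ) (x : A) : (trOf h).f x = τ x := rfl

theorem isTracial_f (ω : Tr A) : IsTracial (ω.f.toLinearMap) :=
  ⟨ω.map_one', fun a => map_nonneg ω.f (star_mul_self_nonneg a), ω.tracial⟩

theorem nrm_le_of_small {x : A} {δ : ℝ} (h : SmallTwoNorm x (δ ^ 2)) (hδ : 0 ≤ δ) (ω : Tr A) :
    ω.nrm x ≤ δ := by
  refine (sq_le_sq₀ (ω.nrm_nonneg _) hδ).1 ?_
  rw [ω.nrm_sq_re]
  exact (h _ (isTracial_f ω)).le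

theorem nrm_mul_le_left (ω : Tr A) {a : A} (ha : ‖a‖ ≤ 1) (x : A) : ω.nrm (a * x) ≤ ω.nrm x :=
  (ω.nrm_mul_left a x).trans (mul_le_of_le_one_left (ω.nrm_nonneg _) ha)

theorem nrm_mul_le_right (ω : Tr A) {a : A} (ha : ‖a‖ ≤ 1) (x : A) : ω.nrm (x * a) ≤ ω.nrm x :=
  (ω.nrm_mul_right a x).trans (mul_le_of_le_one_right (ω.nrm_nonneg _) ha)

/-- Almost invariant almost central approximate matrix units of size `ι`, in all 2-norms. -/
def UnitsN (α : G → A ≃⋆ₐ[ℂ] A) (ι : Type*) [Fintype ι] [DecidableEq ι] : Prop :=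
  ∀ (C : Finset A) (K : Finset G) (δ : ℝ), 0 < δ → ∃ e : ι → ι → A, (∀ i j, ‖e i j‖ ≤ 1) ∧
    ∀ ω : Tr A, (∀ i j k l, ω.nrm (e i j * e k l - if j = k then e i l else 0) ≤ δ) ∧
      (∀ i j, ω.nrm (star (e i j) - e j i) ≤ δ) ∧ ω.nrm (∑ i, e i i - 1) ≤ δ ∧
      (∀ c ∈ C, ∀ i j, ω.nrm (c * e i j - e i j * c) ≤ δ) ∧
      ∀ k ∈ K, ∀ i j, ω.nrm (α k (e i j) - e i j) ≤ δ

variable {α : G → A ≃⋆ₐ[ℂ] A}

theorem unitsN_two (h : HasEquivariantUniformMcDuff α) : UnitsN α (Fin 2) := by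
  intro C K δ hδ
  obtain ⟨e, hn, h1, h2, h3, h4, h5⟩ := h C K (δ ^ 2) (by positivity)
  refine ⟨e, hn, fun ω => ⟨fun i j k l => nrm_le_of_small (h1 i j k l) hδ.le ω,
    fun i j => nrm_le_of_small (h2 i j) hδ.le ω, ?_,
    fun c hc i j => nrm_le_of_small (h4 c hc i j) hδ.le ω,
    fun k hk i j => nrm_le_of_small (h5 k hk i j) hδ.le ω⟩⟩
  rw [Fin.sum_univ_two]
  exact nrm_le_of_small h3 hδ.le ω

theorem unitsN_one : UnitsN α (Fin 1) := by
  intro C K δ hδ
  refine ⟨fun _ _ => 1, fun _ _ => ?_, fun ω => ?_⟩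
  · rcases subsingleton_or_nontrivial A with h | h
    · simp [Subsingleton.elim (1 : A) 0]
    · exact CStarRing.norm_one.le
  · refine ⟨fun i j k l => ?_, fun i j => ?_, ?_, fun c _ i j => ?_, fun k _ i j => ?_⟩
    · simp [Subsingleton.elim j k, ω.nrm_zero, hδ.le]
    all_goals simp [ω.nrm_zero, hδ.le]

theorem unitsN_equiv {ι κ : Type*} [Fintype ι] [DecidableEq ι] [Fintype κ] [DecidableEq κ]
    (σ : κ ≃ ι) (h : UnitsN α ι) : UnitsN α κ := by
  intro C K δ hδ
  obtain ⟨e, hn, he⟩ := h C K δ hδ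
  refine ⟨fun i j => e (σ i) (σ j), fun i j => hn _ _, fun ω => ?_⟩
  obtain ⟨h1, h2, h3, h4, h5⟩ := he ω
  refine ⟨fun i j k l => ?_, fun i j => h2 _ _, ?_, fun c hc i j => h4 c hc _ _,
    fun k hk i j => h5 k hk _ _⟩
  · simpa using h1 (σ i) (σ j) (σ k) (σ l)
  · rwa [σ.sum_comp fun i => e i i]

open Classical in
theorem unitsN_prod {ι κ : Type*} [Fintype ι] [DecidableEq ι] [Fintype κ] [DecidableEq κ]
    (hι : UnitsN α ι) (hκ : UnitsN α κ) : UnitsN α (ι × κ) := by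
  intro C K δ hδ
  set M : ℝ := Fintype.card κ + 3 with hM
  have hM0 : 0 < M := by positivity
  obtain ⟨e, hen, he⟩ := hκ C K (δ / M) (by positivity)
  obtain ⟨f, hfn, hf⟩ := hι (C ∪ Finset.univ.image fun x : κ × κ => e x.1 x.2) K (δ / M)
    (by positivity)
  have h3M : δ / M + δ / M + δ / M ≤ δ := by
    have : δ / M * 3 ≤ δ / M * M := mul_le_mul_of_nonneg_left (by
      have : (0 : ℝ) ≤ Fintype.card κ := Nat.cast_nonneg _
      linarith) (by positivity)
    rw [div_mul_cancel₀ δ hM0.ne'] at this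
    linarith
  refine ⟨fun x y => f x.1 y.1 * e x.2 y.2,
    fun x y => (norm_mul_le _ _).trans (mul_le_one₀ (hfn _ _) (norm_nonneg _) (hen _ _)),
    fun ω => ?_⟩
  obtain ⟨e1, e2, e3, e4, e5⟩ := he ω
  obtain ⟨f1, f2, f3, f4, f5⟩ := hf ω
  have hef : ∀ i j a b, ω.nrm (e i j * f a b - f a b * e i j) ≤ δ / M := fun i j a b =>
    f4 _ (Finset.mem_union_right _ (Finset.mem_image.2 ⟨(i, j), Finset.mem_univ _, rfl⟩)) a b
  have add3 : ∀ x y z : A, ω.nrm x ≤ δ / M → ω.nrm y ≤ δ / M → ω.nrm z ≤ δ / M →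
      ω.nrm (x + y + z) ≤ δ := fun x y z hx hy hz => by
    linarith [ω.nrm_add (x + y) z, ω.nrm_add x y]
  have hd0 : 0 ≤ δ / M := by positivity
  refine ⟨?_, ?_, ?_, fun c hc => ?_, fun k hk => ?_⟩
  · rintro ⟨a, i⟩ ⟨b, j⟩ ⟨c, k⟩ ⟨d, l⟩
    have eq : f a b * e i j * (f c d * e k l) -
        (if (b, j) = (c, k) then f a d * e i l else 0) =
        f a b * (e i j * f c d - f c d * e i j) * e k l +
          (f a b * f c d - if b = c then f a d else 0) * (e i j * e k l) +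
          (if b = c then f a d else 0) * (e i j * e k l - if j = k then e i l else 0) := by
      by_cases h1 : b = c <;> by_cases h2 : j = k <;> simp [h1, h2] <;> noncomm_ring
    show ω.nrm (f a b * e i j * (f c d * e k l) - _) ≤ δ
    rw [eq]
    refine add3 _ _ _ (((nrm_mul_le_right ω (hen _ _) _).trans (nrm_mul_le_left ω (hfn _ _) _)).trans
      (hef i j c d)) ((nrm_mul_le_right ω ((norm_mul_le _ _).trans
        (mul_le_one₀ (hen _ _) (norm_nonneg _) (hen _ _))) _).trans (f1 a b c d)) ?_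
    split_ifs with h1 h2
    · exact (nrm_mul_le_left ω (hfn _ _) _).trans (by simpa [h2] using e1 i j k l)
    · exact (nrm_mul_le_left ω (hfn _ _) _).trans (by simpa [h2] using e1 i j k l)
    all_goals rw [zero_mul, ω.nrm_zero]; exact hd0
  · rintro ⟨a, i⟩ ⟨b, j⟩
    have eq : star (f a b * e i j) - f b a * e j i =
        star (e i j) * (star (f a b) - f b a) + (star (e i j) - e j i) * f b a +
          (e j i * f b a - f b a * e j i) := by
      rw [star_mul]; noncomm_ring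
    show ω.nrm (star (f a b * e i j) - f b a * e j i) ≤ δ
    rw [eq]
    exact add3 _ _ _ ((nrm_mul_le_left ω ((norm_star _).trans_le (hen _ _)) _).trans (f2 a b))
      ((nrm_mul_le_right ω (hfn _ _) _).trans (e2 i j)) (hef j i b a)
  · have eq : ∑ x : ι × κ, f x.1 x.1 * e x.2 x.2 - 1 =
        (∑ a, f a a - 1) * (∑ i, e i i) + (∑ i, e i i - 1) := by
      rw [Fintype.sum_prod_type, sub_mul, one_mul, Finset.sum_mul]
      simp only [Finset.mul_sum]
      abel
    show ω.nrm (∑ x : ι × κ, f x.1 x.1 * e x.2 x.2 - 1) ≤ δ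
    rw [eq]
    refine (ω.nrm_add _ _).trans ?_
    have h1 := ω.nrm_mul_right (∑ i, e i i) (∑ a, f a a - 1)
    have h2 : ‖∑ i, e i i‖ ≤ Fintype.card κ :=
      (norm_sum_le_of_le _ fun i _ => hen i i).trans (by simp)
    have h4 : ω.nrm (∑ a, f a a - 1) * ‖∑ i, e i i‖ ≤ δ / M * Fintype.card κ :=
      mul_le_mul f3 h2 (norm_nonneg _) hd0
    have h5 : δ / M * Fintype.card κ + δ / M * 3 = δ := by
      rw [← mul_add, ← hM, div_mul_cancel₀ δ hM0.ne']
    linarith
  · rintro ⟨a, i⟩ ⟨b, j⟩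
    have eq : c * (f a b * e i j) - f a b * e i j * c =
        (c * f a b - f a b * c) * e i j + f a b * (c * e i j - e i j * c) := by noncomm_ring
    show ω.nrm (c * (f a b * e i j) - f a b * e i j * c) ≤ δ
    rw [eq]
    refine (ω.nrm_add _ _).trans ?_
    linarith [(nrm_mul_le_right ω (hen i j) (c * f a b - f a b * c)).trans
        (f4 c (Finset.mem_union_left _ hc) a b),
      (nrm_mul_le_left ω (hfn a b) (c * e i j - e i j * c)).trans (e4 c hc i j)]
  · rintro ⟨a, i⟩ ⟨b, j⟩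
    have eq : α k (f a b * e i j) - f a b * e i j =
        (α k (f a b) - f a b) * α k (e i j) + f a b * (α k (e i j) - e i j) := by
      rw [map_mul]; noncomm_ring
    show ω.nrm (α k (f a b * e i j) - f a b * e i j) ≤ δ
    rw [eq]
    refine (ω.nrm_add _ _).trans ?_
    linarith [(nrm_mul_le_right ω (a := α k (e i j)) ((StarAlgEquiv.norm_map _ _).trans_le (hen i j))
        (α k (f a b) - f a b)).trans (f5 k hk a b),
      (nrm_mul_le_left ω (hfn a b) (α k (e i j) - e i j)).trans (e5 k hk i j)]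

/-- Units of every size `2 ^ m`. -/
theorem unitsN_pow (h : HasEquivariantUniformMcDuff α) : ∀ m, UnitsN α (Fin (2 ^ m))
  | 0 => unitsN_equiv (finCongr (by simp)) unitsN_one
  | m + 1 => unitsN_equiv ((finCongr (by rw [pow_succ'])).trans finProdFinEquiv.symm)
      (unitsN_prod (unitsN_two h) (unitsN_pow h m))

end Vale.Agent.P095.AF
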