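import Vale.Agent.P095.AF.Goals
import Vale.Agent.P095.AF.Powers
import Vale.Agent.P101.Homs
import Vale.Agent.P101.SeqAlg

/-!
# P095: invariant maps from the dimension drop algebras by property (SI)

The matrix units are classes in the fixed points of the central sequence algebra; property (SI) and
a diagonal selection give the remaining generator of the dimension drop algebra.
-/

set_option maxSynthPendingDepth 3

open Filter Topology
open scoped ComplexOrder

noncomputable section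

namespace Vale.Agent.P095.AF

open P101 (FO cseq toFO toFO_surjective)

section Fixed

variable {G : Type*} [Group G] {A : Type*} [CStarAlgebra A] (α : G → A ≃⋆ₐ[ℂ] A) (ω : Ultrafilter ℕ)

/-- The fixed points of the induced action on the central sequence algebra. -/
def fixed : StarSubalgebra ℂ (FO A ω) :=
  ⨅ g : G, StarAlgHom.equalizer (P101.SeqAlg.mapHom (ω := ω) (α g : A →⋆ₐ[ℂ] A))
    (P101.SeqAlg.mapHom (ω := ω) (StarAlgHom.id ℂ A))

omit [Group G] in
theorem toFO_mem_fixed_iff (x : cseq A ω) :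
    toFO x ∈ fixed α ω ↔
      ∀ g, Tendsto (fun n => α g ((x : ℕ → A) n) - (x : ℕ → A) n) (ω : Filter ℕ) (𝓝 0) := by
  rw [fixed, StarSubalgebra.mem_iInf]
  refine forall_congr' fun g => ?_
  rw [StarAlgHom.mem_equalizer, P101.SeqAlg.mapHom_toFO, P101.SeqAlg.mapHom_toFO,
    P101.SeqAlg.toSQ_eq_iff]
  rfl

omit [Group G] in
theorem isClosed_fixed : IsClosed (fixed α ω : Set (FO A ω)) := by
  rw [fixed, StarSubalgebra.coe_iInf]
  refine isClosed_iInter fun g => ?_
  show IsClosed {x | P101.SeqAlg.mapHom (ω := ω) (α g : A →⋆ₐ[ℂ] A) x =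
    P101.SeqAlg.mapHom (ω := ω) (StarAlgHom.id ℂ A) x}
  have hc : ∀ f : FO A ω →⋆ₐ[ℂ] P101.SeqAlg.SQ A ω, Continuous f := fun f =>
    AddMonoidHomClass.continuous_of_bound f 1 fun x => by
      simpa using NonUnitalStarAlgHom.norm_apply_le f x
  exact isClosed_eq (hc _) (hc _)

instance : IsClosed (fixed α ω : Set (FO A ω)) := isClosed_fixed α ω

end Fixed

section UnitsMap

variable {B : Type*} [CStarAlgebra B] {n : ℕ}

/-- The linear map given by a family indexed by the matrix units. -/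
def unitsMap (E : Fin n → Fin n → B) : CStarMatrix (Fin n) (Fin n) ℂ →ₗ[ℂ] B where
  toFun x := ∑ i, ∑ j, x i j • E i j
  map_add' x y := by simp only [CStarMatrix.add_apply, add_smul, Finset.sum_add_distrib]
  map_smul' c x := by
    simp only [CStarMatrix.smul_apply, smul_eq_mul, mul_smul, Finset.smul_sum, RingHom.id_apply]

theorem unitsMap_apply (E : Fin n → Fin n → B) (x : CStarMatrix (Fin n) (Fin n) ℂ) :
    unitsMap E x = ∑ i, ∑ j, x i j • E i j := rfl

theorem unitsMap_one (E : Fin n → Fin n → B) : unitsMap E 1 = ∑ i, E i i := by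
  simp [unitsMap_apply, CStarMatrix.one_apply, ite_smul]

theorem unitsMap_single (E : Fin n → Fin n → B) (a b : Fin n) :
    unitsMap E (CStarMatrix.ofMatrix (Matrix.single a b 1)) = E a b := by
  rw [unitsMap_apply]
  simp [CStarMatrix.ofMatrix_apply, Matrix.single_apply, ite_and, ite_smul]

theorem unitsMap_star (E : Fin n → Fin n → B) (hs : ∀ i j, star (E i j) = E j i)
    (x : CStarMatrix (Fin n) (Fin n) ℂ) : unitsMap E (star x) = star (unitsMap E x) := by
  simp only [unitsMap_apply, star_sum, star_smul, hs, CStarMatrix.star_apply]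
  exact Finset.sum_comm

theorem unitsMap_mul (E : Fin n → Fin n → B)
    (hm : ∀ i j k l, E i j * E k l = if j = k then (∑ r, E r r) * E i l else 0)
    (x y : CStarMatrix (Fin n) (Fin n) ℂ) :
    unitsMap E x * unitsMap E y = unitsMap E 1 * unitsMap E (x * y) := by
  rw [unitsMap_one]
  generalize ∑ r, E r r = p at hm ⊢
  simp only [unitsMap_apply, CStarMatrix.mul_apply, Finset.sum_smul, Finset.mul_sum,
    Finset.sum_mul, smul_mul_assoc, mul_smul_comm, hm, smul_ite, smul_zero,
    Finset.sum_ite_eq', Finset.mem_univ, if_true]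
  simp only [Finset.smul_sum, smul_smul]
  refine ((Finset.sum_congr rfl fun _ _ => Finset.sum_comm).trans Finset.sum_comm).trans
    (Finset.sum_congr rfl fun i _ => ?_)
  rw [Finset.sum_comm]
  exact Finset.sum_congr rfl fun l _ => Finset.sum_congr rfl fun k _ => by rw [mul_comm]

/-- A sum of orthogonal selfadjoint contractions is a contraction. -/
theorem norm_sum_le_one (E : Fin n → B) (hs : ∀ i, IsSelfAdjoint (E i))
    (ho : ∀ i j, i ≠ j → E i * E j = 0) (h1 : ∀ i, ‖E i‖ ≤ 1) : ‖∑ i, E i‖ ≤ 1 := by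
  set p := ∑ i, E i with hp
  have hpw : ∀ k : ℕ, p ^ (k + 1) = ∑ i, E i ^ (k + 1) := by
    intro k
    induction k with
    | zero => simp [hp]
    | succ k ih =>
      rw [pow_succ, ih, hp, Finset.sum_mul]
      refine Finset.sum_congr rfl fun i _ => ?_
      rw [Finset.mul_sum, Finset.sum_eq_single i, ← pow_succ]
      · intro j _ hj
        rw [pow_succ, mul_assoc, ho i j (Ne.symm hj), mul_zero]
      · simp
  have hb : ∀ k : ℕ, ‖p ^ (k + 1)‖ ≤ n := by
    intro k
    rw [hpw]
    refine (norm_sum_le_of_le _ (n := fun _ => (1 : ℝ)) fun i _ => ?_).trans (by simp)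
    exact (norm_pow_le' _ (Nat.succ_pos k)).trans (pow_le_one₀ (norm_nonneg _) (h1 i))
  by_contra hc
  obtain ⟨m, hm⟩ := pow_unbounded_of_one_lt (n : ℝ) (not_le.1 hc)
  have hsa : IsSelfAdjoint p := isSelfAdjoint_sum _ fun i _ => hs i
  have h2 : ‖p ^ (2 ^ m)‖ = ‖p‖ ^ (2 ^ m) := by
    simpa using congrArg NNReal.toReal (hsa.nnnorm_pow_two_pow m)
  obtain ⟨k, hk⟩ : ∃ k, 2 ^ m = k + 1 := ⟨2 ^ m - 1, by have := Nat.one_le_two_pow (n := m); omega⟩
  have h3 := hb k
  rw [← hk, h2] at h3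
  exact absurd ((pow_le_pow_right₀ (not_le.1 hc).le Nat.lt_two_pow_self.le).trans h3) (not_le.2 hm)

end UnitsMap

section Null

variable {A : Type*} [CStarAlgebra A] {l : Filter ℕ}

theorem tendsto_mul_null {x y : ℕ → A} {C : ℝ} (hx : ∀ n, ‖x n‖ ≤ C)
    (hy : Tendsto y l (𝓝 0)) : Tendsto (fun n => x n * y n) l (𝓝 0) :=
  squeeze_zero_norm (fun n => (norm_mul_le _ _).trans
    (mul_le_mul_of_nonneg_right (hx n) (norm_nonneg _))) (by simpa using hy.norm.const_mul C)

theorem tendsto_null_mul {x y : ℕ → A} {C : ℝ} (hx : ∀ n, ‖x n‖ ≤ C)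
    (hy : Tendsto y l (𝓝 0)) : Tendsto (fun n => y n * x n) l (𝓝 0) :=
  squeeze_zero_norm (fun n => (norm_mul_le _ _).trans
    (mul_le_mul_of_nonneg_left (hx n) (norm_nonneg _))) (by simpa using hy.norm.mul_const C)

theorem comm_congr {c : A} {x y : ℕ → A} (h : Tendsto (fun n => c * x n - x n * c) l (𝓝 0))
    (hxy : Tendsto (fun n => y n - x n) l (𝓝 0)) :
    Tendsto (fun n => c * y n - y n * c) l (𝓝 0) := by
  have h1 := (h.add (hxy.const_mul c)).sub (hxy.mul_const c)
  simp only [mul_zero, zero_mul, add_zero, sub_zero] at h1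
  refine h1.congr fun n => ?_
  noncomm_ring

theorem inv_congr (σ : A ≃⋆ₐ[ℂ] A) {x y : ℕ → A} (h : Tendsto (fun n => σ (x n) - x n) l (𝓝 0))
    (hxy : Tendsto (fun n => y n - x n) l (𝓝 0)) :
    Tendsto (fun n => σ (y n) - y n) l (𝓝 0) := by
  have h0 : Tendsto (fun n => σ (y n - x n)) l (𝓝 0) :=
    squeeze_zero_norm (fun n => (StarAlgEquiv.norm_map σ _).le) (by simpa using hxy.norm)
  have h1 := (h.add h0).sub hxy
  simp only [add_zero, sub_zero] at h1
  refine h1.congr fun n => ?_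
  rw [map_sub]
  abel

variable [PartialOrder A] [StarOrderedRing A]

theorem norm_tracial_le {τ : A →ₗ[ℂ] ℂ} (hτ : IsTracial τ) (x : A) : ‖τ x‖ ≤ ‖x‖ := by
  rw [← trOf_apply hτ]
  exact ((trOf hτ).norm_apply_le x).trans ((trOf hτ).nrm_le_norm x)

theorem TracialNull.congr' {x y : ℕ → A} (h : TracialNull l x)
    (hxy : Tendsto (fun n => y n - x n) l (𝓝 0)) : TracialNull l y := by
  intro ε hε
  filter_upwards [h (ε / 2) (half_pos hε), hxy.norm.eventually
    (eventually_le_nhds (show ‖(0 : A)‖ < ε / 2 by rw [norm_zero]; exact half_pos hε))] with n h1 h2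
  intro τ hτ
  have e : τ (y n) = τ (x n) + τ (y n - x n) := by rw [map_sub]; ring
  rw [e]
  linarith [norm_add_le (τ (x n)) (τ (y n - x n)), h1 τ hτ, norm_tracial_le hτ (y n - x n)]

theorem TracialNull.nonneg_mul {e a : ℕ → A} (h : TracialNull l e) (he : ∀ n, 0 ≤ e n)
    (ha : ∀ n, ‖a n‖ ≤ 1) : TracialNull l fun n => e n * a n := by
  intro ε hε
  filter_upwards [h ε hε] with n hn τ hτ
  refine le_trans ?_ (hn τ hτ)
  rw [hτ.2.2, ← trOf_apply hτ, ← trOf_apply hτ (e n)]
  refine ((trOf hτ).norm_apply_mul_nonneg (a n) (he n)).trans ?_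
  rw [(trOf hτ).norm_apply_eq (he n)]
  exact mul_le_of_le_one_left ((trOf hτ).nonneg (he n)) (ha n)

end Null

section Diag

variable {G : Type*} [Group G] [Countable G] {A : Type*} [CStarAlgebra A]
  [TopologicalSpace.SeparableSpace A] (α : G → A ≃⋆ₐ[ℂ] A) {l : Filter ℕ}

/-- A sequence selected from finitely described approximate solutions. -/
theorem exists_diag (hl : l ≤ atTop) (e f : ℕ → A)
    (h : ∀ (C : Finset A) (K : Finset G) (ε : ℝ), 0 < ε → ∀ᶠ n in l, ∃ s : A, ‖s‖ ≤ 2 ∧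
      ‖star s * s - e n‖ ≤ ε ∧ ‖f n * s - s‖ ≤ ε ∧ (∀ c ∈ C, ‖c * s - s * c‖ ≤ ε) ∧
      ∀ k ∈ K, ‖α k s - s‖ ≤ ε) :
    ∃ s : ℕ → A, (∀ n, ‖s n‖ ≤ 2) ∧ Tendsto (fun n => star (s n) * s n - e n) l (𝓝 0) ∧
      Tendsto (fun n => f n * s n - s n) l (𝓝 0) ∧
      (∀ c, Tendsto (fun n => c * s n - s n * c) l (𝓝 0)) ∧
      ∀ g, Tendsto (fun n => α g (s n) - s n) l (𝓝 0) := by
  classical
  obtain ⟨k, hk⟩ := exists_surjective_nat G
  let d := TopologicalSpace.denseSeq A
  let good : ℕ → ℕ → A → Prop := fun m n s => ‖s‖ ≤ 2 ∧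
    ‖star s * s - e n‖ ≤ 1 / ((m : ℝ) + 1) ∧ ‖f n * s - s‖ ≤ 1 / ((m : ℝ) + 1) ∧
    (∀ i ≤ m, ‖d i * s - s * d i‖ ≤ 1 / ((m : ℝ) + 1)) ∧
    ∀ i ≤ m, ‖α (k i) s - s‖ ≤ 1 / ((m : ℝ) + 1)
  have hev : ∀ m, ∀ᶠ n in l, ∃ s, good m n s := fun m => by
    filter_upwards [h ((Finset.range (m + 1)).image d) ((Finset.range (m + 1)).image k)
      (1 / ((m : ℝ) + 1)) (by positivity)] with n hn
    obtain ⟨s, h1, h2, h3, h4, h5⟩ := hn
    exact ⟨s, h1, h2, h3,
      fun i hi => h4 _ (Finset.mem_image_of_mem d (Finset.mem_range.2 (Nat.lt_succ_of_le hi))),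
      fun i hi => h5 _ (Finset.mem_image_of_mem k (Finset.mem_range.2 (Nat.lt_succ_of_le hi)))⟩
  let lev : ℕ → ℕ := fun n => Nat.findGreatest (fun m => ∃ s, good m n s) n
  let s : ℕ → A := fun n => if hs : ∃ s, good (lev n) n s then hs.choose else 0
  have hs2 : ∀ n, ‖s n‖ ≤ 2 := fun n => by
    simp only [s]
    split_ifs with hs
    · exact hs.choose_spec.1
    · simp
  have key : ∀ M : ℕ, ∀ᶠ n in l, M ≤ lev n ∧ good (lev n) n (s n) := fun M => by
    filter_upwards [hev M, hl (eventually_ge_atTop M)] with n hn hM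
    have h2 : ∃ x, good (lev n) n x :=
      Nat.findGreatest_spec (P := fun m => ∃ x, good m n x) hM hn
    refine ⟨Nat.le_findGreatest hM hn, ?_⟩
    simp only [s, dif_pos h2]
    exact h2.choose_spec
  have to0 : ∀ (F : ℕ → A) (M₀ : ℕ),
      (∀ n, M₀ ≤ lev n → good (lev n) n (s n) → ‖F n‖ ≤ 1 / ((lev n : ℝ) + 1)) →
      Tendsto F l (𝓝 0) := fun F M₀ hF => by
    rw [tendsto_zero_iff_norm_tendsto_zero, Metric.tendsto_nhds]
    intro ε hε
    obtain ⟨M, hM⟩ := exists_nat_one_div_lt hε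
    filter_upwards [key (max M₀ M)] with n hn
    rw [dist_zero_right, norm_norm]
    refine ((hF n ((le_max_left _ _).trans hn.1) hn.2).trans ?_).trans_lt hM
    exact Nat.one_div_le_one_div ((le_max_right _ _).trans hn.1)
  refine ⟨s, hs2, to0 _ 0 fun n _ hg => hg.2.1, to0 _ 0 fun n _ hg => hg.2.2.1, fun c => ?_,
    fun g => ?_⟩
  · rw [tendsto_zero_iff_norm_tendsto_zero, Metric.tendsto_nhds]
    intro ε hε
    obtain ⟨i, hi⟩ := (TopologicalSpace.denseRange_denseSeq A).exists_dist_lt c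
      (show 0 < ε / 8 by positivity)
    have h1 := (to0 (fun n => d i * s n - s n * d i) i fun n hn hg => hg.2.2.2.1 i hn).norm
    rw [norm_zero] at h1
    filter_upwards [h1.eventually (eventually_lt_nhds (half_pos hε))] with n hn
    rw [dist_zero_right, norm_norm]
    rw [dist_eq_norm] at hi
    have e1 : c * s n - s n * c =
        (c - d i) * s n - s n * (c - d i) + (d i * s n - s n * d i) := by noncomm_ring
    rw [e1]
    refine (norm_add_le _ _).trans_lt ?_
    have h2 := norm_sub_le ((c - d i) * s n) (s n * (c - d i))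
    have h3 := norm_mul_le (c - d i) (s n)
    have h4 := norm_mul_le (s n) (c - d i)
    have h5 := mul_le_mul hi.le (hs2 n) (norm_nonneg _) (by positivity)
    linarith
  · obtain ⟨i, rfl⟩ := hk g
    exact to0 _ i fun n hn hg => hg.2.2.2.2 i hn

end Diag

section Main

variable {G : Type*} [Group G] {A : Type*} [CStarAlgebra A] (α : G → A ≃⋆ₐ[ℂ] A) {ω : Ultrafilter ℕ}
  {N : ℕ}

omit [Group G] in
theorem unit_mem (hω : (ω : Filter ℕ) ≤ atTop) (u : NearUnits α N) (i j : Fin N) :
    (fun n => u.a n i j) ∈ cseq A ω :=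
  ⟨⟨1, fun n => u.norm_le n i j⟩, fun c => by
    simpa using ((u.central c i j).mono_left hω).neg⟩

/-- The class of a matrix unit. -/
def unitSeq (hω : (ω : Filter ℕ) ≤ atTop) (u : NearUnits α N) (i j : Fin N) : cseq A ω :=
  ⟨fun n => u.a n i j, unit_mem α hω u i j⟩

/-- The class of a matrix unit among the fixed points. -/
def unitFix (hω : (ω : Filter ℕ) ≤ atTop) (u : NearUnits α N) (i j : Fin N) : fixed α ω :=
  ⟨toFO (unitSeq α hω u i j),
    (toFO_mem_fixed_iff α ω _).2 fun g => (u.invariant g i j).mono_left hω⟩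

theorem toFO_sum {ι : Type*} (s : Finset ι) (x : ι → cseq A ω) :
    toFO (∑ i ∈ s, x i) = ∑ i ∈ s, toFO (x i) :=
  map_sum (Ideal.Quotient.mk (P101.nullIdeal A ω)) x s

variable [Countable G] [TopologicalSpace.SeparableSpace A] [PartialOrder A] [StarOrderedRing A]

/-- Property (SI) turns almost invariant matrix units into an invariant map from a dimension drop
algebra. -/
theorem exists_hom_fixed [NeZero N] (hω : (ω : Filter ℕ) ≤ atTop) (u : NearUnits α N)
    (hsi : SIGoal α) :
    Nonempty (P101.Drop.dropAlg N (N + 1) ℂ →⋆ₐ[ℂ] fixed α ω) := by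
  let : PartialOrder (fixed α ω) := CStarAlgebra.spectralOrder _
  have : StarOrderedRing (fixed α ω) := CStarAlgebra.spectralOrderedRing _
  set E := unitFix α hω u with hE
  have hcoe : ∀ i j, ((E i j : fixed α ω) : FO A ω) = toFO (unitSeq α hω u i j) := fun _ _ => rfl
  have hstar : ∀ i j, star (E i j) = E j i := fun i j => by
    refine Subtype.ext ?_
    rw [StarMemClass.coe_star, hcoe, hcoe, P101.star_toFO, P101.toFO_eq_iff]
    exact (u.star_a i j).mono_left hω
  have hmulE : ∀ i j k l, E i j * E k l = if j = k then (∑ r, E r r) * E i l else 0 := by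
    intro i j k l
    refine Subtype.ext ?_
    have h := (u.mul_a i j k l).mono_left hω
    split_ifs with hjk
    · simp only [MulMemClass.coe_mul, AddSubmonoidClass.coe_finsetSum, hcoe, ← toFO_sum,
        ← P101.toFO_mul, P101.toFO_eq_iff]
      refine h.congr fun n => ?_
      simp [unitSeq, hjk, Finset.sum_apply]
    · simp only [MulMemClass.coe_mul, ZeroMemClass.coe_zero, hcoe, ← P101.toFO_zero,
        ← P101.toFO_mul, P101.toFO_eq_iff]
      refine h.congr fun n => ?_
      simp [unitSeq, hjk]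
  set pSeq : cseq A ω := ∑ i, unitSeq α hω u i i with hpSeq
  have hpn : ∀ n, (pSeq : ℕ → A) n = ∑ i, u.a n i i := fun n => by
    simp [hpSeq, unitSeq, Finset.sum_apply]
  have hp : ((∑ i, E i i : fixed α ω) : FO A ω) = toFO pSeq := by
    rw [AddSubmonoidClass.coe_finsetSum, hpSeq, toFO_sum]
    rfl
  have hp1 : ‖toFO pSeq‖ ≤ 1 := by
    rw [← hp, AddSubmonoidClass.coe_finsetSum]
    refine norm_sum_le_one _ (fun i => congrArg Subtype.val (hstar i i)) (fun i j hij => ?_)
      fun i => P101.norm_toFO_le_of_eventually (.of_forall fun n => u.norm_le n i i)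
    have h := congrArg Subtype.val (hmulE i i j j)
    rwa [if_neg hij, MulMemClass.coe_mul, ZeroMemClass.coe_zero] at h
  choose x hx1 hx using u.diag
  -- positive contractive representatives
  set P : ℕ → A := fun n => ∑ i, star (x i n) * x i n with hP
  have hP0 : ∀ n, 0 ≤ P n := fun n => Finset.sum_nonneg fun i _ => star_mul_self_nonneg _
  have hPd : Tendsto (fun n => P n - (pSeq : ℕ → A) n) (ω : Filter ℕ) (𝓝 0) := by
    have h := tendsto_finsetSum Finset.univ fun i _ => (hx i).mono_left hω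
    rw [Finset.sum_const_zero] at h
    exact h.congr fun n => by rw [hpn, hP, Finset.sum_sub_distrib]
  set t : ℕ → ℝ := fun n => max 1 ‖P n‖ with ht
  have ht1 : ∀ n, 1 ≤ t n := fun n => le_max_left _ _
  have htl : Tendsto t (ω : Filter ℕ) (𝓝 1) := by
    have h := tendsto_const_nhds (x := (1 : ℝ)) (f := (ω : Filter ℕ))
    have h2 := h.max ((P101.tendsto_norm_toFO pSeq).add hPd.norm)
    rw [norm_zero, add_zero, max_eq_left hp1] at h2
    exact tendsto_of_tendsto_of_tendsto_of_le_of_le h h2 ht1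
      fun n => max_le_max le_rfl (norm_le_insert' _ _)
  set Q : ℕ → A := fun n => (t n)⁻¹ • P n with hQ
  have hQ0 : ∀ n, 0 ≤ Q n := fun n =>
    smul_nonneg (inv_nonneg.2 (zero_le_one.trans (ht1 n))) (hP0 n)
  have hQ1 : ∀ n, Q n ≤ 1 := fun n => by
    rw [← CStarAlgebra.norm_le_one_iff_of_nonneg _ (hQ0 n), hQ, norm_smul, Real.norm_of_nonneg
      (inv_nonneg.2 (zero_le_one.trans (ht1 n))), inv_mul_le_iff₀ (zero_lt_one.trans_le (ht1 n)),
      mul_one]
    exact le_max_right _ _
  have hQd : Tendsto (fun n => Q n - P n) (ω : Filter ℕ) (𝓝 0) := by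
    refine squeeze_zero_norm (fun n => ?_) (by simpa using htl.sub_const 1)
    have ht0 : 0 < t n := zero_lt_one.trans_le (ht1 n)
    rw [show Q n - P n = ((t n)⁻¹ - 1) • P n by rw [hQ, sub_smul, one_smul], norm_smul,
      Real.norm_of_nonpos (sub_nonpos.2 (inv_le_one_of_one_le₀ (ht1 n))), neg_sub]
    refine (mul_le_mul_of_nonneg_left (le_max_right 1 ‖P n‖)
      (sub_nonneg.2 (inv_le_one_of_one_le₀ (ht1 n)))).trans_eq ?_
    show (1 - (t n)⁻¹) * t n = t n - 1
    rw [sub_mul, one_mul, inv_mul_cancel₀ ht0.ne']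
  set e : ℕ → A := fun n => 1 - Q n with he
  have he0 : ∀ n, 0 ≤ e n := fun n => sub_nonneg.2 (hQ1 n)
  have he1 : ∀ n, ‖e n‖ ≤ 1 := fun n =>
    (CStarAlgebra.norm_le_one_iff_of_nonneg _ (he0 n)).2 (sub_le_self _ (hQ0 n))
  have hed : Tendsto (fun n => e n - (1 - (pSeq : ℕ → A) n)) (ω : Filter ℕ) (𝓝 0) := by
    have h := (hQd.add hPd).neg
    simp only [add_zero, neg_zero] at h
    refine h.congr fun n => ?_
    show -(Q n - P n + (P n - (pSeq : ℕ → A) n)) = 1 - Q n - (1 - (pSeq : ℕ → A) n)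
    abel
  set f : ℕ → A := fun n => star (x 0 n) * x 0 n with hf
  have hf1 : ∀ n, ‖f n‖ ≤ 1 := fun n => by
    rw [hf, CStarRing.norm_star_mul_self]
    exact mul_le_one₀ (hx1 0 n) (norm_nonneg _) (hx1 0 n)
  have hfd : Tendsto (fun n => f n - u.a n 0 0) (ω : Filter ℕ) (𝓝 0) := (hx 0).mono_left hω
  -- the hypotheses of property (SI)
  have hec : ∀ c, Tendsto (fun n => c * e n - e n * c) (ω : Filter ℕ) (𝓝 0) := fun c => by
    refine comm_congr (x := fun n => 1 - (pSeq : ℕ → A) n) ?_ hed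
    refine (pSeq.2.2 c).congr fun n => ?_
    noncomm_ring
  have hfc : ∀ c, Tendsto (fun n => c * f n - f n * c) (ω : Filter ℕ) (𝓝 0) := fun c =>
    comm_congr ((u.central c 0 0).mono_left hω) hfd
  have hei : ∀ g, Tendsto (fun n => α g (e n) - e n) (ω : Filter ℕ) (𝓝 0) := fun g => by
    refine inv_congr _ (x := fun n => 1 - (pSeq : ℕ → A) n) ?_ hed
    have h := ((toFO_mem_fixed_iff α ω pSeq).1 (hp ▸ (∑ i, E i i : fixed α ω).2) g).neg
    rw [neg_zero] at h
    refine h.congr fun n => ?_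
    rw [map_sub, map_one]
    abel
  have hfi : ∀ g, Tendsto (fun n => α g (f n) - f n) (ω : Filter ℕ) (𝓝 0) := fun g =>
    inv_congr _ ((u.invariant g 0 0).mono_left hω) hfd
  have hen : TracialNull (ω : Filter ℕ) e := by
    refine TracialNull.congr' (x := fun n => 1 - ∑ i, u.a n i i) (fun ε hε => hω (u.null ε hε)) ?_
    exact hed.congr fun n => by rw [hpn]
  have hfn : TracialNull (ω : Filter ℕ) (fun n => f n - f n * f n) := by
    refine (hen.nonneg_mul he0 fun n => u.norm_le n 0 0).congr' ?_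
    have hd : Tendsto (fun n => u.a n 0 0 * u.a n 0 0 - (∑ r, u.a n r r) * u.a n 0 0)
        (ω : Filter ℕ) (𝓝 0) := by simpa using (u.mul_a 0 0 0 0).mono_left hω
    have h := (((hfd.sub (tendsto_mul_null hf1 hfd)).sub
      (tendsto_null_mul (fun n => u.norm_le n 0 0) hfd)).sub hd).sub
      (tendsto_null_mul (fun n => u.norm_le n 0 0) hed)
    simp only [sub_zero] at h
    refine h.congr fun n => ?_
    rw [hpn]
    noncomm_ring
  have hN : 0 < (1 / (N : ℝ)) := by have := NeZero.pos N; positivity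
  have hw : ∀ c, TracialNull (ω : Filter ℕ) fun n => c * f n - ((1 / (N : ℝ) : ℝ) : ℂ) • c := by
    intro c
    refine TracialNull.congr' (x := fun n => c * u.a n 0 0 - (N : ℂ)⁻¹ • c)
      (fun ε hε => hω (u.weight 0 c ε hε)) ?_
    have h := hfd.const_mul c
    rw [mul_zero] at h
    refine h.congr fun n => ?_
    rw [one_div, Complex.ofReal_inv, Complex.ofReal_natCast]
    noncomm_ring
  obtain ⟨s, hs2, hse, hsf, hsc, hsi'⟩ := exists_diag α hω e f
    (hsi (ω : Filter ℕ) e f _ hN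
      (fun n => ⟨he0 n, he1 n, star_mul_self_nonneg _, hf1 n⟩) hec hfc hei hfi hen hfn hw)
  -- the generators
  let sSeq : cseq A ω := ⟨s, ⟨2, hs2⟩, fun c => by simpa using (hsc c).neg⟩
  let v : fixed α ω := ⟨toFO sSeq, (toFO_mem_fixed_iff α ω sSeq).2 hsi'⟩
  have hvv : star v * v = 1 - ∑ i, E i i := by
    refine Subtype.ext ?_
    rw [MulMemClass.coe_mul, StarMemClass.coe_star, AddSubgroupClass.coe_sub, OneMemClass.coe_one,
      hp, P101.star_toFO, ← P101.toFO_mul, ← P101.toFO_one, ← P101.toFO_sub, P101.toFO_eq_iff]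
    have h := hse.add hed
    rw [add_zero] at h
    refine h.congr fun n => ?_
    show star (s n) * s n - e n + (e n - (1 - (pSeq : ℕ → A) n)) =
      star (s n) * s n - (1 - (pSeq : ℕ → A) n)
    abel
  let eSeq : cseq A ω := ⟨e, ⟨1, he1⟩, fun c => by simpa using (hec c).neg⟩
  have hvn : ‖star v * v‖ ≤ 1 := by
    show ‖((star v * v : fixed α ω) : FO A ω)‖ ≤ 1
    rw [MulMemClass.coe_mul, StarMemClass.coe_star, P101.star_toFO, ← P101.toFO_mul,
      show toFO (star sSeq * sSeq) = toFO eSeq from (P101.toFO_eq_iff _ _).2 hse]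
    exact P101.norm_toFO_le_of_eventually (.of_forall he1)
  have h0 : (0 : fixed α ω) ≤ ∑ i, E i i := by
    have h := (CStarAlgebra.norm_le_one_iff_of_nonneg _ (star_mul_self_nonneg v)).1 hvn
    rw [hvv] at h
    exact sub_le_self_iff _ |>.1 h
  have hEv : E 0 0 * v = v := by
    refine Subtype.ext ?_
    rw [MulMemClass.coe_mul, hcoe, ← P101.toFO_mul, P101.toFO_eq_iff]
    have h := hsf.sub (tendsto_null_mul hs2 hfd)
    rw [sub_zero] at h
    refine h.congr fun n => ?_
    show f n * s n - s n - (f n - u.a n 0 0) * s n = u.a n 0 0 * s n - s n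
    noncomm_ring
  exact P101.Universal.exists_hom_dropAlg (unitsMap E) (unitsMap_star E hstar)
    (unitsMap_mul E hmulE) (by rwa [unitsMap_one]) v (by rwa [unitsMap_one])
    (by rwa [unitsMap_single])

/-- Norm lifted matrix units and property (SI) give invariant unital maps from the dimension drop
algebras into the central sequences. -/
theorem dropGoal_of_si (hfree : (ω : Filter ℕ) ≤ cofinite)
    (hu : ∀ m, Nonempty (NearUnits α (2 ^ m))) (hsi : SIGoal α) : DropGoal α ω := by
  intro m _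
  have hω : (ω : Filter ℕ) ≤ atTop := hfree.trans Nat.cofinite_eq_atTop.le
  obtain ⟨u⟩ := hu m
  obtain ⟨ψ⟩ := exists_hom_fixed α hω u hsi
  refine ⟨(fixed α ω).subtype.comp ψ, fun g z x hx => ?_⟩
  exact (toFO_mem_fixed_iff α ω x).1 (hx ▸ (ψ z).2) g

end Main

end Vale.Agent.P095.AF
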