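import Vale.Agent.P095.Upgrade.MainDefs
import Vale.Agent.P101.StatementBridge
import Vale.Agent.P095.AF.Statement

/-!
# P095: the steps from uniform McDuffness to equivariant Z-stability
-/

open scoped ComplexOrder
open Filter Topology

set_option maxSynthPendingDepth 3

universe u v

namespace Vale.Agent.P095.AF

/-- A sequence tending to zero uniformly in every tracial state. -/
def TracialNull {A : Type*} [CStarAlgebra A] (l : Filter ℕ) (x : ℕ → A) : Prop :=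
  ∀ ε : ℝ, 0 < ε → ∀ᶠ n in l, ∀ τ : A →ₗ[ℂ] ℂ, IsTracial τ → ‖τ (x n)‖ ≤ ε

variable {G : Type*} [Group G] {A : Type*} [CStarAlgebra A] (α : G → A ≃⋆ₐ[ℂ] A)

/-- Almost central, almost invariant bounded sequences which are approximate order zero matrix
units in norm, with tracially negligible defect. -/
structure NearUnits (N : ℕ) where
  a : ℕ → Fin N → Fin N → A
  norm_le : ∀ n i j, ‖a n i j‖ ≤ 1
  star_a : ∀ i j, Tendsto (fun n => star (a n i j) - a n j i) atTop (𝓝 0)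
  mul_a : ∀ i j k l, Tendsto (fun n => a n i j * a n k l -
    (if j = k then (∑ r, a n r r) * a n i l else 0)) atTop (𝓝 0)
  diag : ∀ i, ∃ x : ℕ → A, (∀ n, ‖x n‖ ≤ 1) ∧
    Tendsto (fun n => star (x n) * x n - a n i i) atTop (𝓝 0)
  central : ∀ c i j, Tendsto (fun n => c * a n i j - a n i j * c) atTop (𝓝 0)
  invariant : ∀ g i j, Tendsto (fun n => α g (a n i j) - a n i j) atTop (𝓝 0)
  null : TracialNull atTop fun n => 1 - ∑ i, a n i i
  weight : ∀ i c, TracialNull atTop fun n => c * a n i i - (N : ℂ)⁻¹ • c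

/-- Norm lifting of almost invariant almost central matrix units. -/
def LiftGoal : Prop :=
  HasEquivariantUniformMcDuff α → ∀ m : ℕ, Nonempty (NearUnits α (2 ^ m))

/-- Equivariant property (SI), for the elements needed. -/
def SIGoal [PartialOrder A] : Prop :=
  ∀ (l : Filter ℕ) (e f : ℕ → A) (ρ : ℝ), 0 < ρ →
    (∀ n, 0 ≤ e n ∧ ‖e n‖ ≤ 1 ∧ 0 ≤ f n ∧ ‖f n‖ ≤ 1) →
    (∀ c, Tendsto (fun n => c * e n - e n * c) l (𝓝 0)) →
    (∀ c, Tendsto (fun n => c * f n - f n * c) l (𝓝 0)) →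
    (∀ g, Tendsto (fun n => α g (e n) - e n) l (𝓝 0)) →
    (∀ g, Tendsto (fun n => α g (f n) - f n) l (𝓝 0)) →
    TracialNull l e → TracialNull l (fun n => f n - f n * f n) →
    (∀ c, TracialNull l fun n => c * f n - (ρ : ℂ) • c) →
    ∀ (C : Finset A) (K : Finset G) (ε : ℝ), 0 < ε → ∀ᶠ n in l, ∃ s : A, ‖s‖ ≤ 2 ∧
      ‖star s * s - e n‖ ≤ ε ∧ ‖f n * s - s‖ ≤ ε ∧ (∀ c ∈ C, ‖c * s - s * c‖ ≤ ε) ∧
      ∀ k ∈ K, ‖α k s - s‖ ≤ ε

/-- Invariant unital maps from `Z_{2^m,2^m+1}` into the central sequences. -/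
def DropGoal (ω : Ultrafilter ℕ) : Prop :=
  ∀ m : ℕ, 1 ≤ m →
    ∃ φ : P101.Drop.dropAlg (2 ^ m) (2 ^ m + 1) ℂ →⋆ₐ[ℂ] P101.FO A ω,
      ∀ (g : G) z, ∀ x : P101.cseq A ω, P101.toFO x = φ z →
        Tendsto (fun n => α g ((x : ℕ → A) n) - (x : ℕ → A) n) (ω : Filter ℕ) (𝓝 0)

end Vale.Agent.P095.AF
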