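import Vale.Agent.P095.AF.Goals
import Vale.Agent.P101.Intertwine

/-!
# P095: one-sided intertwining with almost invariant unitaries

The limit is an isomorphism conjugating the actions up to a cocycle.
-/

open Filter Topology

namespace Vale.Agent.P095.AF

variable {G : Type*} [Group G] {A B : Type*} [CStarAlgebra A] [CStarAlgebra B]

/-- Almost invariant, almost commuting unitaries move any element close to the range of `ι`. -/
def CanIntertwineEq (ι : A →⋆ₐ[ℂ] B) (β : G → B ≃⋆ₐ[ℂ] B) : Prop :=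
  ∀ (F : Finset A) (D : Finset B) (K : Finset G), ∀ ε > (0 : ℝ), ∃ u : unitary B,
    (∀ a ∈ F, ‖(u : B) * ι a - ι a * u‖ < ε) ∧
      (∀ b ∈ D, ∃ a : A, ‖(star u : B) * b * u - ι a‖ < ε) ∧
      ∀ k ∈ K, ‖β k (u : B) - (u : B)‖ < ε

/-- Equivariant one-sided intertwining. -/
theorem exists_cocycle_equiv [Countable G] [TopologicalSpace.SeparableSpace A]
    [TopologicalSpace.SeparableSpace B] (ι : A →⋆ₐ[ℂ] B) (hι : ∀ a, ‖ι a‖ = ‖a‖)
    (α : G → A ≃⋆ₐ[ℂ] A) (β : G → B ≃⋆ₐ[ℂ] B) (hmul : ∀ g h b, β (g * h) b = β g (β h b))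
    (heq : ∀ g a, β g (ι a) = ι (α g a)) (h : CanIntertwineEq ι β) :
    ∃ (Φ : A ≃⋆ₐ[ℂ] B) (w : G → B), (∀ g, w g ∈ unitary B) ∧
      (∀ g k, w (g * k) = w g * β g (w k)) ∧
      ∀ g a, Φ (α g a) = w g * β g (Φ a) * star (w g) := by
  classical
  obtain ⟨x, hx⟩ := TopologicalSpace.exists_dense_seq A
  obtain ⟨y, hy⟩ := TopologicalSpace.exists_dense_seq B
  obtain ⟨enum, henum⟩ := exists_surjective_nat G
  have step : ∀ (n : ℕ) (s : unitary B × Finset A), ∃ s' : unitary B × Finset A,
      s.2 ⊆ s'.2 ∧ x n ∈ s'.2 ∧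
        (∀ a ∈ s.2, ‖(s'.1 : B) * ι a * star (s'.1 : B) - (s.1 : B) * ι a * star (s.1 : B)‖ ≤
          (1 / 2 : ℝ) ^ n) ∧
        (∀ i ≤ n, ∃ a ∈ s'.2,
          ‖y i - (s'.1 : B) * ι a * star (s'.1 : B)‖ ≤ (1 / 2 : ℝ) ^ n) ∧
        ∀ i ≤ n, ‖(s'.1 : B) * β (enum i) (star (s'.1 : B)) -
          (s.1 : B) * β (enum i) (star (s.1 : B))‖ ≤ (1 / 2 : ℝ) ^ n := by
    rintro n ⟨v, F⟩
    obtain ⟨u, hu, hG, hK⟩ := h F
      ((Finset.range (n + 1)).image fun i => star (v : B) * y i * v)
      ((Finset.range (n + 1)).image enum) ((1 / 2 : ℝ) ^ n) (by positivity)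
    have hG' : ∀ i : Fin (n + 1), ∃ a : A,
        ‖(star u : B) * (star (v : B) * y i * v) * u - ι a‖ < (1 / 2 : ℝ) ^ n := fun i =>
      hG _ (Finset.mem_image.2 ⟨i, Finset.mem_range.2 i.2, rfl⟩)
    choose a ha using hG'
    refine ⟨⟨v * u, insert (x n) F ∪ Finset.univ.image a⟩,
      fun b hb => Finset.mem_union_left _ (Finset.mem_insert_of_mem hb),
      Finset.mem_union_left _ (Finset.mem_insert_self _ _), fun b hb => ?_, fun i hi => ?_,
      fun i hi => ?_⟩
    · have e : ((v * u : unitary B) : B) * ι b * star ((v * u : unitary B) : B) -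
          (v : B) * ι b * star (v : B) =
            (v : B) * (((u : B) * ι b - ι b * u) * star (u : B)) * ((star v : unitary B) : B) := by
        simp only [Submonoid.coe_mul, star_mul, Unitary.coe_star, sub_mul, mul_sub, mul_assoc]
        rw [← mul_assoc (u : B) (star (u : B)), Unitary.mul_star_self_of_mem u.2, one_mul]
      rw [e, CStarRing.norm_mul_coe_unitary, CStarRing.norm_coe_unitary_mul,
        show star (u : B) = ((star u : unitary B) : B) from rfl,
        CStarRing.norm_mul_coe_unitary]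
      exact (hu b hb).le
    · refine ⟨a ⟨i, by omega⟩,
        Finset.mem_union_right _ (Finset.mem_image_of_mem _ (Finset.mem_univ _)), ?_⟩
      have e : y i - ((v * u : unitary B) : B) * ι (a ⟨i, by omega⟩) *
          star ((v * u : unitary B) : B) = ((v * u : unitary B) : B) *
            ((star u : B) * (star (v : B) * y i * v) * u - ι (a ⟨i, by omega⟩)) *
              ((star (v * u) : unitary B) : B) := by
        have h1 : ((v * u : unitary B) : B) * ((star (v * u) : unitary B) : B) = 1 :=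
          Unitary.mul_star_self_of_mem (v * u).2
        have e1 : (star u : B) * (star (v : B) * y i * v) * u =
            ((star (v * u) : unitary B) : B) * y i * ((v * u : unitary B) : B) := by
          simp [mul_assoc]
        have e2 : star ((v * u : unitary B) : B) = ((star (v * u) : unitary B) : B) := rfl
        rw [e1, e2, mul_sub, sub_mul, ← mul_assoc, ← mul_assoc, h1, one_mul, mul_assoc (y i), h1,
          mul_one]
      rw [e, CStarRing.norm_mul_coe_unitary, CStarRing.norm_coe_unitary_mul]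
      exact (ha ⟨i, by omega⟩).le
    · set k := enum i
      have hku : β k (u : B) ∈ unitary B := Unitary.map_mem (β k) u.2
      have hkv : β k (star (v : B)) ∈ unitary B := Unitary.map_mem (β k) (Unitary.star_mem v.2)
      have e : ((v * u : unitary B) : B) * β k (star ((v * u : unitary B) : B)) -
          (v : B) * β k (star (v : B)) =
            (v : B) * (((u : B) - β k (u : B)) * star (β k (u : B))) * β k (star (v : B)) := by
        rw [sub_mul, Unitary.mul_star_self_of_mem hku]
        simp only [Submonoid.coe_mul, star_mul, map_mul, map_star, mul_sub, sub_mul, mul_one,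
          mul_assoc]
      rw [e, CStarRing.norm_mul_mem_unitary _ hkv, CStarRing.norm_coe_unitary_mul,
        CStarRing.norm_mul_mem_unitary _ (Unitary.star_mem hku), norm_sub_rev]
      exact (hK _ (Finset.mem_image.2 ⟨i, Finset.mem_range.2 (by omega), rfl⟩)).le
  choose next hsub hx' hC hD hW using step
  obtain ⟨s, hs0, hs⟩ : ∃ s : ℕ → unitary B × Finset A, s 0 = (1, ∅) ∧
      ∀ n, s (n + 1) = next n (s n) := ⟨fun n => Nat.rec (1, ∅) next n, rfl, fun _ => rfl⟩
  obtain ⟨f, hf⟩ : ∃ f : ℕ → A → B, ∀ n a, f n a =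
      ((s n).1 : B) * ι a * star ((s n).1 : B) := ⟨_, fun _ _ => rfl⟩
  have hmono : Monotone fun n => (s n).2 :=
    monotone_nat_of_le_succ fun n => by rw [hs]; exact hsub n _
  have hstep : ∀ n, ∀ a ∈ (s n).2, dist (f n a) (f (n + 1) a) ≤ (1 / 2 : ℝ) ^ n := by
    intro n a ha
    rw [dist_comm, dist_eq_norm, hf, hf, hs]
    exact hC n _ a ha
  have hiso : ∀ n a b, dist (f n a) (f n b) = dist a b := by
    intro n a b
    rw [dist_eq_norm, dist_eq_norm, hf, hf,
      show star ((s n).1 : B) = ((star (s n).1 : unitary B) : B) from rfl, ← sub_mul, ← mul_sub,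
      CStarRing.norm_mul_coe_unitary, CStarRing.norm_coe_unitary_mul, ← map_sub, hι]
  have hcauchy : ∀ a, CauchySeq fun n => f n a := by
    intro a
    refine Metric.cauchySeq_iff'.2 fun ε hε => ?_
    obtain ⟨i, hi⟩ := hx.exists_dist_lt a (show (0 : ℝ) < ε / 4 by positivity)
    have hc : CauchySeq fun k => f (k + (i + 1)) (x i) :=
      cauchySeq_of_le_geometric (1 / 2 : ℝ) ((1 / 2 : ℝ) ^ (i + 1)) (by norm_num) fun k => by
        rw [← pow_add, add_comm (i + 1) k, show k + 1 + (i + 1) = k + (i + 1) + 1 by omega]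
        refine hstep _ _ (hmono (show i + 1 ≤ k + (i + 1) by omega) ?_)
        show x i ∈ (s (i + 1)).2
        rw [hs]
        exact hx' i _
    obtain ⟨N, hN⟩ := Metric.cauchySeq_iff'.1 hc (ε / 4) (by positivity)
    refine ⟨N + (i + 1), fun n hn => ?_⟩
    have h2 := hN (n - (i + 1)) (by omega)
    rw [show n - (i + 1) + (i + 1) = n by omega] at h2
    have h3 := dist_triangle4 (f n a) (f n (x i)) (f (N + (i + 1)) (x i)) (f (N + (i + 1)) a)
    rw [hiso, hiso (N + (i + 1)), dist_comm (x i) a] at h3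
    linarith
  choose θ hθ using fun a => cauchySeq_tendsto_of_complete (hcauchy a)
  have hu : ∀ n, star ((s n).1 : B) * (s n).1 = 1 := fun n => Unitary.star_mul_self_of_mem (s n).1.2
  let Θ : A →⋆ₐ[ℂ] B :=
    { toFun := θ
      map_one' := tendsto_nhds_unique (hθ 1) (by simp [hf])
      map_mul' := fun a b => tendsto_nhds_unique (hθ _) (((hθ a).mul (hθ b)).congr fun n => by
        rw [hf, hf, hf, map_mul]
        simp only [mul_assoc]
        rw [← mul_assoc (star ((s n).1 : B)) ((s n).1 : B), hu, one_mul])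
      map_zero' := tendsto_nhds_unique (hθ 0) (by simp [hf])
      map_add' := fun a b => tendsto_nhds_unique (hθ _) (((hθ a).add (hθ b)).congr fun n => by
        simp [hf, mul_add, add_mul])
      commutes' := fun c => tendsto_nhds_unique (hθ _) (by
        simp [hf, Algebra.algebraMap_eq_smul_one, map_smul])
      map_star' := fun a => tendsto_nhds_unique (hθ _) ((hθ a).star.congr fun n => by
        simp [hf, map_star, mul_assoc]) }
  have hΘ : Isometry Θ := Isometry.of_dist_eq fun a b =>
    tendsto_nhds_unique ((hθ a).dist (hθ b)) (by simp [hiso])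
  have hsurj : Function.Surjective Θ := by
    rw [← Set.range_eq_univ, ← hΘ.isClosedEmbedding.isClosed_range.closure_eq,
      ← dense_iff_closure_eq]
    refine fun b => Metric.mem_closure_iff.2 fun ε hε => ?_
    obtain ⟨i, hi⟩ := hy.exists_dist_lt b (show (0 : ℝ) < ε / 2 by positivity)
    obtain ⟨n, hn⟩ := exists_pow_lt_of_lt_one (show (0 : ℝ) < ε / 4 by positivity)
      (show (1 / 2 : ℝ) < 1 by norm_num)
    obtain ⟨a, ha, hb⟩ := hD (n + i) (s (n + i)) i (by omega)
    rw [← hs] at ha hb
    have h1 : dist (y i) (f (n + i + 1) a) ≤ (1 / 2 : ℝ) ^ (n + i) := by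
      rw [dist_eq_norm, hf]; exact hb
    have h2 : dist (f (n + i + 1) a) (θ a) ≤ (1 / 2 : ℝ) ^ (n + i + 1) / (1 - 1 / 2) := by
      have := dist_le_of_le_geometric_of_tendsto₀ (1 / 2 : ℝ) ((1 / 2 : ℝ) ^ (n + i + 1))
        (by norm_num) (fun k => ?_) ((tendsto_add_atTop_iff_nat (n + i + 1)).2 (hθ a))
      · simpa using this
      rw [← pow_add, add_comm (n + i + 1) k,
        show k + 1 + (n + i + 1) = k + (n + i + 1) + 1 by omega]
      exact hstep _ _ (hmono (show n + i + 1 ≤ k + (n + i + 1) by omega) ha)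
    refine ⟨θ a, ⟨a, rfl⟩, ?_⟩
    have hp : (1 / 2 : ℝ) ^ (n + i) ≤ (1 / 2 : ℝ) ^ n :=
      pow_le_pow_of_le_one (by norm_num) (by norm_num) (by omega)
    rw [pow_succ] at h2
    norm_num at h2
    have := dist_triangle4 b (y i) (f (n + i + 1) a) (θ a)
    linarith
  -- the cocycle
  obtain ⟨W, hW'⟩ : ∃ W : ℕ → G → B, ∀ n g, W n g =
      ((s n).1 : B) * β g (star ((s n).1 : B)) := ⟨_, fun _ _ => rfl⟩
  have hWc : ∀ g, CauchySeq fun n => W n g := by
    intro g
    obtain ⟨i, rfl⟩ := henum g
    have hc : CauchySeq fun k => W (k + i) (enum i) :=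
      cauchySeq_of_le_geometric (1 / 2 : ℝ) ((1 / 2 : ℝ) ^ i) (by norm_num) fun k => by
        rw [← pow_add, show k + 1 + i = k + i + 1 by omega, add_comm i k, dist_comm, dist_eq_norm,
          hW', hW', hs]
        exact hW (k + i) _ i (by omega)
    exact (cauchySeq_shift i).1 hc
  choose w hw using fun g => cauchySeq_tendsto_of_complete (hWc g)
  have hcont : ∀ g, Continuous (β g) := fun g => (StarAlgEquiv.isometry (β g)).continuous
  have hWu : ∀ n g, W n g ∈ unitary B := fun n g => by
    rw [hW']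
    exact mul_mem (s n).1.2 (Unitary.map_mem (β g) (Unitary.star_mem (s n).1.2))
  have hWm : ∀ n g k, W n (g * k) = W n g * β g (W n k) := fun n g k => by
    simp only [hW', hmul, map_mul, mul_assoc]
    rw [← mul_assoc (β g (star ((s n).1 : B))), ← map_mul, hu, map_one, one_mul]
  have hWf : ∀ n g a, f n (α g a) = W n g * β g (f n a) * star (W n g) := fun n g a => by
    have h1 : β g (star ((s n).1 : B)) * β g ((s n).1 : B) = 1 := by rw [← map_mul, hu, map_one]
    simp only [hW', hf, star_mul, ← map_star, star_star, map_mul, ← heq, mul_assoc]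
    rw [← mul_assoc (β g (star ((s n).1 : B))) (β g ((s n).1 : B)), h1, one_mul,
      ← mul_assoc (β g (star ((s n).1 : B))) (β g ((s n).1 : B)), h1, one_mul]
  refine ⟨StarAlgEquiv.ofBijective Θ ⟨hΘ.injective, hsurj⟩, w, fun g => ?_, fun g k => ?_,
    fun g a => ?_⟩
  · refine Unitary.mem_iff.2 ⟨?_, ?_⟩
    · exact tendsto_nhds_unique (((hw g).star.mul (hw g)).congr fun n =>
        Unitary.star_mul_self_of_mem (hWu n g)) tendsto_const_nhds
    · exact tendsto_nhds_unique (((hw g).mul (hw g).star).congr fun n =>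
        Unitary.mul_star_self_of_mem (hWu n g)) tendsto_const_nhds
  · exact tendsto_nhds_unique (hw (g * k)) (((hw g).mul (((hcont g).tendsto _).comp (hw k))).congr
      fun n => (hWm n g k).symm)
  · exact tendsto_nhds_unique (hθ (α g a))
      ((((hw g).mul (((hcont g).tendsto _).comp (hθ a))).mul (hw g).star).congr
        fun n => (hWf n g a).symm)

end Vale.Agent.P095.AF
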