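import Vale.Agent.P095.AF.Quasi
import Vale.Agent.P095.AF.Powers
import Vale.Agent.P095.AF.Goals

/-!
# P095: norm lifting of almost invariant almost central matrix units

The units are cut by `1 - h`, where `h` is a quasicentral element of small trace lying over all
their defects.
-/

open scoped ComplexOrder
open Filter Topology

namespace Vale.Agent.P095.AF

variable {G : Type*} [Group G] {A : Type*} [CStarAlgebra A] [PartialOrder A] [StarOrderedRing A]

/-- Commutators with a selfadjoint contraction are bounded by the motion under one inner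
automorphism. -/
theorem exists_aut_selfAdjoint {a : A} (ha : IsSelfAdjoint a) (h1 : ‖a‖ ≤ 1) :
    ∃ σ : A ≃⋆ₐ[ℂ] A, ∀ h : A, IsSelfAdjoint h → ‖h * a - a * h‖ ≤ ‖σ h - h‖ := by
  set u : unitary A :=
    ⟨a + Complex.I • CFC.sqrt (1 - a ^ 2), ha.self_add_I_smul_cfcSqrt_sub_sq_mem_unitary a h1⟩ with hu
  refine ⟨Unitary.conjStarAlgAut ℂ A u, fun h hh => ?_⟩
  have e1 : Unitary.conjStarAlgAut ℂ A u h - h =
      -((h * (u : A) - (u : A) * h) * star (u : A)) := by
    rw [Unitary.conjStarAlgAut_apply, sub_mul, neg_sub, mul_assoc h,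
      Unitary.mul_star_self_of_mem u.2, mul_one]
  have hn : ‖Unitary.conjStarAlgAut ℂ A u h - h‖ = ‖h * (u : A) - (u : A) * h‖ := by
    rw [e1, norm_neg, ← Unitary.coe_star, CStarRing.norm_mul_coe_unitary]
  have ea : a = (1 / 2 : ℂ) • ((u : A) + star (u : A)) := by
    have : ((u : A) + star (u : A)) = (2 : ℂ) • a := by
      have hs : star (CFC.sqrt (1 - a ^ 2)) = CFC.sqrt (1 - a ^ 2) :=
        (CFC.sqrt_nonneg (1 - a ^ 2)).isSelfAdjoint.star_eq
      rw [hu]
      simp only [star_add, star_smul, hs, ha.star_eq, Complex.star_def, Complex.conj_I, two_smul,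
        neg_smul]
      abel
    rw [this, smul_smul]; norm_num
  set D := h * (u : A) - (u : A) * h with hD
  have e2 : h * a - a * h = (1 / 2 : ℂ) • (D + -star D) := by
    rw [hD, ea, mul_smul_comm, smul_mul_assoc, ← smul_sub, star_sub, star_mul, star_mul, hh.star_eq]
    congr 1
    noncomm_ring
  rw [hn, e2, norm_smul]
  refine (mul_le_mul_of_nonneg_left (norm_add_le _ _) (norm_nonneg _)).trans ?_
  rw [norm_neg, norm_star]
  norm_num
  linarith

/-- Commutators with a contraction are bounded by the motion under two inner automorphisms. -/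
theorem exists_auts {x : A} (h1 : ‖x‖ ≤ 1) :
    ∃ σ : Fin 2 → A ≃⋆ₐ[ℂ] A, ∀ h : A, IsSelfAdjoint h →
      ‖h * x - x * h‖ ≤ ‖σ 0 h - h‖ + ‖σ 1 h - h‖ := by
  obtain ⟨σ, hσ⟩ := exists_aut_selfAdjoint (realPart x).2 ((realPart.norm_le x).trans h1)
  obtain ⟨τ, hτ⟩ := exists_aut_selfAdjoint (imaginaryPart x).2 ((imaginaryPart.norm_le x).trans h1)
  refine ⟨![σ, τ], fun h hh => ?_⟩
  conv_lhs => rw [← realPart_add_I_smul_imaginaryPart x]
  rw [mul_add, add_mul, mul_smul_comm, smul_mul_assoc, add_sub_add_comm, ← smul_sub]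
  refine (norm_add_le _ _).trans (add_le_add (hσ h hh) ?_)
  rw [norm_smul, Complex.norm_I, one_mul]
  exact hτ h hh

theorem nrm_sq_star (ω : Tr A) (x : A) : (ω.f (x * star x)).re = ω.nrm x ^ 2 := by
  rw [ω.nrm_sq_re, ω.tracial]

variable (α : G → A ≃⋆ₐ[ℂ] A)

/-- The finite form of the lifting. -/
def LiftAt (N : ℕ) (C : Finset A) (K : Finset G) (ε : ℝ) (a : Fin N → Fin N → A)
    (x : Fin N → A) : Prop :=
  (∀ i j, ‖a i j‖ ≤ 1) ∧ (∀ i, ‖x i‖ ≤ 1) ∧
  (∀ i j, ‖star (a i j) - a j i‖ ≤ ε) ∧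
  (∀ i j k l, ‖a i j * a k l - if j = k then (∑ r, a r r) * a i l else 0‖ ≤ ε) ∧
  (∀ i, ‖star (x i) * x i - a i i‖ ≤ ε) ∧
  (∀ c ∈ C, ∀ i j, ‖c * a i j - a i j * c‖ ≤ ε) ∧
  (∀ k ∈ K, ∀ i j, ‖α k (a i j) - a i j‖ ≤ ε) ∧
  ∀ τ : A →ₗ[ℂ] ℂ, IsTracial τ → ‖τ (1 - ∑ i, a i i)‖ ≤ ε ∧
    ∀ c ∈ C, ∀ i, ‖τ (c * a i i - (N : ℂ)⁻¹ • c)‖ ≤ ε

open Classical in
theorem exists_liftAt {N : ℕ} (hN : 0 < N) (hu : UnitsN α (Fin N)) (C : Finset A)
    (hC : ∀ c ∈ C, ‖c‖ ≤ 1) (K : Finset G) {ε : ℝ} (hε : 0 < ε) :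
    ∃ a x, LiftAt α N C K ε a x := by
  -- the indices of the automorphisms
  set ι := (C × Fin 2) ⊕ ((Fin N × Fin N) × Fin 2) ⊕ K
  -- the accuracy asked of `h`
  set Nr : ℝ := (N : ℝ)
  have hN1 : 1 ≤ Nr := Nat.one_le_cast.2 hN
  set ζ : ℝ := min 1 (ε / (40 * Nr * Nr)) with hζ
  have hζ0 : 0 < ζ := lt_min one_pos (by positivity)
  have hζε : ζ * (40 * Nr * Nr) ≤ ε := by
    calc ζ * (40 * Nr * Nr) ≤ ε / (40 * Nr * Nr) * (40 * Nr * Nr) :=
          mul_le_mul_of_nonneg_right (min_le_right _ _) (by positivity)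
      _ = ε := div_mul_cancel₀ ε (by positivity)
  -- the number of defects
  set ρ := ((Fin N × Fin N) × Fin N × Fin N) ⊕ (Fin N × Fin N) ⊕ (C × Fin N × Fin N) ⊕
    (K × Fin N × Fin N)
  set W : ℝ := 9 * (Fintype.card ρ + 1) with hW
  have hW0 : 0 < W := by positivity
  obtain ⟨δ, hδ, hquasi⟩ := exists_quasicentral (A := A) (Fintype.card ι)
    (show 0 < min (ζ ^ 2 / W) ζ by positivity)
  set δ' : ℝ := min (Real.sqrt δ) ζ with hδ'
  have hδ0 : 0 < δ' := lt_min (Real.sqrt_pos.2 hδ) hζ0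
  obtain ⟨e, hen, he⟩ := hu C K δ' hδ0
  choose σC hσC using fun c : C => exists_auts (hC c.1 c.2)
  choose σe hσe using fun p : Fin N × Fin N => exists_auts (hen p.1 p.2)
  set γι : ι → A ≃⋆ₐ[ℂ] A := Sum.elim (fun p => σC p.1 p.2)
    (Sum.elim (fun p => σe p.1 p.2) fun k => α k.1)
  set r : ρ → A := Sum.elim
    (fun p => e p.1.1 p.1.2 * e p.2.1 p.2.2 - if p.1.2 = p.2.1 then e p.1.1 p.2.2 else 0)
    (Sum.elim (fun p => star (e p.1 p.2) - e p.2 p.1)
      (Sum.elim (fun p => p.1.1 * e p.2.1 p.2.2 - e p.2.1 p.2.2 * p.1.1)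
        (fun p => α p.1.1 (e p.2.1 p.2.2) - e p.2.1 p.2.2))) with hr
  have hn2 : ∀ i j k l, ‖e i j * e k l - if j = k then e i l else 0‖ ≤ 3 := fun i j k l => by
    refine (norm_sub_le _ _).trans ?_
    have h1 : ‖e i j * e k l‖ ≤ 1 :=
      (norm_mul_le _ _).trans (mul_le_one₀ (hen _ _) (norm_nonneg _) (hen _ _))
    have h2 : ‖(if j = k then e i l else 0 : A)‖ ≤ 1 := by split_ifs <;> simp [hen]
    linarith
  have hrn : ∀ t, ‖r t‖ ≤ 3 := by
    rintro (⟨⟨i, j⟩, k, l⟩ | ⟨i, j⟩ | ⟨c, i, j⟩ | ⟨k, i, j⟩)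
    · exact hn2 i j k l
    · refine (norm_sub_le _ _).trans ?_
      rw [norm_star]; linarith [hen i j, hen j i]
    · refine (norm_sub_le _ _).trans ?_
      have h1 : ‖c.1 * e i j‖ ≤ 1 :=
        (norm_mul_le _ _).trans (mul_le_one₀ (hC c.1 c.2) (norm_nonneg _) (hen _ _))
      have h2 : ‖e i j * c.1‖ ≤ 1 :=
        (norm_mul_le _ _).trans (mul_le_one₀ (hen _ _) (norm_nonneg _) (hC c.1 c.2))
      linarith
    · refine (norm_sub_le _ _).trans ?_
      linarith [(StarAlgEquiv.norm_map (α k.1) (e i j)).trans_le (hen i j), hen i j]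
  have hrω : ∀ (ω : Tr A) t, ω.nrm (r t) ≤ δ' := by
    intro ω
    obtain ⟨h1, h2, -, h4, h5⟩ := he ω
    rintro (⟨⟨i, j⟩, k, l⟩ | ⟨i, j⟩ | ⟨c, i, j⟩ | ⟨k, i, j⟩)
    · exact h1 i j k l
    · exact h2 i j
    · exact h4 c.1 c.2 i j
    · exact h5 k.1 k.2 i j
  set y₀ : A := W⁻¹ • ∑ t, r t * star (r t) with hy₀
  have hy0 : 0 ≤ y₀ := smul_nonneg (by positivity) (Finset.sum_nonneg fun t _ => mul_star_self_nonneg _)
  have hy1 : ‖y₀‖ ≤ 1 := by
    rw [hy₀, norm_smul, Real.norm_of_nonneg (by positivity), inv_mul_le_iff₀ hW0, mul_one]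
    refine (norm_sum_le_of_le _ (n := fun _ => (9 : ℝ)) fun t _ => ?_).trans ?_
    · rw [CStarRing.norm_self_mul_star]; nlinarith [hrn t, norm_nonneg (r t)]
    · rw [Finset.sum_const, Finset.card_univ, nsmul_eq_mul, hW]
      linarith
  have hytr : ∀ τ : A →ₗ[ℂ] ℂ, IsTracial τ → (τ y₀).re ≤ δ := fun τ hτ => by
    rw [hy₀, isTracial_rsmul, map_sum, Complex.re_sum, inv_mul_le_iff₀ hW0]
    refine (Finset.sum_le_sum fun t _ => (?_ : _ ≤ δ)).trans ?_
    · rw [← trOf_apply hτ, nrm_sq_star]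
      calc (trOf hτ).nrm (r t) ^ 2 ≤ (Real.sqrt δ) ^ 2 :=
            pow_le_pow_left₀ ((trOf hτ).nrm_nonneg _) ((hrω _ t).trans (min_le_left _ _)) 2
        _ = δ := Real.sq_sqrt hδ.le
    · rw [Finset.sum_const, Finset.card_univ, nsmul_eq_mul]
      refine mul_le_mul_of_nonneg_right ?_ hδ.le
      rw [hW]
      have : (0 : ℝ) ≤ Fintype.card ρ := Nat.cast_nonneg _
      linarith
  obtain ⟨h, hh0, hh1, hhγ, hhy, hhτ⟩ :=
    hquasi (fun i => γι ((Fintype.equivFin ι).symm i)) y₀ hy0 hy1 hytr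
  have hhsa : IsSelfAdjoint h := .of_nonneg hh0
  have hmove : ∀ t : ι, ‖γι t h - h‖ ≤ ζ := fun t => by
    have := hhγ (Fintype.equivFin ι t)
    rw [Equiv.symm_apply_apply] at this
    exact this.trans (min_le_right _ _)
  set g : A := 1 - h
  have hg0 : 0 ≤ g := sub_nonneg.2 hh1
  have hgsa : IsSelfAdjoint g := .of_nonneg hg0
  have hg1 : ‖g‖ ≤ 1 :=
    (CStarAlgebra.norm_le_one_iff_of_nonneg g hg0).2 (sub_le_self _ hh0)
  have hgr : ∀ t, ‖g * r t‖ ≤ ζ := fun t => by
    refine (sq_le_sq₀ (norm_nonneg _) hζ0.le).1 ?_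
    rw [sq, ← CStarRing.norm_self_mul_star (x := g * r t), star_mul, hgsa.star_eq,
      show g * r t * (star (r t) * g) = g * (r t * star (r t)) * g by simp only [mul_assoc]]
    have hle : r t * star (r t) ≤ W • y₀ := by
      rw [hy₀, smul_smul, mul_inv_cancel₀ hW0.ne', one_smul]
      exact Finset.single_le_sum (f := fun t => r t * star (r t))
        (fun t _ => mul_star_self_nonneg _) (Finset.mem_univ t)
    have h2 : 0 ≤ g * (r t * star (r t)) * g := by
      have := star_left_conjugate_nonneg (mul_star_self_nonneg (r t)) g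
      rwa [hgsa.star_eq] at this
    have h3 : g * (r t * star (r t)) * g ≤ W • (g * y₀ * g) := by
      have := star_left_conjugate_le_conjugate hle g
      rw [hgsa.star_eq, mul_smul_comm, smul_mul_assoc] at this
      exact this
    refine (CStarAlgebra.norm_le_norm_of_nonneg_of_le h2 h3).trans ?_
    rw [norm_smul, Real.norm_of_nonneg hW0.le]
    refine (mul_le_mul_of_nonneg_left (hhy.trans (min_le_left _ _)) hW0.le).trans (le_of_eq ?_)
    field_simp
  have hge : ∀ i j, ‖g * e i j - e i j * g‖ ≤ 2 * ζ := fun i j => by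
    have e1 : g * e i j - e i j * g = -(h * e i j - e i j * h) := by simp only [g]; noncomm_ring
    rw [e1, norm_neg]
    refine (hσe (i, j) h hhsa).trans ?_
    have h0' : ‖σe (i, j) 0 h - h‖ ≤ ζ := hmove (.inr (.inl ((i, j), 0)))
    have h1' : ‖σe (i, j) 1 h - h‖ ≤ ζ := hmove (.inr (.inl ((i, j), 1)))
    linarith
  have hgc : ∀ c : C, ‖g * c.1 - c.1 * g‖ ≤ 2 * ζ := fun c => by
    have e1 : g * c.1 - c.1 * g = -(h * c.1 - c.1 * h) := by simp only [g]; noncomm_ring
    rw [e1, norm_neg]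
    refine (hσC c h hhsa).trans ?_
    have h0' : ‖σC c 0 h - h‖ ≤ ζ := hmove (.inl (c, 0))
    have h1' : ‖σC c 1 h - h‖ ≤ ζ := hmove (.inl (c, 1))
    linarith
  set s : A := CFC.sqrt g
  have hs0 : 0 ≤ s := CFC.sqrt_nonneg g
  have hssa : star s = s := hs0.isSelfAdjoint.star_eq
  have hss : s * s = g := CFC.sqrt_mul_sqrt_self g hg0
  have hs1 : ‖s‖ ≤ 1 := by
    refine (sq_le_sq₀ (norm_nonneg _) zero_le_one).1 ?_
    rw [sq, ← CStarRing.norm_star_mul_self (x := s), hssa, hss, one_pow]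
    exact hg1
  have hNN : 1 ≤ Nr * Nr := by nlinarith
  have hζN : ζ ≤ ζ * (Nr * Nr) := le_mul_of_one_le_right hζ0.le hNN
  have hb : ∀ i j, ‖g * e i j‖ ≤ 1 := fun i j =>
    (norm_mul_le _ _).trans (mul_le_one₀ hg1 (norm_nonneg _) (hen i j))
  refine ⟨fun i j => g * e i j, fun i => s * e i i, hb,
    fun i => (norm_mul_le _ _).trans (mul_le_one₀ hs1 (norm_nonneg _) (hen i i)),
    fun i j => ?_, fun i j k l => ?_, fun i => ?_, fun c hc i j => ?_, fun k hk i j => ?_,
    fun τ hτ => ⟨?_, fun c hc i => ?_⟩⟩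
  · rw [star_mul, hgsa.star_eq]
    have eq : star (e i j) * g - g * e j i =
        g * r (.inr (.inl (i, j))) + star (g * e i j - e i j * g) := by
      simp only [hr, Sum.elim_inr, Sum.elim_inl, star_sub, star_mul, hgsa.star_eq]
      noncomm_ring
    rw [eq]
    refine (norm_add_le _ _).trans ?_
    rw [norm_star]
    nlinarith [hgr (.inr (.inl (i, j))), hge i j]
  · have hterm : ∀ t, ‖g * (g * r t)‖ ≤ ζ := fun t =>
      (norm_mul_le _ _).trans ((mul_le_of_le_one_left (norm_nonneg _) hg1).trans (hgr t))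
    have eq1 : g * e i j * (g * e k l) - g * (g * (e i j * e k l)) =
        -(g * (g * e i j - e i j * g) * e k l) := by noncomm_ring
    have hc1 : ‖g * e i j * (g * e k l) - g * (g * (e i j * e k l))‖ ≤ 2 * ζ := by
      rw [eq1, norm_neg]
      refine (norm_mul₃_le).trans ?_
      calc ‖g‖ * ‖g * e i j - e i j * g‖ * ‖e k l‖ ≤ 1 * (2 * ζ) * 1 :=
            mul_le_mul (mul_le_mul hg1 (hge i j) (norm_nonneg _) zero_le_one) (hen k l)
              (norm_nonneg _) (by positivity)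
        _ = 2 * ζ := by ring
    have key : ∀ i l, ‖(∑ q, g * e q q) * (g * e i l) - g * (g * e i l)‖ ≤ 3 * Nr * ζ := by
      intro i l
      have e3 : (∑ q, g * e q q) * (g * e i l) - g * (g * e i l) =
          ∑ q, (-(g * (g * e q q - e q q * g) * e i l) +
            g * (g * r (.inl ((q, q), i, l)))) := by
        have e4 : g * (g * e i l) = ∑ q, g * (g * (if q = i then e q l else 0)) := by
          rw [← Finset.mul_sum, ← Finset.mul_sum, Finset.sum_ite_eq' Finset.univ i fun q => e q l]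
          simp
        rw [Finset.sum_mul, e4, ← Finset.sum_sub_distrib]
        refine Finset.sum_congr rfl fun q _ => ?_
        simp only [hr, Sum.elim_inl]
        noncomm_ring
      rw [e3]
      refine (norm_sum_le_of_le _ (n := fun _ => 3 * ζ) fun q _ => ?_).trans (le_of_eq ?_)
      · refine (norm_add_le _ _).trans ?_
        rw [norm_neg]
        have h1 : ‖g * (g * e q q - e q q * g) * e i l‖ ≤ 2 * ζ := by
          refine (norm_mul₃_le).trans ?_
          calc ‖g‖ * ‖g * e q q - e q q * g‖ * ‖e i l‖ ≤ 1 * (2 * ζ) * 1 :=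
                mul_le_mul (mul_le_mul hg1 (hge q q) (norm_nonneg _) zero_le_one) (hen i l)
                  (norm_nonneg _) (by positivity)
            _ = 2 * ζ := by ring
        linarith [hterm (.inl ((q, q), i, l))]
      · rw [Finset.sum_const, Finset.card_univ, Fintype.card_fin, nsmul_eq_mul]; ring
    have hr1 := hterm (.inl ((i, j), k, l))
    simp only [hr, Sum.elim_inl] at hr1
    by_cases hjk : j = k
    · rw [if_pos hjk] at hr1 ⊢
      have eq : g * e i j * (g * e k l) - (∑ q, g * e q q) * (g * e i l) =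
          (g * e i j * (g * e k l) - g * (g * (e i j * e k l))) +
            g * (g * (e i j * e k l - e i l)) +
              -((∑ q, g * e q q) * (g * e i l) - g * (g * e i l)) := by noncomm_ring
      rw [eq]
      refine norm_add₃_le.trans ?_
      rw [norm_neg]
      nlinarith [key i l]
    · rw [if_neg hjk, sub_zero] at hr1 ⊢
      have eq : g * e i j * (g * e k l) = (g * e i j * (g * e k l) - g * (g * (e i j * e k l))) +
          g * (g * (e i j * e k l)) := by noncomm_ring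
      rw [eq]
      refine (norm_add_le _ _).trans ?_
      nlinarith
  · rw [star_mul, hssa, show star (e i i) * s * (s * e i i) = star (e i i) * g * e i i by
      rw [← hss]; noncomm_ring]
    have eq : star (e i i) * g * e i i - g * e i i =
        star (g * e i i - e i i * g) * e i i + g * r (.inr (.inl (i, i))) * e i i +
          g * r (.inl ((i, i), i, i)) := by
      simp only [hr, Sum.elim_inr, Sum.elim_inl, if_pos, star_sub, star_mul, hgsa.star_eq]
      noncomm_ring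
    rw [eq]
    refine norm_add₃_le.trans ?_
    have h1 : ‖star (g * e i i - e i i * g) * e i i‖ ≤ 2 * ζ :=
      (norm_mul_le _ _).trans ((mul_le_of_le_one_right (norm_nonneg _) (hen i i)).trans
        ((norm_star _).trans_le (hge i i)))
    have h2 : ‖g * r (.inr (.inl (i, i))) * e i i‖ ≤ ζ :=
      (norm_mul_le _ _).trans ((mul_le_of_le_one_right (norm_nonneg _) (hen i i)).trans (hgr _))
    nlinarith [hgr (.inl ((i, i), i, i))]
  · have eq : c * (g * e i j) - g * e i j * c =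
        g * r (.inr (.inr (.inl (⟨c, hc⟩, i, j)))) - (g * c - c * g) * e i j := by
      simp only [hr, Sum.elim_inr, Sum.elim_inl]
      noncomm_ring
    rw [eq]
    refine (norm_sub_le _ _).trans ?_
    have h1 : ‖(g * c - c * g) * e i j‖ ≤ 2 * ζ :=
      (norm_mul_le _ _).trans ((mul_le_of_le_one_right (norm_nonneg _) (hen i j)).trans (hgc ⟨c, hc⟩))
    nlinarith [hgr (.inr (.inr (.inl (⟨c, hc⟩, i, j))))]
  · have eq : α k (g * e i j) - g * e i j =
        g * r (.inr (.inr (.inr (⟨k, hk⟩, i, j)))) - (α k h - h) * α k (e i j) := by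
      simp only [hr, Sum.elim_inr, g, map_mul, map_sub, map_one]
      noncomm_ring
    rw [eq]
    refine (norm_sub_le _ _).trans ?_
    have h1 : ‖(α k h - h) * α k (e i j)‖ ≤ ζ :=
      (norm_mul_le _ _).trans ((mul_le_of_le_one_right (norm_nonneg _)
        ((StarAlgEquiv.norm_map _ _).trans_le (hen i j))).trans (hmove (.inr (.inr ⟨k, hk⟩))))
    nlinarith [hgr (.inr (.inr (.inr (⟨k, hk⟩, i, j))))]
  · obtain ⟨-, -, h3, -, -⟩ := he (trOf hτ)
    have eq : 1 - ∑ i, g * e i i = -(∑ i, e i i - 1) + h * ∑ i, e i i := by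
      rw [← Finset.mul_sum]; simp only [g]; noncomm_ring
    rw [eq, ← trOf_apply hτ, map_add, map_neg]
    refine (norm_add_le _ _).trans ?_
    rw [norm_neg, (trOf hτ).tracial]
    have h4 := (trOf hτ).norm_apply_mul_nonneg (∑ i, e i i) hh0
    have h5 : ‖∑ i, e i i‖ ≤ Nr := (norm_sum_le_of_le _ fun i _ => hen i i).trans (by simp [Nr])
    have h6 : (τ h).re ≤ ζ := (hhτ τ hτ).trans (min_le_right _ _)
    have h7 : δ' ≤ ζ := min_le_right _ _
    have h8 := (trOf hτ).norm_apply_le (∑ i, e i i - 1)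
    have h9 : ‖∑ i, e i i‖ * ((trOf hτ).f h).re ≤ Nr * ζ :=
      mul_le_mul h5 h6 ((trOf hτ).nonneg hh0) (by positivity)
    nlinarith
  · obtain ⟨h1, -, h3, h4, -⟩ := he (trOf hτ)
    set ω := trOf hτ
    have h7 : δ' ≤ ζ := min_le_right _ _
    have hcn := hC c hc
    have swap : ∀ i j, ‖ω.f (c * e i i) - ω.f (c * e j j)‖ ≤ 3 * ζ := by
      intro i j
      have ei : ω.nrm (e i j * e j i - e i i) ≤ ζ := by simpa using (h1 i j j i).trans h7
      have ej : ω.nrm (e j i * e i j - e j j) ≤ ζ := by simpa using (h1 j i i j).trans h7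
      have small : ∀ y : A, ω.nrm y ≤ ζ → ‖ω.f (c * y)‖ ≤ ζ := fun y hy =>
        (ω.norm_apply_le _).trans ((nrm_mul_le_left ω hcn y).trans hy)
      have e1 : c * e i i - c * e j j = -(c * (e i j * e j i - e i i)) +
          c * (e j i * e i j - e j j) + (c * (e i j * e j i) - c * (e j i * e i j)) := by noncomm_ring
      have e2 : ω.f (c * (e j i * e i j)) = ω.f (e i j * (c * e j i)) := by
        rw [ω.tracial (e i j), mul_assoc]
      have e3 : c * (e i j * e j i) - e i j * (c * e j i) = (c * e i j - e i j * c) * e j i := by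
        noncomm_ring
      rw [← map_sub, e1, map_add, map_add, map_neg, map_sub, e2, ← map_sub, e3]
      refine norm_add₃_le.trans ?_
      rw [norm_neg]
      linarith [small _ ei, small _ ej,
        (ω.norm_apply_le _).trans ((nrm_mul_le_right ω (hen j i) _).trans ((h4 c hc i j).trans h7))]
    have hsum : ‖∑ j, (ω.f (c * e i i) - ω.f (c * e j j))‖ ≤ Nr * (3 * ζ) := by
      refine (norm_sum_le_of_le _ fun j _ => swap i j).trans ?_
      simp [Nr]
    have hone : ‖ω.f (c * (∑ j, e j j - 1))‖ ≤ ζ :=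
      (ω.norm_apply_le _).trans ((nrm_mul_le_left ω hcn _).trans (h3.trans h7))
    have hh' : ‖ω.f (c * h * e i i)‖ ≤ ζ := by
      rw [ω.tracial, ← mul_assoc]
      refine (ω.norm_apply_mul_nonneg (e i i * c) hh0).trans ?_
      calc ‖e i i * c‖ * (ω.f h).re ≤ 1 * ζ := mul_le_mul
            ((norm_mul_le _ _).trans (mul_le_one₀ (hen i i) (norm_nonneg _) hcn))
            ((hhτ τ hτ).trans (min_le_right _ _)) (ω.nonneg hh0) zero_le_one
        _ = ζ := one_mul ζ
    have hNc : (N : ℂ) ≠ 0 := Nat.cast_ne_zero.2 hN.ne'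
    have eq : ω.f (c * (g * e i i) - (N : ℂ)⁻¹ • c) = (N : ℂ)⁻¹ *
        (∑ j, (ω.f (c * e i i) - ω.f (c * e j j)) + ω.f (c * (∑ j, e j j - 1))) -
          ω.f (c * h * e i i) := by
      rw [show c * (g * e i i) = c * e i i - c * h * e i i by simp only [g]; noncomm_ring]
      simp only [map_sub, map_smul, mul_sub, mul_one, Finset.mul_sum, map_sum, Finset.sum_sub_distrib,
        Finset.sum_const, Finset.card_univ, Fintype.card_fin, nsmul_eq_mul, smul_eq_mul]
      field_simp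
      ring
    rw [← trOf_apply hτ]
    show ‖ω.f (c * (g * e i i) - (N : ℂ)⁻¹ • c)‖ ≤ ε
    rw [eq]
    refine (norm_sub_le _ _).trans ?_
    rw [norm_mul, norm_inv, Complex.norm_natCast]
    have h10 : (Nr)⁻¹ * ‖∑ j, (ω.f (c * e i i) - ω.f (c * e j j)) +
        ω.f (c * (∑ j, e j j - 1))‖ ≤ 1 * (Nr * (3 * ζ) + ζ) :=
      mul_le_mul (inv_le_one_of_one_le₀ hN1) ((norm_add_le _ _).trans (add_le_add hsum hone))
        (norm_nonneg _) zero_le_one
    nlinarith

theorem exists_exhaustion (β : Type*) [Countable β] :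
    ∃ K : ℕ → Finset β, ∀ b, ∀ᶠ n in atTop, b ∈ K n := by
  classical
  rcases isEmpty_or_nonempty β with h | h
  · exact ⟨fun _ => ∅, fun b => isEmptyElim b⟩
  obtain ⟨f, hf⟩ := exists_surjective_nat β
  refine ⟨fun n => (Finset.range (n + 1)).image f, fun b => ?_⟩
  obtain ⟨i, rfl⟩ := hf b
  exact eventually_atTop.2 ⟨i, fun n hn =>
    Finset.mem_image_of_mem f (Finset.mem_range.2 (Nat.lt_succ_of_le hn))⟩

/-- **Lifting.** -/
theorem lift_goal [Countable G] [TopologicalSpace.SeparableSpace A] : LiftGoal α := by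
  classical
  intro hMc m
  set N := 2 ^ m
  have hN : 0 < N := by positivity
  obtain ⟨D, hDc, hDd⟩ := TopologicalSpace.exists_countable_dense A
  have : Countable D := hDc.to_subtype
  obtain ⟨KD, hKD⟩ := exists_exhaustion D
  obtain ⟨KG, hKG⟩ := exists_exhaustion G
  set CS : ℕ → Finset A := fun n => (KD n).image fun d : ↥D => (‖(d : A)‖ + 1)⁻¹ • (d : A)
  have hCS : ∀ n, ∀ c ∈ CS n, ‖c‖ ≤ 1 := fun n c hc => by
    obtain ⟨d, -, rfl⟩ := Finset.mem_image.1 hc
    rw [norm_smul, Real.norm_of_nonneg (by positivity), inv_mul_le_iff₀ (by positivity)]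
    linarith
  choose a x ha using fun n : ℕ => exists_liftAt α hN (unitsN_pow hMc m) (CS n) (hCS n) (KG n)
    (show (0 : ℝ) < 1 / ((n : ℝ) + 1) by positivity)
  have hlim : Tendsto (fun n : ℕ => (1 : ℝ) / (n + 1)) atTop (𝓝 0) :=
    tendsto_one_div_add_atTop_nhds_zero_nat
  have hdense : ∀ (c : A) (ε : ℝ), 0 < ε → ∃ d : D, ‖c - (d : A)‖ ≤ ε := fun c ε hε => by
    obtain ⟨d, hd, hcd⟩ := Metric.mem_closure_iff.1 (hDd c) ε hε
    exact ⟨⟨d, hd⟩, by rw [← dist_eq_norm]; exact hcd.le⟩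
  refine ⟨⟨a, fun n => (ha n).1, fun i j => squeeze_zero_norm (fun n => (ha n).2.2.1 i j) hlim,
    fun i j k l => squeeze_zero_norm (fun n => (ha n).2.2.2.1 i j k l) hlim,
    fun i => ⟨fun n => x n i, fun n => (ha n).2.1 i,
      squeeze_zero_norm (fun n => (ha n).2.2.2.2.1 i) hlim⟩,
    fun c i j => ?_, fun g i j => ?_, fun ε hε => ?_, fun i c ε hε => ?_⟩⟩
  · rw [Metric.tendsto_nhds]
    intro ε hε
    obtain ⟨d, hd⟩ := hdense c (ε / 4) (by positivity)
    have hS : (0 : ℝ) < ‖(d : A)‖ + 1 := by positivity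
    filter_upwards [hKD d, hlim.eventually (eventually_lt_nhds
      (show (0 : ℝ) < ε / (4 * (‖(d : A)‖ + 1)) by positivity))] with n hn hsmall
    rw [dist_zero_right]
    have h1 := (ha n).2.2.2.2.2.1 _ (Finset.mem_image_of_mem _ hn) i j
    rw [smul_mul_assoc, mul_smul_comm, ← smul_sub, norm_smul,
      Real.norm_of_nonneg (by positivity), inv_mul_le_iff₀ hS] at h1
    have h2 : ‖(c - d) * a n i j‖ ≤ ε / 4 :=
      (norm_mul_le _ _).trans ((mul_le_of_le_one_right (norm_nonneg _) ((ha n).1 i j)).trans hd)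
    have h3 : ‖a n i j * (c - d)‖ ≤ ε / 4 :=
      (norm_mul_le _ _).trans ((mul_le_of_le_one_left (norm_nonneg _) ((ha n).1 i j)).trans hd)
    have eq : c * a n i j - a n i j * c =
        (c - d) * a n i j + -(a n i j * (c - d)) + ((d : A) * a n i j - a n i j * d) := by
      noncomm_ring
    rw [eq]
    refine lt_of_le_of_lt norm_add₃_le ?_
    rw [norm_neg]
    rw [lt_div_iff₀ (by positivity)] at hsmall
    linarith
  · refine squeeze_zero_norm' ?_ hlim
    filter_upwards [hKG g] with n hn using (ha n).2.2.2.2.2.2.1 g hn i j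
  · filter_upwards [hlim.eventually (eventually_le_nhds hε)] with n hn τ hτ
    exact ((ha n).2.2.2.2.2.2.2 τ hτ).1.trans hn
  · obtain ⟨d, hd⟩ := hdense c (ε / 4) (by positivity)
    have hS : (0 : ℝ) < ‖(d : A)‖ + 1 := by positivity
    filter_upwards [hKD d, hlim.eventually (eventually_lt_nhds
      (show (0 : ℝ) < ε / (4 * (‖(d : A)‖ + 1)) by positivity))] with n hn hsmall τ hτ
    have h1 := ((ha n).2.2.2.2.2.2.2 τ hτ).2 _ (Finset.mem_image_of_mem _ hn) i
    rw [smul_mul_assoc, smul_comm ((N : ℂ)⁻¹), ← smul_sub, ← Complex.coe_smul, map_smul, norm_smul,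
      Complex.norm_real, Real.norm_of_nonneg (by positivity), inv_mul_le_iff₀ hS] at h1
    have eq : c * a n i i - (N : ℂ)⁻¹ • c = (c - d) * a n i i + -((N : ℂ)⁻¹ • (c - (d : A))) +
        ((d : A) * a n i i - (N : ℂ)⁻¹ • (d : A)) := by
      rw [smul_sub]; noncomm_ring
    rw [eq, map_add, map_add]
    refine norm_add₃_le.trans ?_
    have h2 : ‖τ ((c - d) * a n i i)‖ ≤ ε / 4 := (((trOf hτ).norm_apply_le _).trans
      ((trOf hτ).nrm_le_norm _)).trans ((norm_mul_le _ _).trans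
        ((mul_le_of_le_one_right (norm_nonneg _) ((ha n).1 i i)).trans hd))
    have h3 : ‖τ (-((N : ℂ)⁻¹ • (c - (d : A))))‖ ≤ ε / 4 := by
      refine (((trOf hτ).norm_apply_le _).trans ((trOf hτ).nrm_le_norm _)).trans ?_
      rw [norm_neg, norm_smul, norm_inv, Complex.norm_natCast]
      exact (mul_le_of_le_one_left (norm_nonneg _)
        (inv_le_one_of_one_le₀ (Nat.one_le_cast.2 hN))).trans hd
    rw [lt_div_iff₀ (by positivity)] at hsmall
    linarith

end Vale.Agent.P095.AF
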