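import Mathlib

/-!
# P095: projections in a matrix algebra
-/

open scoped ComplexOrder
open Finset Matrix

noncomputable section

namespace Vale.Agent.P095.AF.Rank

variable {ι : Type*} [Fintype ι] [DecidableEq ι]

/-- The diagonal projection onto a set of coordinates. -/
def dproj (s : Finset ι) : Matrix ι ι ℂ := Matrix.diagonal fun i => if i ∈ s then 1 else 0

theorem dproj_empty : dproj (∅ : Finset ι) = 0 := by simp [dproj]

theorem trace_dproj (s : Finset ι) : (dproj s).trace = (s.card : ℂ) := by
  simp [dproj, Matrix.trace_diagonal]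

theorem dproj_mul (s t : Finset ι) : dproj s * dproj t = dproj (s ∩ t) := by
  rw [dproj, dproj, dproj, Matrix.diagonal_mul_diagonal]
  congr 1
  funext i
  by_cases hs : i ∈ s <;> by_cases ht : i ∈ t <;> simp [hs, ht]

theorem isStarProjection_dproj (s : Finset ι) : IsStarProjection (dproj s) := by
  refine ⟨by rw [IsIdempotentElem, dproj_mul, Finset.inter_self], ?_⟩
  rw [IsSelfAdjoint, Matrix.star_eq_conjTranspose, dproj, Matrix.diagonal_conjTranspose]
  congr 1
  ext i; by_cases h : i ∈ s <;> simp [h]

theorem dproj_mul_single (s : Finset ι) (a b : ι) :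
    dproj s * Matrix.single a b (1 : ℂ) = if a ∈ s then Matrix.single a b 1 else 0 := by
  ext x y
  rw [dproj, Matrix.diagonal_mul]
  by_cases hx : a = x
  · subst hx; by_cases ha : a ∈ s <;> simp [ha]
  · by_cases ha : a ∈ s <;> simp [ha, hx]

theorem single_mul_dproj (s : Finset ι) (a b : ι) :
    Matrix.single a b (1 : ℂ) * dproj s = if b ∈ s then Matrix.single a b 1 else 0 := by
  ext x y
  rw [dproj, Matrix.mul_diagonal]
  by_cases hy : b = y
  · subst hy; by_cases hb : b ∈ s <;> simp [hb]
  · by_cases hb : b ∈ s <;> simp [hb, hy]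

theorem dproj_single_sum {κ : Type*} [Fintype κ] (g : κ → ι) (hg : Function.Injective g) :
    ∑ i, Matrix.single (g i) (g i) (1 : ℂ) = dproj (Finset.univ.image g) := by
  ext a b
  rw [Matrix.sum_apply, dproj, Matrix.diagonal_apply]
  simp only [Matrix.single_apply]
  by_cases h : a = b
  · subst h
    by_cases ha : ∃ i, g i = a
    · obtain ⟨i, rfl⟩ := ha
      rw [Finset.sum_eq_single i]
      · simp
      · intro j _ hj
        simp [hg.eq_iff, hj]
      · simp
    · push Not at ha
      simp [ha]
  · rw [if_neg h]
    exact Finset.sum_eq_zero fun i _ => if_neg fun hh => h (hh.1.symm.trans hh.2)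

variable {P : Matrix ι ι ℂ}

/-- A projection is a coordinate projection in a suitable orthonormal basis. -/
theorem exists_diag (hP : IsStarProjection P) :
    ∃ (U : Matrix ι ι ℂ) (s : Finset ι), star U * U = 1 ∧ U * star U = 1 ∧
      P = U * dproj s * star U ∧ P.trace = (s.card : ℂ) := by
  classical
  have hH : P.IsHermitian := hP.isSelfAdjoint
  set U : Matrix ι ι ℂ := (hH.eigenvectorUnitary : Matrix ι ι ℂ)
  set s := Finset.univ.filter fun i => hH.eigenvalues i = 1
  have hU1 : star U * U = 1 := Unitary.coe_star_mul_self _
  have hU2 : U * star U = 1 := Unitary.coe_mul_star_self _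
  have hspec := hH.spectral_theorem
  rw [Unitary.conjStarAlgAut_apply] at hspec
  have h := hP.isIdempotentElem.eq
  rw [hspec] at h
  set D : Matrix ι ι ℂ := Matrix.diagonal (RCLike.ofReal ∘ hH.eigenvalues)
  have hD : D * D = D := by
    calc D * D = (star U * U) * D * (star U * U) * D * (star U * U) := by
          simp only [hU1, one_mul, mul_one]
      _ = star U * (U * D * star U * (U * D * star U)) * U := by noncomm_ring
      _ = star U * (U * D * star U) * U := congrArg (fun X => star U * X * U) h
      _ = (star U * U) * D * (star U * U) := by noncomm_ring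
      _ = D := by simp only [hU1, one_mul, mul_one]
  have hDs : D = dproj s := by
    simp only [D, dproj]
    congr 1
    funext i
    rw [Matrix.diagonal_mul_diagonal] at hD
    have h3 := congrFun (Matrix.diagonal_injective hD) i
    simp only [Function.comp_apply, RCLike.ofReal_eq_complex_ofReal] at h3 ⊢
    have h4 : hH.eigenvalues i * hH.eigenvalues i = hH.eigenvalues i := by exact_mod_cast h3
    simp only [s, Finset.mem_filter, Finset.mem_univ, true_and]
    rcases eq_or_ne (hH.eigenvalues i) 0 with h0 | h0
    · simp [h0]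
    · simp [(mul_eq_left₀ h0).1 h4]
  refine ⟨U, s, hU1, hU2, by rw [← hDs]; exact hspec, ?_⟩
  conv_lhs => rw [hspec, hDs]
  rw [Matrix.trace_mul_cycle, hU1, one_mul, trace_dproj]

theorem trace_eq_natCast (hP : IsStarProjection P) :
    ∃ r : ℕ, P.trace = r ∧ (P ≠ 0 → 1 ≤ r) := by
  obtain ⟨U, s, -, -, rfl, htr⟩ := exists_diag hP
  refine ⟨s.card, htr, fun h => Nat.one_le_iff_ne_zero.2 fun h0 => h ?_⟩
  rw [Finset.card_eq_zero.1 h0, dproj_empty]
  simp

omit [DecidableEq ι] in
theorem trace_star_mul_self_nonneg (X : Matrix ι ι ℂ) : 0 ≤ (star X * X).trace := by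
  rw [Matrix.star_eq_conjTranspose]
  exact (Matrix.posSemidef_conjTranspose_mul_self X).trace_nonneg

omit [DecidableEq ι] in
theorem trace_re_nonneg (hP : IsStarProjection P) : 0 ≤ P.trace.re := by
  have h := trace_star_mul_self_nonneg P
  rw [hP.isSelfAdjoint.star_eq, hP.isIdempotentElem.eq] at h
  exact (Complex.le_def.1 h).1

/-- Comparison of projections by their traces. -/
theorem exists_partial_isometry {Q : Matrix ι ι ℂ} (hP : IsStarProjection P)
    (hQ : IsStarProjection Q) (h : P.trace.re ≤ Q.trace.re) :
    ∃ V, star V * V = P ∧ Q * V = V ∧ V * P = V := by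
  classical
  obtain ⟨U, s, hU1, hU2, hs, hPt⟩ := exists_diag hP
  obtain ⟨W, t, hW1, hW2, ht, hQt⟩ := exists_diag hQ
  have hcard : s.card ≤ t.card := by
    rw [hPt, hQt] at h
    simpa using h
  obtain ⟨f⟩ := Function.Embedding.nonempty_of_card_le
    (show Fintype.card s ≤ Fintype.card t by simpa using hcard)
  set E : Matrix ι ι ℂ := ∑ i : s, Matrix.single (f i : ι) (i : ι) 1 with hEdef
  have e2 : dproj t * E = E := by
    simp only [hEdef, Finset.mul_sum]
    exact Finset.sum_congr rfl fun i _ => by rw [dproj_mul_single, if_pos (f i).2]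
  have e3 : E * dproj s = E := by
    simp only [hEdef, Finset.sum_mul]
    exact Finset.sum_congr rfl fun i _ => by rw [single_mul_dproj, if_pos i.2]
  have e1 : star E * E = dproj s := by
    rw [show s = (Finset.univ : Finset s).image Subtype.val by ext; simp,
      ← dproj_single_sum _ Subtype.val_injective]
    simp only [hEdef, star_sum, Finset.sum_mul, Finset.mul_sum]
    refine Finset.sum_congr rfl fun i _ => ?_
    rw [Finset.sum_eq_single i]
    · simp [Matrix.star_eq_conjTranspose]
    · intro j _ hj
      rw [Matrix.star_eq_conjTranspose, Matrix.conjTranspose_single, star_one]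
      refine Matrix.single_mul_single_of_ne _ _ _ _ ?_ _
      exact fun hh => hj (f.injective (Subtype.ext hh))
    · simp
  refine ⟨W * E * star U, ?_, ?_, ?_⟩
  · calc star (W * E * star U) * (W * E * star U) = U * (star E * (star W * W) * E) * star U := by
          simp only [star_mul, star_star, mul_assoc]
      _ = P := by rw [hW1, mul_one, e1, ← hs]
  · calc Q * (W * E * star U) = W * (dproj t * (star W * W) * E) * star U := by
          rw [ht]; simp only [mul_assoc]
      _ = _ := by rw [hW1, mul_one, e2]
  · calc W * E * star U * P = W * (E * (star U * U) * dproj s) * star U := by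
          rw [hs]; simp only [mul_assoc]
      _ = _ := by rw [hU1, mul_one, e3]

/-- A projection of trace at least two has a proper nonzero subprojection. -/
theorem exists_sub (hP : IsStarProjection P) (h : 2 ≤ P.trace.re) :
    ∃ R, IsStarProjection R ∧ R ≠ 0 ∧ R ≠ P ∧ P * R = R := by
  obtain ⟨U, s, hU1, hU2, hs, hPt⟩ := exists_diag hP
  have h2 : 2 ≤ s.card := by rw [hPt] at h; simpa using h
  obtain ⟨i, hi⟩ := Finset.card_pos.1 (show 0 < s.card by omega)
  have hsing := isStarProjection_dproj ({i} : Finset ι)
  set R := U * dproj {i} * star U with hR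
  have htr : R.trace = 1 := by
    rw [hR, Matrix.trace_mul_cycle, hU1, one_mul, trace_dproj]; simp
  refine ⟨R, ⟨?_, ?_⟩, fun h0 => ?_, fun h0 => ?_, ?_⟩
  · show R * R = R
    calc R * R = U * (dproj {i} * (star U * U) * dproj {i}) * star U := by
          simp only [hR, mul_assoc]
      _ = R := by rw [hU1, mul_one, hsing.isIdempotentElem.eq]
  · show star R = R
    simp only [hR, star_mul, star_star, hsing.isSelfAdjoint.star_eq, mul_assoc]
  · rw [h0, Matrix.trace_zero] at htr; exact zero_ne_one htr
  · rw [h0, hPt] at htr
    have : s.card = 1 := by exact_mod_cast htr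
    omega
  · calc P * R = U * (dproj s * (star U * U) * dproj {i}) * star U := by
          simp only [hs, hR, mul_assoc]
      _ = R := by
          rw [hU1, mul_one, dproj_mul, Finset.inter_singleton_of_mem hi]

/-- The corner of a projection of trace one is one-dimensional. -/
theorem corner_eq_smul (hP : IsStarProjection P) (h : P.trace.re = 1) (X : Matrix ι ι ℂ) :
    ∃ c : ℂ, P * X * P = c • P := by
  obtain ⟨U, s, hU1, hU2, hs, hPt⟩ := exists_diag hP
  have h1 : s.card = 1 := by rw [hPt] at h; simpa using h
  obtain ⟨i, rfl⟩ := Finset.card_eq_one.1 h1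
  refine ⟨(star U * X * U) i i, ?_⟩
  have e : dproj {i} * (star U * X * U) * dproj {i} = (star U * X * U) i i • dproj {i} := by
    ext a b
    simp only [dproj, Matrix.mul_diagonal, Matrix.diagonal_mul, Matrix.smul_apply,
      Matrix.diagonal_apply, Finset.mem_singleton, smul_eq_mul]
    by_cases ha : a = i <;> by_cases hb : b = i
    · subst ha hb; simp
    · subst ha; simp [hb, Ne.symm hb]
    · subst hb; simp [ha]
    · simp [ha, hb]
  calc P * X * P = U * (dproj {i} * (star U * X * U) * dproj {i}) * star U := by
        rw [hs]; simp only [mul_assoc]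
    _ = _ := by rw [e, mul_smul_comm, smul_mul_assoc, ← hs]

/-- Matrix units of size `n` almost filling a projection. -/
theorem exists_units {n : ℕ} (hn : 0 < n) (hP : IsStarProjection P) :
    ∃ e : Fin n → Fin n → Matrix ι ι ℂ,
      (∀ i j, star (e i j) = e j i) ∧
      (∀ i j k l, e i j * e k l = if j = k then e i l else 0) ∧
      (∀ i j, P * e i j = e i j ∧ e i j * P = e i j) ∧
      (P - ∑ i, e i i).trace.re < n := by
  classical
  obtain ⟨U, s, hU1, hU2, hs, hPt⟩ := exists_diag hP
  set q := s.card / n
  obtain ⟨f⟩ := Function.Embedding.nonempty_of_card_le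
    (show Fintype.card (Fin n × Fin q) ≤ Fintype.card s by
      simp only [Fintype.card_prod, Fintype.card_fin, Fintype.card_coe]
      exact Nat.mul_div_le _ _)
  set g : Fin n × Fin q → ι := fun x => (f x : ι)
  have hg : Function.Injective g := Subtype.val_injective.comp f.injective
  set E : Fin n → Fin n → Matrix ι ι ℂ := fun i j =>
    ∑ l, Matrix.single (g (i, l)) (g (j, l)) 1 with hEdef
  have hmul : ∀ i j k l, E i j * E k l = if j = k then E i l else 0 := by
    intro i j k l
    simp only [hEdef, Finset.sum_mul, Finset.mul_sum]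
    split_ifs with hjk
    · subst hjk
      refine Finset.sum_congr rfl fun a _ => ?_
      rw [Finset.sum_eq_single a]
      · simp
      · intro b _ hb
        refine Matrix.single_mul_single_of_ne _ _ _ _ ?_ _
        exact fun hh => hb (congrArg Prod.snd (hg hh))
      · simp
    · exact Finset.sum_eq_zero fun a _ => Finset.sum_eq_zero fun b _ =>
        Matrix.single_mul_single_of_ne _ _ _ _ (fun hh => hjk (congrArg Prod.fst (hg hh))) _
  have hstar : ∀ i j, star (E i j) = E j i := fun i j => by
    simp [hEdef, Matrix.star_eq_conjTranspose]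
  have hsE : ∀ i j, dproj s * E i j = E i j ∧ E i j * dproj s = E i j := fun i j => by
    simp only [hEdef, Finset.mul_sum, Finset.sum_mul]
    exact ⟨Finset.sum_congr rfl fun l _ => by rw [dproj_mul_single, if_pos (f (i, l)).2],
      Finset.sum_congr rfl fun l _ => by rw [single_mul_dproj, if_pos (f (j, l)).2]⟩
  refine ⟨fun i j => U * E i j * star U, fun i j => ?_, fun i j k l => ?_, fun i j => ⟨?_, ?_⟩, ?_⟩
  · simp only [star_mul, star_star, hstar, mul_assoc]
  · calc U * E i j * star U * (U * E k l * star U)
          = U * (E i j * (star U * U) * E k l) * star U := by simp only [mul_assoc]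
      _ = _ := by rw [hU1, mul_one, hmul]; split_ifs <;> simp
  · calc P * (U * E i j * star U) = U * (dproj s * (star U * U) * E i j) * star U := by
          rw [hs]; simp only [mul_assoc]
      _ = _ := by rw [hU1, mul_one, (hsE i j).1]
  · calc U * E i j * star U * P = U * (E i j * (star U * U) * dproj s) * star U := by
          rw [hs]; simp only [mul_assoc]
      _ = _ := by rw [hU1, mul_one, (hsE i j).2]
  · have h1 : (∑ i, U * E i i * star U).trace = ((n * q : ℕ) : ℂ) := by
      rw [← Finset.sum_mul, ← Finset.mul_sum, Matrix.trace_mul_cycle, hU1, one_mul]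
      simp only [hEdef, Matrix.trace_sum, Matrix.trace_single_eq_same]
      simp
    rw [Matrix.trace_sub, h1, hPt]
    simp only [Complex.sub_re, Complex.natCast_re]
    rw [← Nat.cast_sub (Nat.mul_div_le _ _)]
    exact_mod_cast (show s.card - n * q < n by
      have := Nat.div_add_mod s.card n
      have := Nat.mod_lt s.card hn
      simp only [q]; omega)

end Vale.Agent.P095.AF.Rank
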