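import Vale.Agent.P095.AF.Stages
import Vale.Agent.P095.AF.Rank
import Vale.Agent.P095.AF.Powers

/-!
# P095: traces on an AF algebra: comparison, fullness and positivity
-/

open scoped ComplexOrder
open Filter Topology

noncomputable section

namespace Vale.Agent.P095.AF.Tower

variable {A : Type*} [CStarAlgebra A] (T : Tower A)

/-- A trace only sees the matrix traces of a stage. -/
theorem trace_hom {τ : A →ₗ[ℂ] ℂ} (hτ : IsTracial τ) (k : ℕ) (X : T.Mat k) :
    τ (T.hom k X) = ∑ b, (X b).trace * τ (T.pr k b) := by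
  rw [hom_apply, map_sum]
  refine Finset.sum_congr rfl fun b _ => ?_
  rw [map_sum, Matrix.trace, Finset.sum_mul]
  refine Finset.sum_congr rfl fun i _ => ?_
  rw [map_sum, Finset.sum_eq_single i]
  · rw [map_smul, smul_eq_mul, Matrix.diag_apply]
    congr 1
    calc τ (T.u k b i i) = τ (T.u k b i 0 * T.u k b 0 i) := by rw [T.mul_u, if_pos rfl]
      _ = τ (T.u k b 0 i * T.u k b i 0) := hτ.2.2 _ _
      _ = _ := by rw [T.mul_u, if_pos rfl]; rfl
  · intro j _ hj
    rw [map_smul, show T.u k b i j = T.u k b i j * T.u k b j j by rw [T.mul_u, if_pos rfl],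
      hτ.2.2, T.mul_u, if_neg hj, map_zero, smul_zero]
  · simp

theorem hom_isStarProjection {m : ℕ} {X : T.Mat m} (h : IsStarProjection (T.hom m X)) (b) :
    IsStarProjection (X b) := by
  refine ⟨congrFun (T.hom_injective m (?_ : T.hom m (X * X) = T.hom m X)) b,
    congrFun (T.hom_injective m (?_ : T.hom m (star X) = T.hom m X)) b⟩
  · rw [map_mul]; exact h.isIdempotentElem.eq
  · rw [map_star]; exact h.isSelfAdjoint.star_eq

theorem inComm_pr_mul {k : ℕ} {e : A} (he : T.InComm k e) (hp : IsStarProjection e) (b) :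
    IsStarProjection (T.pr k b * e) :=
  (T.isStarProjection_pr k b).mul hp (he.pr_mul_comm b)

/-- A family of functionals which are normalised block traces on the stages. -/
theorem exists_block_state [Nontrivial A] (M : ℕ) (b : Fin (T.B M)) :
    ∃ ψ : A →ₗ[ℂ] ℂ, (∀ x, ‖ψ x‖ ≤ ‖x‖) ∧ ψ 1 = 1 ∧
      ∀ X : T.Mat M, ψ (T.hom M X) = (X b).trace / ((T.d M b + 1 : ℕ) : ℂ) := by
  obtain ⟨η, hη1, hη⟩ := exists_dual_vector ℂ (T.pr M b) (by rw [T.norm_pr]; exact one_ne_zero)
  rw [T.norm_pr] at hη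
  set n : ℕ := T.d M b + 1
  let ψ : A →ₗ[ℂ] ℂ :=
    { toFun := fun x => (∑ i, η (T.u M b 0 i * x * T.u M b i 0)) / (n : ℂ)
      map_add' := fun x y => by simp [mul_add, add_mul, Finset.sum_add_distrib, add_div]
      map_smul' := fun c x => by simp [Finset.mul_sum, mul_div_assoc, Finset.sum_div] }
  have hX : ∀ X : T.Mat M, ψ (T.hom M X) = (X b).trace / (n : ℂ) := fun X => by
    show (∑ i, η (T.u M b 0 i * T.hom M X * T.u M b i 0)) / (n : ℂ) = _
    simp [T.u_hom_u, map_smul, hη, Matrix.trace]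
  refine ⟨ψ, fun x => ?_, ?_, hX⟩
  · show ‖(∑ i, η (T.u M b 0 i * x * T.u M b i 0)) / (n : ℂ)‖ ≤ ‖x‖
    rw [norm_div, Complex.norm_natCast, div_le_iff₀ (by positivity)]
    refine (norm_sum_le _ _).trans ((Finset.sum_le_sum fun i _ => (?_ : _ ≤ ‖x‖)).trans_eq ?_)
    · refine (η.le_opNorm _).trans ?_
      rw [hη1, one_mul]
      refine (norm_mul_le _ _).trans ((mul_le_of_le_one_right (norm_nonneg _) (T.norm_u_le _ _ _ _)).trans ?_)
      exact (norm_mul_le _ _).trans (mul_le_of_le_one_left (norm_nonneg _) (T.norm_u_le _ _ _ _))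
    · simp [n, mul_comm]
  · rw [← map_one (T.hom M), hX]
    simp [Matrix.trace, n, Nat.cast_add_one_ne_zero]

/-- The limit of block states along later and later stages is a tracial state. -/
theorem exists_limit_trace [Nontrivial A] (M : ℕ → ℕ) (hM : ∀ i, i ≤ M i)
    (b : ∀ i, Fin (T.B (M i))) :
    ∃ (ψ : ℕ → A →ₗ[ℂ] ℂ) (τ : A →ₗ[ℂ] ℂ), IsTracial τ ∧
      (∀ i (X : T.Mat (M i)),
        ψ i (T.hom (M i) X) = (X (b i)).trace / ((T.d (M i) (b i) + 1 : ℕ) : ℂ)) ∧
      ∀ x, Tendsto (fun i => ψ i x) (hyperfilter ℕ : Filter ℕ) (𝓝 (τ x)) := by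
  choose ψ hψn hψ1 hψ using fun i => T.exists_block_state (M i) (b i)
  set l : Filter ℕ := (hyperfilter ℕ : Filter ℕ)
  have hl : ∀ i₀, ∀ᶠ i in l, i₀ ≤ i := fun i₀ =>
    Nat.hyperfilter_le_atTop (eventually_ge_atTop i₀)
  have hex : ∀ x, ∃ z, Tendsto (fun i => ψ i x) l (𝓝 z) := fun x => by
    obtain ⟨z, -, hz⟩ := (isCompact_closedBall (0 : ℂ) ‖x‖).ultrafilter_le_nhds
      ((hyperfilter ℕ).map fun i => ψ i x)
      (le_principal_iff.2 (mem_map.2 (univ_mem' fun i => by
        show ψ i x ∈ Metric.closedBall 0 ‖x‖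
        rw [mem_closedBall_zero_iff]; exact hψn i x)))
    exact ⟨z, hz⟩
  choose z hz using hex
  let τ : A →ₗ[ℂ] ℂ :=
    { toFun := z
      map_add' := fun x y => tendsto_nhds_unique (hz (x + y))
        (((hz x).add (hz y)).congr fun i => (map_add (ψ i) x y).symm)
      map_smul' := fun c x => tendsto_nhds_unique (hz (c • x))
        (((hz x).const_mul c).congr fun i => by simp) }
  have hbd : ∀ x, ‖τ x‖ ≤ ‖x‖ := fun x =>
    le_of_tendsto (hz x).norm (Eventually.of_forall fun i => hψn i x)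
  have hτc : Continuous τ :=
    AddMonoidHomClass.continuous_of_bound τ 1 fun x => by rw [one_mul]; exact hbd x
  have htr : ∀ x y, τ (x * y) = τ (y * x) := by
    have key : ∀ p : A × A, τ (p.1 * p.2) = τ (p.2 * p.1) := by
      intro p
      have hc : IsClosed {p : A × A | τ (p.1 * p.2) = τ (p.2 * p.1)} :=
        isClosed_eq (hτc.comp (continuous_fst.mul continuous_snd))
          (hτc.comp (continuous_snd.mul continuous_fst))
      refine hc.closure_subset_iff.2 ?_ ((T.dense.prod T.dense).closure_eq ▸ Set.mem_univ p)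
      rintro ⟨x, y⟩ ⟨hx, hy⟩
      obtain ⟨j, hj⟩ := Set.mem_iUnion.1 hx
      obtain ⟨j', hj'⟩ := Set.mem_iUnion.1 hy
      refine tendsto_nhds_unique_of_eventuallyEq (hz _) (hz _)
        ((hl (max j j')).mono fun i hi => ?_)
      obtain ⟨X, rfl⟩ := T.exists_hom_eq (T.stage_mono ((le_max_left _ _).trans (hi.trans (hM i))) hj)
      obtain ⟨Y, rfl⟩ := T.exists_hom_eq (T.stage_mono ((le_max_right _ _).trans (hi.trans (hM i))) hj')
      simp only [← map_mul, hψ, Pi.mul_apply, Matrix.trace_mul_comm (X (b i))]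
    exact fun x y => key (x, y)
  have hpos : ∀ a, 0 ≤ τ (star a * a) := by
    intro a
    have hc : IsClosed {a : A | (0 : ℂ) ≤ τ (star a * a)} :=
      isClosed_le continuous_const (hτc.comp (continuous_star.mul continuous_id))
    refine hc.closure_subset_iff.2 ?_ (T.dense.closure_eq ▸ Set.mem_univ a)
    intro x hx
    obtain ⟨j, hj⟩ := Set.mem_iUnion.1 hx
    refine ge_of_tendsto (hz _) ((hl j).mono fun i hi => ?_)
    obtain ⟨X, rfl⟩ := T.exists_hom_eq (T.stage_mono (hi.trans (hM i)) hj)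
    rw [← map_star, ← map_mul, hψ]
    have h0 := Rank.trace_star_mul_self_nonneg (X (b i))
    rw [Complex.nonneg_iff] at h0 ⊢
    simp only [Pi.mul_apply, Pi.star_apply, Complex.div_natCast_re, Complex.div_natCast_im]
    exact ⟨div_nonneg h0.1 (Nat.cast_nonneg _), by rw [← h0.2, zero_div]⟩
  refine ⟨ψ, τ, ⟨?_, hpos, htr⟩, hψ, hz⟩
  exact tendsto_nhds_unique (hz 1) (tendsto_const_nhds.congr fun i => (hψ1 i).symm)

/-- Strict comparison in every trace gives comparison of ranks in some later stage. -/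
theorem exists_rank_le [Nontrivial A] {m : ℕ} {y t : A} (hy : y ∈ T.stage m) (ht : t ∈ T.stage m)
    (h : ∀ τ : A →ₗ[ℂ] ℂ, IsTracial τ → (τ y).re < (τ t).re) :
    ∃ M, m ≤ M ∧ ∃ Y Z : T.Mat M, T.hom M Y = y ∧ T.hom M Z = t ∧
      ∀ b, (Y b).trace.re ≤ (Z b).trace.re := by
  by_contra hcon
  push Not at hcon
  choose Y hY using fun i => T.exists_hom_eq (T.stage_mono (Nat.le_add_left m i) hy)
  choose Z hZ using fun i => T.exists_hom_eq (T.stage_mono (Nat.le_add_left m i) ht)
  choose b hb using fun i => hcon (i + m) (Nat.le_add_left m i) (Y i) (Z i) (hY i) (hZ i)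
  obtain ⟨ψ, τ, hτ, hψ, hz⟩ := T.exists_limit_trace (fun i => i + m) (Nat.le_add_right · m) b
  refine (h τ hτ).not_ge (le_of_tendsto_of_tendsto ((Complex.continuous_re.tendsto _).comp (hz t))
    ((Complex.continuous_re.tendsto _).comp (hz y)) (Eventually.of_forall fun i => ?_))
  show (ψ i t).re ≤ (ψ i y).re
  conv_lhs => rw [← hZ i]
  conv_rhs => rw [← hY i]
  rw [hψ, hψ, Complex.div_natCast_re, Complex.div_natCast_re]
  exact div_le_div_of_nonneg_right (hb i).le (Nat.cast_nonneg _)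

/-- Comparison by traces. -/
theorem compare_goal : T.CompareGoal := by
  intro k m e t hkm he ht hec htc hep htp hlt
  rcases subsingleton_or_nontrivial A with hA | hA
  · exact ⟨1, fun _ _ _ => Commute.one_left _, by simp [Subsingleton.elim (1 : A) 0],
      Subsingleton.elim _ _, Subsingleton.elim _ _⟩
  have hv : ∀ b, ∃ v, star v * v = T.pr k b * e ∧ (T.pr k b * t) * v = v ∧
      v * (T.pr k b * e) = v := by
    intro b
    have hpm := T.stage_mono hkm (T.pr_mem_stage k b)
    obtain ⟨M, -, Y, Z, hY, hZ, htr⟩ := T.exists_rank_le (T.mul_mem_stage hpm he)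
      (T.mul_mem_stage hpm ht) (hlt b)
    choose V hV1 hV2 hV3 using fun c => Rank.exists_partial_isometry
      (T.hom_isStarProjection (hY ▸ T.inComm_pr_mul hec hep b : IsStarProjection (T.hom M Y)) c)
      (T.hom_isStarProjection (hZ ▸ T.inComm_pr_mul htc htp b : IsStarProjection (T.hom M Z)) c)
      (htr c)
    refine ⟨T.hom M V, ?_, ?_, ?_⟩
    · rw [← map_star, ← map_mul, ← hY]; exact congrArg _ (funext hV1)
    · rw [← hZ, ← map_mul]; exact congrArg _ (funext hV2)
    · rw [← hY, ← map_mul]; exact congrArg _ (funext hV3)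
  choose v hv1 hv2 hv3 using hv
  have hpv : ∀ b, T.pr k b * v b = v b := fun b => by
    conv_rhs => rw [← hv2 b]
    conv_lhs => rw [← hv2 b, ← mul_assoc, ← mul_assoc (T.pr k b), (T.isStarProjection_pr k b).isIdempotentElem.eq]
  have htv : ∀ b, t * v b = v b := fun b => by
    conv_rhs => rw [← hv2 b, htc.pr_mul_comm b, mul_assoc, hpv b]
  have h1 : star (T.lift k v) * T.lift k v = e := by
    rw [T.star_lift, T.lift_mul]
    conv_rhs => rw [hec.eq_lift]
    congr 1
    funext b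
    rw [Pi.star_apply, mul_assoc, hpv b, hv1 b]
  refine ⟨T.lift k v, T.inComm_lift k v, ?_, h1, ?_⟩
  · have h2 := CStarRing.norm_star_mul_self (x := T.lift k v)
    rw [h1] at h2
    nlinarith [hep.norm_le, norm_nonneg (T.lift k v)]
  · rw [lift, Finset.mul_sum]
    refine Finset.sum_congr rfl fun b _ => ?_
    rw [Finset.mul_sum]
    refine Finset.sum_congr rfl fun l _ => ?_
    rw [← mul_assoc, ← mul_assoc, (htc b l 0).eq, mul_assoc (T.u k b l 0), htv b]

theorem one_mem_closure_ideal [IsSimpleRing A] {p : A} (hp : p ≠ 0) :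
    (1 : A) ∈ AddSubgroup.closure {x | ∃ w z, x = w * p * z} := by
  have h : TwoSidedIdeal.span ({p} : Set A) = ⊤ := by
    refine (eq_bot_or_eq_top _).resolve_left fun hb => hp ?_
    have := TwoSidedIdeal.subset_span (Set.mem_singleton p)
    rw [hb] at this
    exact (TwoSidedIdeal.mem_bot A).1 this
  have h1 : (1 : A) ∈ TwoSidedIdeal.span ({p} : Set A) := by rw [h]; trivial
  refine TwoSidedIdeal.mem_span_iff_mem_addSubgroup_closure.1 h1 |> fun h2 => ?_
  refine AddSubgroup.closure_mono ?_ h2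
  rintro x ⟨a, ⟨w, -, q, rfl, rfl⟩, z, -, rfl⟩
  exact ⟨w, z, rfl⟩

/-- Fullness of nonzero elements of the stages. -/
theorem full_goal [IsSimpleRing A] : T.FullGoal := by
  intro k p hp hp0
  have key : ∀ z ∈ AddSubgroup.closure {x | ∃ w y, x = w * p * y}, ∀ δ : ℝ, 0 < δ →
      ∃ K, ∀ m, K ≤ m → ∀ b, T.zr m b * p = 0 → ‖T.zr m b * z‖ ≤ δ := by
    intro z hz
    induction hz using AddSubgroup.closure_induction with
    | mem x hx =>
      obtain ⟨w, y, rfl⟩ := hx
      intro δ hδ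
      obtain ⟨K, hK⟩ := T.exists_near w (show 0 < δ / (‖p‖ * ‖y‖ + 1) by positivity)
      refine ⟨K, fun m hm b hb => ?_⟩
      obtain ⟨w', hw', hww, -⟩ := hK m hm
      have hc : T.zr m b * w' = w' * T.zr m b := ((T.inComm_zr m b).of_mem hw').eq
      have e : T.zr m b * (w * p * y) = T.zr m b * (w - w') * p * y := by
        rw [mul_sub, sub_mul, sub_mul, hc, mul_assoc w' (T.zr m b) p, hb]
        simp [mul_assoc]
      rw [e]
      calc ‖T.zr m b * (w - w') * p * y‖
          ≤ ‖T.zr m b‖ * ‖w - w'‖ * ‖p‖ * ‖y‖ :=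
            (norm_mul_le _ _).trans (mul_le_mul_of_nonneg_right ((norm_mul_le _ _).trans
              (mul_le_mul_of_nonneg_right (norm_mul_le _ _) (norm_nonneg _))) (norm_nonneg _))
        _ ≤ 1 * (δ / (‖p‖ * ‖y‖ + 1)) * ‖p‖ * ‖y‖ := by
            gcongr
            · exact T.norm_zr_le m b
            · rw [norm_sub_rev]; exact hww.le
        _ ≤ δ := by
            rw [one_mul, mul_assoc, div_mul_eq_mul_div, div_le_iff₀ (by positivity)]
            nlinarith [norm_nonneg p, norm_nonneg y]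
    | zero => exact fun δ hδ => ⟨0, fun m _ b _ => by simp [hδ.le]⟩
    | add x y _ _ hx hy =>
      intro δ hδ
      obtain ⟨K, hK⟩ := hx (δ / 2) (half_pos hδ)
      obtain ⟨K', hK'⟩ := hy (δ / 2) (half_pos hδ)
      refine ⟨max K K', fun m hm b hb => ?_⟩
      rw [mul_add]
      refine (norm_add_le _ _).trans ?_
      linarith [hK m ((le_max_left _ _).trans hm) b hb, hK' m ((le_max_right _ _).trans hm) b hb]
    | neg x _ hx => simpa [mul_neg] using hx
  obtain ⟨K, hK⟩ := key 1 (one_mem_closure_ideal hp0) (1 / 2) one_half_pos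
  refine ⟨K, fun m hm b hb => ?_⟩
  have h1 := hK m hm b hb
  rw [mul_one] at h1
  have h2 : (1 : ℝ) ≤ ‖T.zr m b‖ := by
    calc (1 : ℝ) = ‖T.zr m b * T.pr m b‖ := by rw [pr, T.zr_mul_u]; exact (T.norm_pr m b).symm
      _ ≤ ‖T.zr m b‖ * 1 := (norm_mul_le _ _).trans_eq (by rw [T.norm_pr])
      _ = _ := mul_one _
  linarith

/-- Traces are bounded below on nonzero projections. -/
theorem pos_goal [IsSimpleRing A] : T.PosGoal := by
  let _ : PartialOrder A := CStarAlgebra.spectralOrder A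
  let _ : StarOrderedRing A := CStarAlgebra.spectralOrderedRing A
  intro k p _ hp hp0
  have key : ∀ z ∈ AddSubgroup.closure {x | ∃ w y, x = w * p * y},
      ∃ c : ℝ, 0 ≤ c ∧ ∀ τ : A →ₗ[ℂ] ℂ, IsTracial τ → ‖τ z‖ ≤ c * (τ p).re := by
    intro z hz
    induction hz using AddSubgroup.closure_induction with
    | mem x hx =>
      obtain ⟨w, y, rfl⟩ := hx
      refine ⟨‖y * w‖, norm_nonneg _, fun τ hτ => ?_⟩
      rw [hτ.2.2, ← mul_assoc, ← trOf_apply hτ, ← trOf_apply hτ p]
      exact (trOf hτ).norm_apply_mul_nonneg _ hp.nonneg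
    | zero => exact ⟨0, le_rfl, fun τ _ => by simp⟩
    | add x y _ _ hx hy =>
      obtain ⟨c, hc, hcx⟩ := hx
      obtain ⟨c', hc', hcy⟩ := hy
      exact ⟨c + c', add_nonneg hc hc', fun τ hτ => by
        rw [map_add, add_mul]; exact (norm_add_le _ _).trans (add_le_add (hcx τ hτ) (hcy τ hτ))⟩
    | neg x _ hx => simpa using hx
  obtain ⟨c, hc, h⟩ := key 1 (one_mem_closure_ideal hp0)
  refine ⟨1 / (c + 1), by positivity, fun τ hτ => ?_⟩
  have h1 := h τ hτ
  rw [hτ.1, norm_one] at h1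
  have h2 : 0 ≤ (τ p).re := by rw [← trOf_apply hτ p]; exact (trOf hτ).nonneg hp.nonneg
  rw [div_le_iff₀ (by positivity)]
  nlinarith

end Vale.Agent.P095.AF.Tower
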