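import Vale.Agent.P095.AF.Build
import Vale.Agent.P095.AF.Trace
import Vale.Agent.P095.Model

/-!
# P095: simple infinite-dimensional AF algebras are uniformly McDuff
-/

open scoped ComplexOrder
open Finset

noncomputable section

namespace Vale.Agent.P095.AF.Tower

variable {A : Type*} [CStarAlgebra A] (T : Tower A)

theorem hom_single_isStarProjection {m : ℕ} (b : Fin (T.B m))
    {R : Matrix (Fin (T.d m b + 1)) (Fin (T.d m b + 1)) ℂ} (hR : IsStarProjection R) :
    IsStarProjection (T.hom m (Pi.single b R)) := by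
  refine ⟨?_, ?_⟩
  · rw [IsIdempotentElem, ← map_mul, ← Pi.single_mul, hR.isIdempotentElem.eq]
  · rw [IsSelfAdjoint, ← map_star]
    congr 1
    funext c
    rcases eq_or_ne c b with rfl | hc
    · simp [hR.isSelfAdjoint.star_eq]
    · simp [Pi.single_eq_of_ne hc]

/-- In a simple infinite-dimensional algebra every nonzero projection of a stage splits. -/
theorem exists_split [IsSimpleRing A] (hinf : ¬FiniteDimensional ℂ A) {k : ℕ} {p : A}
    (hp : p ∈ T.stage k) (hpp : IsStarProjection p) (hp0 : p ≠ 0) :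
    ∃ m, k ≤ m ∧ ∃ r ∈ T.stage m, IsStarProjection r ∧ r ≠ 0 ∧ r ≠ p ∧ p * r = r := by
  by_contra hcon
  push Not at hcon
  have hcorner : ∀ m, k ≤ m → ∀ x ∈ T.stage m, p * x * p ∈ Submodule.span ℂ ({p} : Set A) := by
    intro m hm x hx
    obtain ⟨P, hP⟩ := T.exists_hom_eq (T.stage_mono hm hp)
    obtain ⟨X, rfl⟩ := T.exists_hom_eq hx
    have hPb := T.hom_isStarProjection (hP.symm ▸ hpp : IsStarProjection (T.hom m P))
    obtain ⟨b, hb⟩ : ∃ b, P b ≠ 0 := by
      by_contra h
      push Not at h
      exact hp0 (by rw [← hP, show P = 0 from funext h, map_zero])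
    have hmul : ∀ R, P b * R = R → p * T.hom m (Pi.single b R) = T.hom m (Pi.single b R) := by
      intro R hR
      rw [← hP, ← map_mul]
      congr 1
      funext c
      rcases eq_or_ne c b with rfl | hc
      · simp [hR]
      · simp [Pi.single_eq_of_ne hc]
    have hne : ∀ R, R ≠ 0 → T.hom m (Pi.single b R) ≠ 0 := fun R hR h => hR (by
      simpa using congrFun (T.hom_injective m (h.trans (map_zero _).symm)) b)
    have hPsingle : P = Pi.single b (P b) := by
      funext c
      rcases eq_or_ne c b with rfl | hc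
      · simp
      · by_contra hPc
        refine hcon m hm _ (T.hom_mem m _) (T.hom_single_isStarProjection b (hPb b)) (hne _ hb)
          (fun h => hPc ?_) (hmul _ (hPb b).isIdempotentElem.eq)
        exact (congrFun (T.hom_injective m (h.trans hP.symm)) c).symm
    have htr : (P b).trace.re = 1 := by
      obtain ⟨r, hr, hr1⟩ := Rank.trace_eq_natCast (hPb b)
      rcases (hr1 hb).lt_or_eq with h2 | h2
      · obtain ⟨R, hR, hR0, hRne, hPR⟩ := Rank.exists_sub (hPb b)
          (by rw [hr, Complex.natCast_re]; exact_mod_cast h2)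
        refine absurd (hmul R hPR) (hcon m hm _ (T.hom_mem m _)
          (T.hom_single_isStarProjection b hR) (hne R hR0) fun h => hRne ?_)
        simpa using congrFun (T.hom_injective m (h.trans hP.symm)) b
      · rw [hr, ← h2]; simp
    obtain ⟨c, hc⟩ := Rank.corner_eq_smul (hPb b) htr (X b)
    refine Submodule.mem_span_singleton.2 ⟨c, ?_⟩
    rw [← hP, ← map_mul, ← map_mul, ← map_smul]
    congr 1
    rw [hPsingle]
    funext d
    rcases eq_or_ne d b with rfl | hd
    · simp [hc]
    · simp [Pi.single_eq_of_ne hd]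
  have hall : ∀ x, p * x * p ∈ Submodule.span ℂ ({p} : Set A) := by
    intro x
    have hcl : IsClosed {x : A | p * x * p ∈ Submodule.span ℂ ({p} : Set A)} :=
      (Submodule.closed_of_finiteDimensional _).preimage
        ((continuous_const.mul continuous_id).mul continuous_const)
    refine hcl.closure_subset_iff.2 ?_ (T.dense.closure_eq ▸ Set.mem_univ x)
    intro y hy
    obtain ⟨j, hj⟩ := Set.mem_iUnion.1 hy
    exact hcorner (max j k) (le_max_right _ _) y (T.stage_mono (le_max_left _ _) hj)
  have hlist : ∀ a ∈ AddSubgroup.closure {x | ∃ w y, x = w * p * y},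
      ∃ s : List (A × A), a = (s.map fun z => z.1 * p * z.2).sum := by
    intro a h1
    induction h1 using AddSubgroup.closure_induction with
    | mem x hx => obtain ⟨w, y, rfl⟩ := hx; exact ⟨[(w, y)], by simp⟩
    | zero => exact ⟨[], by simp⟩
    | add x y _ _ hx hy =>
      obtain ⟨s, rfl⟩ := hx
      obtain ⟨s', rfl⟩ := hy
      exact ⟨s ++ s', by simp⟩
    | neg x _ hx =>
      obtain ⟨s, rfl⟩ := hx
      exact ⟨s.map fun z => (-z.1, z.2), by simp [List.map_map, Function.comp_def, List.sum_neg]⟩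
  obtain ⟨s, hs⟩ := hlist 1 (one_mem_closure_ideal hp0)
  have hs' : (1 : A) = ∑ i : Fin s.length, s[i].1 * p * s[i].2 := by
    rw [hs]
    exact (Fin.sum_univ_fun_getElem s fun z : A × A => z.1 * p * z.2).symm
  refine hinf ?_
  have : FiniteDimensional ℂ (Submodule.span ℂ
      (Set.range fun ij : Fin s.length × Fin s.length => s[ij.1].1 * p * s[ij.2].2)) :=
    FiniteDimensional.span_of_finite ℂ (Set.finite_range _)
  have htop : Submodule.span ℂ
      (Set.range fun ij : Fin s.length × Fin s.length => s[ij.1].1 * p * s[ij.2].2) = ⊤ := by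
    rw [eq_top_iff]
    rintro x -
    rw [show x = 1 * x * 1 by rw [one_mul, mul_one], hs']
    simp only [Finset.sum_mul, Finset.mul_sum]
    refine Submodule.sum_mem _ fun i _ => Submodule.sum_mem _ fun j _ => ?_
    obtain ⟨c, hc⟩ := Submodule.mem_span_singleton.1 (hall (s[j].2 * x * s[i].1))
    rw [show s[j].1 * p * s[j].2 * x * (s[i].1 * p * s[i].2) =
        s[j].1 * (p * (s[j].2 * x * s[i].1) * p) * s[i].2 by simp only [mul_assoc], ← hc,
      mul_smul_comm, smul_mul_assoc]
    exact Submodule.smul_mem _ _ (Submodule.subset_span ⟨(j, i), rfl⟩)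
  rw [htop] at this
  exact Submodule.topEquiv.finiteDimensional

/-- Arbitrarily many orthogonal nonzero subprojections. -/
theorem exists_many [IsSimpleRing A] (hinf : ¬FiniteDimensional ℂ A) {k : ℕ} {p : A}
    (hp : p ∈ T.stage k) (hpp : IsStarProjection p) (hp0 : p ≠ 0) (L : ℕ) :
    ∃ m, k ≤ m ∧ ∃ q : Fin (L + 1) → A, (∀ i, q i ∈ T.stage m ∧ IsStarProjection (q i) ∧ q i ≠ 0) ∧
      (∀ i j, i ≠ j → q i * q j = 0) ∧ ∑ i, q i = p := by
  induction L with
  | zero =>
    exact ⟨k, le_rfl, fun _ => p, fun _ => ⟨hp, hpp, hp0⟩,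
      fun i j h => absurd (Fin.ext (by omega)) h, by simp⟩
  | succ L ih =>
    obtain ⟨m, hm, q, hq, horth, hsum⟩ := ih
    obtain ⟨m', hm', r, hr, hrp, hr0, hrne, hqr⟩ :=
      T.exists_split hinf (hq 0).1 (hq 0).2.1 (hq 0).2.2
    have hrq : r * q 0 = r := by
      conv_rhs => rw [← hrp.isSelfAdjoint.star_eq, ← hqr, star_mul, hrp.isSelfAdjoint.star_eq,
        (hq 0).2.1.isSelfAdjoint.star_eq]
    have hd : IsStarProjection (q 0 - r) := by
      refine ⟨?_, (hq 0).2.1.isSelfAdjoint.sub hrp.isSelfAdjoint⟩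
      show (q 0 - r) * (q 0 - r) = q 0 - r
      rw [mul_sub, sub_mul, sub_mul, (hq 0).2.1.isIdempotentElem.eq, hrp.isIdempotentElem.eq, hqr,
        hrq, sub_self, sub_zero]
    let q₁ : Fin (L + 1) → A := fun i => if i = 0 then q 0 - r else q i
    have horth₁ : ∀ i j, i ≠ j → q₁ i * q₁ j = 0 := by
      intro i j hij
      simp only [q₁]
      split_ifs with hi hj hj
      · exact absurd (hi.trans hj.symm) hij
      · rw [sub_mul, horth 0 j (Ne.symm hj)]
        rw [show r * q j = r * q 0 * q j by rw [hrq], mul_assoc, horth 0 j (Ne.symm hj), mul_zero,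
          sub_zero]
      · rw [mul_sub, horth i 0 hi]
        rw [show q i * r = q i * (q 0 * r) by rw [hqr], ← mul_assoc, horth i 0 hi, zero_mul,
          sub_zero]
      · exact horth i j hij
    have hr₁ : ∀ i, r * q₁ i = 0 ∧ q₁ i * r = 0 := by
      intro i
      simp only [q₁]
      split_ifs with hi
      · constructor
        · rw [mul_sub, hrq, hrp.isIdempotentElem.eq, sub_self]
        · rw [sub_mul, hqr, hrp.isIdempotentElem.eq, sub_self]
      · constructor
        · rw [← hrq, mul_assoc, horth 0 i (Ne.symm hi), mul_zero]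
        · rw [← hqr, ← mul_assoc, horth i 0 hi, zero_mul]
    refine ⟨m', hm.trans hm', Fin.cons r q₁, ?_, ?_, ?_⟩
    · refine Fin.cases ⟨hr, hrp, hr0⟩ fun i => ?_
      rw [Fin.cons_succ]
      simp only [q₁]
      split_ifs with hi
      · exact ⟨sub_mem (T.stage_mono hm' (hq 0).1) hr, hd, sub_ne_zero.2 hrne.symm⟩
      · exact ⟨T.stage_mono hm' (hq i).1, (hq i).2⟩
    · intro i j hij
      induction i using Fin.cases with
      | zero =>
        induction j using Fin.cases with
        | zero => exact absurd rfl hij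
        | succ j => simpa using (hr₁ j).1
      | succ i =>
        induction j using Fin.cases with
        | zero => simpa using (hr₁ i).2
        | succ j => simpa using horth₁ i j fun h => hij (by rw [h])
    · rw [Fin.sum_univ_succ, Fin.cons_zero]
      simp only [Fin.cons_succ]
      rw [← hsum, Fin.sum_univ_succ (f := q₁), Fin.sum_univ_succ (f := q)]
      simp [q₁, Fin.succ_ne_zero]
      abel

/-- The multiplicities of the units of a stage in later stages tend to infinity. -/
theorem exists_multiplicity [IsSimpleRing A] (hinf : ¬FiniteDimensional ℂ A) (k L : ℕ) :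
    ∃ m, k ≤ m ∧ ∀ (b : Fin (T.B k)) (Y : T.Mat m), T.hom m Y = T.pr k b →
      ∀ c, (L : ℝ) ≤ (Y c).trace.re := by
  choose m hm q hq horth hsum using fun b =>
    T.exists_many hinf (T.pr_mem_stage k b) (T.isStarProjection_pr k b) (T.u_ne k b) L
  choose m₀ hm₀ using fun x : Σ _b : Fin (T.B k), Fin (L + 1) =>
    T.full_goal (m x.1) (q x.1 x.2) (hq x.1 x.2).1 (hq x.1 x.2).2.2
  set M := max (max k (Finset.univ.sup m)) (Finset.univ.sup m₀)
  refine ⟨M, le_max_of_le_left (le_max_left _ _), fun b Y hY c => ?_⟩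
  have hmM : m b ≤ M :=
    le_max_of_le_left (le_max_of_le_right (Finset.le_sup (Finset.mem_univ b)))
  choose Q hQ using fun i => T.exists_hom_eq (T.stage_mono hmM (hq b i).1)
  have hYQ : Y = ∑ i, Q i := T.hom_injective M (by rw [hY, map_sum, ← hsum b]; simp [hQ])
  have h1 : ∀ i, (1 : ℝ) ≤ (Q i c).trace.re := fun i => by
    obtain ⟨r, hr, hr1⟩ := Rank.trace_eq_natCast
      (T.hom_isStarProjection ((hQ i).symm ▸ (hq b i).2.1 : IsStarProjection (T.hom M (Q i))) c)
    have hne : Q i c ≠ 0 := fun h0 =>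
      hm₀ ⟨b, i⟩ M (le_max_of_le_right (Finset.le_sup (Finset.mem_univ (⟨b, i⟩ :
        Σ _b : Fin (T.B k), Fin (L + 1))))) c (by rw [← hQ i, T.zr_mul_hom, h0]; simp)
    rw [hr, Complex.natCast_re]
    exact_mod_cast hr1 hne
  rw [hYQ, Finset.sum_apply, Matrix.trace_sum, Complex.re_sum]
  refine le_trans ?_ (Finset.sum_le_sum fun i _ => h1 i)
  simp

/-- Almost central matrix units of size `n` inside the commutant of a stage. -/
theorem exists_central_units [IsSimpleRing A] (hinf : ¬FiniteDimensional ℂ A) {n : ℕ} (hn : 0 < n)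
    (k : ℕ) {δ : ℝ} (hδ : 0 < δ) :
    ∃ E : Fin n → Fin n → A, (∀ i j, T.InComm k (E i j)) ∧ (∀ i j, star (E i j) = E j i) ∧
      (∀ i j l r, E i j * E l r = if j = l then E i r else 0) ∧
      ∀ τ : A →ₗ[ℂ] ℂ, IsTracial τ → (τ (1 - ∑ i, E i i)).re < δ := by
  obtain ⟨L, hL⟩ := exists_nat_gt ((n : ℝ) / δ)
  have hL0 : (0 : ℝ) < L := lt_of_le_of_lt (by positivity) hL
  obtain ⟨m, hkm, hmult⟩ := T.exists_multiplicity hinf k L
  choose Y hY using fun b => T.exists_hom_eq (T.stage_mono hkm (T.pr_mem_stage k b))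
  have hYp : ∀ b c, IsStarProjection (Y b c) := fun b =>
    T.hom_isStarProjection ((hY b).symm ▸ T.isStarProjection_pr k b :
      IsStarProjection (T.hom m (Y b)))
  choose e hes hem hey hed using fun b c => Rank.exists_units hn (hYp b c)
  let g : ∀ _ : Fin (T.B k), Fin n → Fin n → A := fun b i j => T.hom m fun c => e b c i j
  have hgs : ∀ b i j, star (g b i j) = g b j i := fun b i j => by
    rw [← map_star]; exact congrArg _ (funext fun c => hes b c i j)
  have hgm : ∀ b i j l r, g b i j * g b l r = if j = l then g b i r else 0 := fun b i j l r => by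
    rw [← map_mul]
    split_ifs with h
    · exact congrArg _ (funext fun c => (hem b c i j l r).trans (if_pos h))
    · rw [← map_zero (T.hom m)]
      exact congrArg _ (funext fun c => (hem b c i j l r).trans (if_neg h))
  have hgp : ∀ b i j, g b i j * T.pr k b = g b i j := fun b i j => by
    rw [← hY b, ← map_mul]; exact congrArg _ (funext fun c => (hey b c i j).2)
  let E : Fin n → Fin n → A := fun i j => T.lift k fun b => g b i j
  refine ⟨E, fun i j => T.inComm_lift k _, fun i j => ?_, fun i j l r => ?_, fun τ hτ => ?_⟩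
  · simp only [E, T.star_lift]
    exact congrArg _ (funext fun b => hgs b i j)
  · simp only [E, T.lift_mul, hgp, hgm]
    split_ifs <;> simp [lift]
  · have e1 : (1 : A) - ∑ i, E i i = T.lift k fun b => T.pr k b - ∑ i, g b i i := by
      have h1 : T.lift k (T.pr k) = 1 := by simp [lift, pr, T.mul_u, T.sum_u]
      conv_lhs => arg 1; rw [← h1]
      simp only [E, lift, mul_sub, sub_mul, Finset.sum_sub_distrib, Finset.mul_sum, Finset.sum_mul]
      congr 1
      rw [Finset.sum_comm]
      exact Finset.sum_congr rfl fun b _ => Finset.sum_comm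
    let _ : PartialOrder A := CStarAlgebra.spectralOrder A
    let _ : StarOrderedRing A := CStarAlgebra.spectralOrderedRing A
    have hτp : ∀ c, 0 ≤ (τ (T.pr m c)).re ∧ (τ (T.pr m c)).im = 0 := fun c => by
      rw [← trOf_apply hτ]
      exact ⟨(trOf hτ).nonneg (T.isStarProjection_pr m c).nonneg,
        (trOf hτ).im_eq_zero (T.isStarProjection_pr m c).nonneg⟩
    have hlift : ∀ f : Fin (T.B k) → A, (∀ b, f b * T.pr k b = f b) →
        τ (T.lift k f) = ∑ b, ((T.d k b + 1 : ℕ) : ℂ) * τ (f b) := fun f hf => by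
      simp only [lift, map_sum]
      refine Finset.sum_congr rfl fun b _ => ?_
      rw [Finset.sum_congr rfl fun l _ => (?_ : _ = τ (f b))]
      · simp
      · rw [mul_assoc, hτ.2.2, mul_assoc, T.mul_u, if_pos rfl]
        exact congrArg τ (hf b)
    have hle : ∀ b, (τ (T.pr k b - ∑ i, g b i i)).re ≤ (n : ℝ) / L * (τ (T.pr k b)).re := by
      intro b
      simp only [g, ← hY b, ← map_sum, ← map_sub, T.trace_hom hτ, Complex.re_sum, Finset.mul_sum,
        Complex.mul_re, (hτp _).2, mul_zero, sub_zero]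
      refine Finset.sum_le_sum fun c _ => ?_
      rw [← mul_assoc]
      refine mul_le_mul_of_nonneg_right ?_ (hτp c).1
      have h1 := hed b c
      have h2 := hmult b (Y b) (hY b) c
      rw [Pi.sub_apply, Finset.sum_apply]
      calc (Y b c - ∑ i, e b c i i).trace.re ≤ (n : ℝ) / L * L := by
            rw [div_mul_cancel₀ _ hL0.ne']; exact h1.le
        _ ≤ _ := mul_le_mul_of_nonneg_left h2 (by positivity)
    rw [e1, hlift _ fun b => by
      rw [sub_mul, (T.isStarProjection_pr k b).isIdempotentElem.eq, Finset.sum_mul]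
      simp [hgp]]
    have hone : ∑ b, ((T.d k b + 1 : ℕ) : ℝ) * (τ (T.pr k b)).re = 1 := by
      have h1 : T.lift k (T.pr k) = 1 := by simp [lift, pr, T.mul_u, T.sum_u]
      have h2 := hlift (T.pr k) fun b => (T.isStarProjection_pr k b).isIdempotentElem.eq
      rw [h1, hτ.1] at h2
      simpa [Complex.re_sum, Complex.mul_re] using (congrArg Complex.re h2).symm
    calc (∑ b, ((T.d k b + 1 : ℕ) : ℂ) * τ (T.pr k b - ∑ i, g b i i)).re
        = ∑ b, ((T.d k b + 1 : ℕ) : ℝ) * (τ (T.pr k b - ∑ i, g b i i)).re := by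
          simp [Complex.re_sum, Complex.mul_re]
      _ ≤ ∑ b, ((T.d k b + 1 : ℕ) : ℝ) * ((n : ℝ) / L * (τ (T.pr k b)).re) :=
          Finset.sum_le_sum fun b _ => mul_le_mul_of_nonneg_left (hle b) (Nat.cast_nonneg _)
      _ = (n : ℝ) / L := by
          simp only [mul_left_comm _ ((n : ℝ) / L), ← Finset.mul_sum, hone, mul_one]
      _ < δ := by rw [div_lt_iff₀ hL0]; rw [div_lt_iff₀ hδ] at hL; linarith

end Tower

open Tower in
/-- A simple unital infinite-dimensional AF algebra is uniformly McDuff. -/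
theorem isUniformlyMcDuff_of_isAF {A : Type*} [CStarAlgebra A] [IsSimpleRing A] (hA : IsAF A)
    (hinf : ¬FiniteDimensional ℂ A) : IsUniformlyMcDuff A := by
  classical
  intro C n hn ε hε
  obtain ⟨T⟩ := hA.nonempty_tower
  set η := min (ε / 2) (1 / 4)
  have hη : 0 < η := lt_min (by positivity) (by norm_num)
  choose K hK using fun c : A => T.exists_near c hη
  obtain ⟨E, hEc, hEs, hEm, hEd⟩ := T.exists_central_units hinf hn (C.sup K) hε
  have hEn : ∀ i j, ‖E i j‖ ≤ 1 := fun i j => by
    have hp : IsStarProjection (E j j) := ⟨(hEm j j j j).trans (if_pos rfl), hEs j j⟩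
    have h := CStarRing.norm_star_mul_self (x := E i j)
    rw [hEs, hEm, if_pos rfl] at h
    nlinarith [hp.norm_le, norm_nonneg (E i j)]
  refine ⟨E, hEn, fun i j l r τ hτ => ?_, fun i j τ hτ => ?_, fun τ hτ => ?_,
    fun c hc i j τ hτ => ?_⟩
  · rw [hEm, sub_self]; simpa using hε
  · rw [hEs, sub_self]; simpa using hε
  · have hS : IsStarProjection (1 - ∑ i, E i i) := by
      refine IsStarProjection.one_sub ⟨?_, ?_⟩
      · show (∑ i, E i i) * ∑ i, E i i = _
        simp [Finset.sum_mul, Finset.mul_sum, hEm]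
      · show star (∑ i, E i i) = _
        simp [star_sum, hEs]
    rw [← neg_sub, star_neg, neg_mul_neg, hS.isSelfAdjoint.star_eq, hS.isIdempotentElem.eq]
    exact hEd τ hτ
  · obtain ⟨c', hc', hcc, -⟩ := hK c (C.sup K) (Finset.le_sup hc)
    have hcomm : c' * E i j = E i j * c' := ((hEc i j).of_mem hc').eq.symm
    have hx : ‖c * E i j - E i j * c‖ ≤ 2 * η := by
      rw [show c * E i j - E i j * c = (c - c') * E i j - E i j * (c - c') by
        rw [sub_mul, mul_sub, hcomm]; abel]
      refine (norm_sub_le _ _).trans ?_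
      have h1 := (norm_mul_le (c - c') (E i j)).trans
        (mul_le_of_le_one_right (norm_nonneg _) (hEn i j))
      have h2 := (norm_mul_le (E i j) (c - c')).trans
        (mul_le_of_le_one_left (norm_nonneg _) (hEn i j))
      rw [norm_sub_rev] at hcc
      linarith
    refine lt_of_le_of_lt ((Complex.re_le_norm _).trans (norm_trace_le hτ _)) ?_
    rw [CStarRing.norm_star_mul_self]
    nlinarith [norm_nonneg (c * E i j - E i j * c), min_le_left (ε / 2) (1 / 4 : ℝ),
      min_le_right (ε / 2) (1 / 4 : ℝ)]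

end Vale.Agent.P095.AF
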