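import Vale.Agent.P095.AF.Move
import Vale.Agent.P095.AF.Powers
import Vale.Agent.P095.AF.Goals

/-!
# P095: equivariant property (SI) for actions of amenable groups on AF algebras

`s` is the normalised sum, over the cosets met by a Følner set, of translates of one `s₀` in the
commutant of a stage whose range lies under a projection moved away by the translations.
-/

open scoped ComplexOrder
open Filter Topology

noncomputable section

namespace Vale.Agent.P095.AF

variable {G : Type*} [Group G] {A : Type*} [CStarAlgebra A] [PartialOrder A] [StarOrderedRing A]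
variable {α : G → A ≃⋆ₐ[ℂ] A}

/-- A weighted sum of elements with almost orthogonal ranges. -/
theorem norm_sum_orth_le {S : Type*} [DecidableEq S] (s : Finset S) (a : S → ℝ) (x : S → A) {η : ℝ}
    (hx : ∀ i ∈ s, ‖x i‖ ≤ 1) (hη : ∀ i ∈ s, ∀ j ∈ s, i ≠ j → ‖star (x i) * x j‖ ≤ η) (hη0 : 0 ≤ η) :
    ‖∑ i ∈ s, a i • x i‖ ^ 2 ≤ ∑ i ∈ s, a i ^ 2 + (∑ i ∈ s, |a i|) ^ 2 * η := by
  rw [sq, ← CStarRing.norm_star_mul_self, star_sum, Finset.sum_mul, sq (∑ i ∈ s, |a i|),
    Finset.sum_mul, Finset.sum_mul, ← Finset.sum_add_distrib]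
  refine norm_sum_le_of_le _ fun i hi => ?_
  rw [Finset.mul_sum, Finset.mul_sum, Finset.sum_mul, star_smul, star_trivial]
  rw [← Finset.add_sum_erase s _ hi]
  refine (norm_add_le _ _).trans (add_le_add ?_ ?_)
  · rw [smul_mul_smul_comm, norm_smul, Real.norm_eq_abs, abs_mul_self, CStarRing.norm_star_mul_self,
      sq (a i)]
    exact mul_le_of_le_one_right (mul_self_nonneg _)
      (mul_le_one₀ (hx i hi) (norm_nonneg _) (hx i hi))
  · refine (norm_sum_le_of_le _ (n := fun j => |a i| * |a j| * η) fun j hj => ?_).trans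
      (Finset.sum_le_sum_of_subset_of_nonneg (Finset.erase_subset i s) fun j _ _ => by positivity)
    obtain ⟨hji, hj⟩ := Finset.mem_erase.1 hj
    rw [smul_mul_smul_comm, norm_smul, Real.norm_eq_abs, abs_mul]
    exact mul_le_mul_of_nonneg_left (hη i hi j hj (Ne.symm hji)) (by positivity)

/-- For a weighted sum with almost orthogonal ranges `s⋆ s` is the average of the `x⋆ x`. -/
theorem norm_star_sum_mul_sum_le {S : Type*} [DecidableEq S] (s : Finset S) (a : S → ℝ) (x : S → A)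
    (e : A) {η θ : ℝ} (ha : ∑ i ∈ s, a i ^ 2 = 1) (hθ : ∀ i ∈ s, ‖star (x i) * x i - e‖ ≤ θ)
    (hη : ∀ i ∈ s, ∀ j ∈ s, i ≠ j → ‖star (x i) * x j‖ ≤ η) (hη0 : 0 ≤ η) :
    ‖star (∑ i ∈ s, a i • x i) * (∑ i ∈ s, a i • x i) - e‖ ≤ θ + (∑ i ∈ s, |a i|) ^ 2 * η := by
  have he : e = ∑ i ∈ s, a i ^ 2 • e := by rw [← Finset.sum_smul, ha, one_smul]
  have hθ' : θ = ∑ i ∈ s, a i ^ 2 * θ := by rw [← Finset.sum_mul, ha, one_mul]
  conv_lhs => rw [he]
  conv_rhs => rw [hθ', sq (∑ i ∈ s, |a i|), Finset.sum_mul, Finset.sum_mul, ← Finset.sum_add_distrib]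
  rw [star_sum, Finset.sum_mul, ← Finset.sum_sub_distrib]
  refine norm_sum_le_of_le _ fun i hi => ?_
  rw [Finset.mul_sum, Finset.mul_sum, Finset.sum_mul, star_smul, star_trivial]
  rw [← Finset.add_sum_erase s _ hi, add_sub_right_comm]
  refine (norm_add_le _ _).trans (add_le_add ?_ ?_)
  · rw [smul_mul_smul_comm, ← sq, ← smul_sub, norm_smul, Real.norm_of_nonneg (sq_nonneg _)]
    exact mul_le_mul_of_nonneg_left (hθ i hi) (sq_nonneg _)
  · refine (norm_sum_le_of_le _ (n := fun j => |a i| * |a j| * η) fun j hj => ?_).trans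
      (Finset.sum_le_sum_of_subset_of_nonneg (Finset.erase_subset i s) fun j _ _ => by positivity)
    obtain ⟨hji, hj⟩ := Finset.mem_erase.1 hj
    rw [smul_mul_smul_comm, norm_smul, Real.norm_eq_abs, abs_mul]
    exact mul_le_mul_of_nonneg_left (hη i hi j hj (Ne.symm hji)) (by positivity)

section action

variable (hα : ∀ g h a, α (g * h) a = α g (α h a))
include hα

omit [PartialOrder A] [StarOrderedRing A] in
theorem alpha_one (a : A) : α 1 a = a :=
  (α 1).injective (show α 1 (α 1 a) = α 1 a by rw [← hα, one_mul])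

omit [PartialOrder A] [StarOrderedRing A] in
theorem alpha_inv (g : G) (a : A) : α g (α g⁻¹ a) = a := by
  rw [← hα, mul_inv_cancel, alpha_one hα]

/-- The elements acting trivially on central sequences form a subgroup. -/
def trivialPart (T : Tower A) : Subgroup G where
  carrier := {g | T.CentrallyTrivial (α g)}
  one_mem' := fun ε hε => ⟨0, fun x _ _ => by simp [alpha_one hα, hε.le]⟩
  inv_mem' := by
    intro g hg ε hε
    obtain ⟨k, hk⟩ := hg ε hε
    refine ⟨k, fun x hx hc => ?_⟩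
    rw [← StarAlgEquiv.norm_map (α g), map_sub, alpha_inv hα, norm_sub_rev]
    exact hk x hx hc
  mul_mem' := by
    intro g h hg hh ε hε
    obtain ⟨k, hk⟩ := hg (ε / 2) (half_pos hε)
    obtain ⟨l, hl⟩ := hh (ε / 2) (half_pos hε)
    refine ⟨max k l, fun x hx hc => ?_⟩
    have h1 := hk x hx (hc.mono (le_max_left _ _))
    have h2 := hl x hx (hc.mono (le_max_right _ _))
    have e : α (g * h) x - x = α g (α h x - x) + (α g x - x) := by rw [hα, map_sub]; abel
    rw [e]
    refine (norm_add_le _ _).trans ?_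
    rw [StarAlgEquiv.norm_map]
    linarith

end action

/-- The bookkeeping of one Følner set: representatives of finitely many cosets, weights of square
sum one whose shifts are nearby. -/
structure Spread (α : G → A ≃⋆ₐ[ℂ] A) (T : Tower A) (K : Finset G) (ε : ℝ) where
  n : ℕ
  r : Fin n → G
  w : Fin n → ℝ
  w_sq : ∑ i, w i ^ 2 = 1
  moved : ∀ i j, i ≠ j → ¬T.CentrallyTrivial (α ((r i)⁻¹ * r j))
  shift : ∀ k ∈ K, ∃ σ : Fin n → Fin n,
    (∀ i, w i ≠ 0 → T.CentrallyTrivial (α ((r (σ i))⁻¹ * (k * r i)))) ∧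
    ∑ j, ((∑ i ∈ Finset.univ.filter (fun i => σ i = j), w i) - w j) ^ 2 ≤ ε

theorem sq_sqrt_sub_le {a b : ℝ} (ha : 0 ≤ a) (hb : 0 ≤ b) :
    (Real.sqrt a - Real.sqrt b) ^ 2 ≤ |a - b| := by
  have hA := Real.mul_self_sqrt ha
  have hB := Real.mul_self_sqrt hb
  have h := Real.sqrt_nonneg a
  have h' := Real.sqrt_nonneg b
  rcases le_total a b with hab | hab
  · have := Real.sqrt_le_sqrt hab
    rw [abs_of_nonpos (by linarith)]
    nlinarith
  · have := Real.sqrt_le_sqrt hab
    rw [abs_of_nonneg (by linarith)]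
    nlinarith

open Classical in
theorem exists_spread (hG : IsAmenableGroup G) (hα : ∀ g h a, α (g * h) a = α g (α h a))
    (T : Tower A) (K : Finset G) {ε : ℝ} (hε : 0 < ε) : Nonempty (Spread α T K ε) := by
  obtain ⟨F, hF, hFK⟩ := hG K ε hε
  set H := trivialPart hα T
  set mk : G → G ⧸ H := fun g => (g : G ⧸ H)
  set S : Finset (G ⧸ H) := (insert 1 K).biUnion fun k => F.image fun g => mk (k * g)
  set e := S.equivFin
  set cnt : G ⧸ H → ℝ := fun c => ((F.filter fun g => mk g = c).card : ℝ)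
  have hF0 : (0 : ℝ) < F.card := Nat.cast_pos.2 hF.card_pos
  set r : Fin S.card → G := fun i => ((e.symm i : G ⧸ H)).out
  have hmk : ∀ i, mk (r i) = (e.symm i : G ⧸ H) := fun i => QuotientGroup.out_eq' _
  have hS : ∀ g ∈ F, mk g ∈ S := fun g hg => Finset.mem_biUnion.2
    ⟨1, Finset.mem_insert_self _ _, Finset.mem_image.2 ⟨g, hg, by rw [one_mul]⟩⟩
  set w : Fin S.card → ℝ := fun i => Real.sqrt (cnt (e.symm i) / F.card)
  have hsum : ∀ f : G ⧸ H → ℝ, ∑ i, f (e.symm i) = ∑ c ∈ S, f c := fun f =>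
    (e.symm.sum_comp fun c : S => f c).trans (Finset.sum_coe_sort S f)
  refine ⟨⟨S.card, r, w, ?_, fun i j hij h => hij ?_, fun k hk => ?_⟩⟩
  · have : ∀ i, w i ^ 2 = cnt (e.symm i) / F.card := fun i =>
      Real.sq_sqrt (div_nonneg (Nat.cast_nonneg _) hF0.le)
    simp only [this]
    rw [hsum fun c => cnt c / F.card, ← Finset.sum_div, div_eq_one_iff_eq hF0.ne']
    simp only [cnt]
    exact_mod_cast (Finset.card_eq_sum_card_fiberwise hS).symm
  · have h1 : mk (r i) = mk (r j) := QuotientGroup.eq.2 h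
    rw [hmk, hmk] at h1
    exact e.symm.injective (Subtype.ext h1)
  · -- the coset of `k * r i`, when it meets `S`
    have hmem : ∀ i, w i ≠ 0 → mk (k * r i) ∈ S := by
      intro i hi
      have hne : (F.filter fun g => mk g = (e.symm i : G ⧸ H)).Nonempty := by
        rw [Finset.nonempty_iff_ne_empty]
        intro h0
        exact hi (by simp [w, cnt, h0])
      obtain ⟨g, hg⟩ := hne
      obtain ⟨hg, hgi⟩ := Finset.mem_filter.1 hg
      refine Finset.mem_biUnion.2 ⟨k, Finset.mem_insert_of_mem hk, Finset.mem_image.2 ⟨g, hg, ?_⟩⟩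
      rw [← hmk] at hgi
      refine QuotientGroup.eq.2 ?_
      rw [mul_inv_rev, mul_assoc, inv_mul_cancel_left]
      exact QuotientGroup.eq.1 hgi
    set σ : Fin S.card → Fin S.card := fun i =>
      if h : mk (k * r i) ∈ S then e ⟨_, h⟩ else i with hσ
    refine ⟨σ, fun i hi => ?_, ?_⟩
    · have h1 : mk (r (σ i)) = mk (k * r i) := by rw [hmk, hσ]; simp [hmem i hi]
      exact QuotientGroup.eq.1 h1
    set cnt' : G ⧸ H → ℝ := fun c => (((F.image (k * ·)).filter fun g => mk g = c).card : ℝ)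
    have key : ∀ j, (∑ i ∈ Finset.univ.filter (fun i => σ i = j), w i) =
        Real.sqrt (cnt' (e.symm j) / F.card) := by
      intro j
      set c : G ⧸ H := (e.symm j : G ⧸ H) with hc
      have hcnt : ((F.image (k * ·)).filter fun g => mk g = c) =
          ((F.filter fun g => mk g = mk (k⁻¹ * r j)).image (k * ·)) := by
        rw [Finset.filter_image]
        congr 1
        refine Finset.filter_congr fun g _ => ?_
        rw [hc, ← hmk, QuotientGroup.eq, QuotientGroup.eq, mul_inv_rev, mul_assoc]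
      by_cases hex : ∃ i, mk (r i) = mk (k⁻¹ * r j)
      · obtain ⟨i₀, hi₀⟩ := hex
        have hσ0 : σ i₀ = j := by
          have h1 : mk (k * r i₀) = c := by
            rw [hc, ← hmk]
            refine QuotientGroup.eq.2 ?_
            rw [mul_inv_rev, mul_assoc]
            exact QuotientGroup.eq.1 hi₀
          have hm : mk (k * r i₀) ∈ S := h1 ▸ (e.symm j).2
          rw [hσ]
          simp only [hm, dif_pos]
          rw [show (⟨mk (k * r i₀), hm⟩ : S) = e.symm j from Subtype.ext h1, Equiv.apply_symm_apply]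
        rw [Finset.sum_eq_single_of_mem i₀ (Finset.mem_filter.2 ⟨Finset.mem_univ _, hσ0⟩)]
        · simp only [w, cnt, cnt']
          rw [hcnt, Finset.card_image_of_injective _ (mul_right_injective k)]
          congr 4
          rw [← hi₀, hmk]
        · intro i hi hne
          by_contra hw
          refine hne (e.symm.injective (Subtype.ext ?_))
          have hσi := (Finset.mem_filter.1 hi).2
          rw [hσ] at hσi
          simp only [hmem i hw, dif_pos] at hσi
          have h1 : mk (k * r i) = c := by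
            rw [hc, ← hσi, Equiv.symm_apply_apply]
          rw [← hmk, ← hmk, hi₀]
          refine QuotientGroup.eq.2 ?_
          have h2 := QuotientGroup.eq.1 (h1.trans (hmk j).symm)
          rwa [mul_inv_rev, mul_assoc] at h2
      · push Not at hex
        have h0 : cnt' c = 0 := by
          simp only [cnt']
          rw [hcnt, Finset.card_image_of_injective _ (mul_right_injective k), Nat.cast_eq_zero,
            Finset.card_eq_zero, Finset.filter_eq_empty_iff]
          intro g hg hgj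
          exact hex (e ⟨mk g, hS g hg⟩) (by rw [hmk, Equiv.symm_apply_apply]; exact hgj)
        rw [h0, zero_div, Real.sqrt_zero]
        refine Finset.sum_eq_zero fun i hi => ?_
        by_contra hw
        refine hex i ?_
        have hσi := (Finset.mem_filter.1 hi).2
        rw [hσ] at hσi
        simp only [hmem i hw, dif_pos] at hσi
        have h1 : mk (k * r i) = c := by
          rw [hc, ← hσi, Equiv.symm_apply_apply]
        refine QuotientGroup.eq.2 ?_
        have h2 := QuotientGroup.eq.1 (h1.trans (hmk j).symm)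
        rwa [mul_inv_rev, mul_assoc] at h2
    simp only [key]
    refine (Finset.sum_le_sum fun j _ => sq_sqrt_sub_le (div_nonneg (Nat.cast_nonneg _) hF0.le)
      (div_nonneg (Nat.cast_nonneg _) hF0.le)).trans ?_
    rw [hsum fun c => |cnt' c / F.card - cnt c / F.card|]
    simp only [← sub_div, abs_div, Nat.abs_cast, ← Finset.sum_div]
    rw [div_le_iff₀ hF0]
    refine le_trans ?_ (hFK k hk)
    set Fk := F.image (k * ·)
    have hpt : ∀ c, |cnt' c - cnt c| ≤ (((Fk \ F).filter fun g => mk g = c).card : ℝ) +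
        ((F \ Fk).filter fun g => mk g = c).card := by
      intro c
      simp only [cnt, cnt']
      have h1 : (Fk.filter fun g => mk g = c).card ≤
          ((Fk \ F).filter fun g => mk g = c).card + (F.filter fun g => mk g = c).card :=
        (Finset.card_le_card fun g hg => by
          simp only [Finset.mem_filter, Finset.mem_union, Finset.mem_sdiff] at hg ⊢
          tauto).trans (Finset.card_union_le _ _)
      have h2 : (F.filter fun g => mk g = c).card ≤
          ((F \ Fk).filter fun g => mk g = c).card + (Fk.filter fun g => mk g = c).card :=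
        (Finset.card_le_card fun g hg => by
          simp only [Finset.mem_filter, Finset.mem_union, Finset.mem_sdiff] at hg ⊢
          tauto).trans (Finset.card_union_le _ _)
      have h1' := (Nat.cast_le (α := ℝ)).2 h1
      have h2' := (Nat.cast_le (α := ℝ)).2 h2
      push_cast at h1' h2'
      have n1 : (0 : ℝ) ≤ (((Fk \ F).filter fun g => mk g = c).card : ℝ) := Nat.cast_nonneg _
      have n2 : (0 : ℝ) ≤ (((F \ Fk).filter fun g => mk g = c).card : ℝ) := Nat.cast_nonneg _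
      rw [abs_le]
      constructor <;> linarith
    have hsub : ∀ D : Finset G, (∑ c ∈ S, ((D.filter fun g => mk g = c).card : ℝ)) ≤ D.card :=
      fun D => by
        have := Finset.card_biUnion (s := S) (t := fun c => D.filter fun g => mk g = c)
          fun c _ c' _ hcc' => Finset.disjoint_left.2 fun g hg hg' =>
            hcc' ((Finset.mem_filter.1 hg).2.symm.trans (Finset.mem_filter.1 hg').2)
        rw [← Nat.cast_sum, Nat.cast_le, ← this]
        exact Finset.card_le_card (Finset.biUnion_subset.2 fun c _ => Finset.filter_subset _ _)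
    refine (Finset.sum_le_sum fun c _ => hpt c).trans ?_
    rw [Finset.sum_add_distrib]
    exact add_le_add (hsub _) (hsub _)

/-- One element of the commutant with `s⋆ s ≈ e` and range under `q` and almost under `f`. -/
theorem exists_s0 (T : Tower A) (hcomp : T.CompareGoal) {k k₂ : ℕ} (hk : k ≤ k₂) {q : A}
    (hqm : q ∈ T.stage k₂) (hqc : T.InComm k q) (hqp : IsStarProjection q)
    {e f : A} (he0 : 0 ≤ e) (he1 : ‖e‖ ≤ 1) (hf0 : 0 ≤ f) (hf1 : ‖f‖ ≤ 1) {θ η : ℝ} (hθ : 0 < θ)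
    (hη : 0 < η) (hee : ‖T.exp k e - e‖ ≤ η) (hff : ‖T.exp k₂ f - f‖ ≤ η)
    (hτ : ∀ b, ∀ τ : A →ₗ[ℂ] ℂ, IsTracial τ → ((τ e).re + 4 * η) / θ <
      (τ (T.pr k b * q * f)).re - ((τ (f - f * f)).re + 12 * η) / θ - 2 * η) :
    ∃ s₀, T.InComm k s₀ ∧ ‖s₀‖ ≤ 1 ∧ q * s₀ = s₀ ∧ ‖star s₀ * s₀ - e‖ ≤ θ + 4 * η ∧
      ‖f * s₀ - s₀‖ ≤ θ + 3 * η := by
  have hesa : IsSelfAdjoint e := .of_nonneg he0
  have hfsa : IsSelfAdjoint f := .of_nonneg hf0
  obtain ⟨K₁, hK₁⟩ := T.exists_near e hη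
  obtain ⟨K₂, hK₂⟩ := T.exists_near f hη
  set m := max k₂ (max K₁ K₂)
  have hk₂m : k₂ ≤ m := le_max_left _ _
  have hkm : k ≤ m := hk.trans hk₂m
  obtain ⟨y, hy, hye, hyn, hys⟩ := hK₁ m ((le_max_left _ _).trans (le_max_right _ _))
  obtain ⟨z, hz, hzf, hzn, hzs⟩ := hK₂ m ((le_max_right _ _).trans (le_max_right _ _))
  set e₁ := T.exp k y
  set f₁ := T.exp k₂ z
  have he₁m : e₁ ∈ T.stage m := T.exp_mem_stage hkm hy
  have hf₁m : f₁ ∈ T.stage m := T.exp_mem_stage hk₂m hz
  have he₁s : IsSelfAdjoint e₁ := T.isSelfAdjoint_exp k (hys hesa)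
  have hf₁s : IsSelfAdjoint f₁ := T.isSelfAdjoint_exp k₂ (hzs hfsa)
  have he₁c : T.InComm k e₁ := T.inComm_exp k y
  have hf₁c : T.InComm k₂ f₁ := T.inComm_exp k₂ z
  have he₁n : ‖e₁‖ ≤ 1 := (T.norm_exp_le k y).trans (hyn.trans he1)
  have hf₁n : ‖f₁‖ ≤ 1 := (T.norm_exp_le k₂ z).trans (hzn.trans hf1)
  have hde : ‖e₁ - e‖ ≤ 2 * η := by
    have h1 : e₁ - e = T.exp k (y - e) + (T.exp k e - e) := by rw [T.exp_sub]; abel
    rw [h1]
    exact (norm_add_le _ _).trans (by linarith [(T.norm_exp_le k (y - e)).trans hye.le])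
  have hdf : ‖f₁ - f‖ ≤ 2 * η := by
    have h1 : f₁ - f = T.exp k₂ (z - f) + (T.exp k₂ f - f) := by rw [T.exp_sub]; abel
    rw [h1]
    exact (norm_add_le _ _).trans (by linarith [(T.norm_exp_le k₂ (z - f)).trans hzf.le])
  have low : ∀ (x x₁ : A), 0 ≤ x → IsSelfAdjoint x₁ → ‖x₁ - x‖ ≤ 2 * η →
      ∀ t ∈ spectrum ℝ x₁, -(2 * η) ≤ t := by
    intro x x₁ hx hx₁ hd
    refine (algebraMap_le_iff_le_spectrum (R := ℝ) hx₁).1 ?_
    have h1 : x - x₁ ≤ algebraMap ℝ A (2 * η) :=
      ((hx.isSelfAdjoint.sub hx₁).le_algebraMap_norm_self).trans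
        (algebraMap_mono A (by rw [norm_sub_rev]; exact hd))
    rw [map_neg, neg_le_iff_add_nonneg]
    calc (0 : A) ≤ x := hx
      _ = x₁ + (x - x₁) := by abel
      _ ≤ x₁ + algebraMap ℝ A (2 * η) := add_le_add le_rfl h1
  have hlowe := low e e₁ he0 he₁s hde
  have hlowf := low f f₁ hf0 hf₁s hdf
  rcases subsingleton_or_nontrivial A with hA | hA
  · exact ⟨0, T.inComm_zero k, by simp, Subsingleton.elim _ _, by
      simp [Subsingleton.elim e 0]; positivity, by simp; positivity⟩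
  have hupe : ∀ t ∈ spectrum ℝ e₁, t ≤ 1 := fun t ht =>
    ((le_abs_self t).trans (spectrum.norm_le_norm_of_mem ht)).trans he₁n
  have hupf : ∀ t ∈ spectrum ℝ f₁, t ≤ 1 := fun t ht =>
    ((le_abs_self t).trans (spectrum.norm_le_norm_of_mem ht)).trans hf₁n
  have hce := T.continuousOn_spectrum he₁m
  have hcf := T.continuousOn_spectrum hf₁m
  set e' := cfc (Tower.ind θ) e₁ with he'
  set f' := cfc (Tower.ind (1 - θ)) f₁ with hf'
  have he'p : IsStarProjection e' := T.isStarProjection_cfc_ind he₁m θ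
  have hf'p : IsStarProjection f' := T.isStarProjection_cfc_ind hf₁m (1 - θ)
  have hf'c : T.InComm k₂ f' := hf₁c.cfc _
  have hqf : Commute q f' := (hf'c.of_mem hqm).symm
  have hre : ∀ τ : A →ₗ[ℂ] ℂ, IsTracial τ → ∀ x y : A, |(τ x).re - (τ y).re| ≤ ‖x - y‖ := by
    intro τ hτ x y
    rw [← Complex.sub_re, ← map_sub]
    exact (Complex.abs_re_le_norm _).trans
      (((trOf hτ).norm_apply_le _).trans ((trOf hτ).nrm_le_norm _))
  obtain ⟨v, hvc, hvn, hve, hvt⟩ := hcomp k m e' (q * f') hkm (T.cfc_mem_stage he₁m _)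
    (T.mul_mem_stage (T.stage_mono hk₂m hqm) (T.cfc_mem_stage hf₁m _)) (he₁c.cfc _)
    (hqc.mul (hf'c.mono hk)) he'p (hqp.mul hf'p hqf) fun b τ htr => by
      have hpp := T.isStarProjection_pr k b
      set p := T.pr k b
      set ω := trOf htr
      set a := p * q
      have hap : IsStarProjection a := hpp.mul hqp ((hqc b 0 0).symm)
      have h1 : (τ (p * e')).re ≤ ((τ e).re + 4 * η) / θ := by
        have h0 : (τ (p * e')).re ≤ (τ e').re := by
          have := ω.re_mul_nonneg hpp.one_sub.nonneg he'p.nonneg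
          rw [sub_mul, one_mul, map_sub, Complex.sub_re] at this
          simpa [ω] using this
        have h2 : θ • e' ≤ e₁ + (2 * η) • 1 := by
          rw [he', ← cfc_smul θ _ e₁ (hce _)]
          conv_rhs => rw [← cfc_id' ℝ e₁, ← Algebra.algebraMap_eq_smul_one,
            ← cfc_add_const (2 * η) (fun t : ℝ => t) e₁]
          refine cfc_mono (fun t ht => ?_) (hce _) (by fun_prop)
          have := hlowe t ht
          show θ * Tower.ind θ t ≤ t + 2 * η
          unfold Tower.ind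
          split_ifs <;> linarith
        have h3 := isTracial_re_mono htr h2
        rw [isTracial_rsmul, map_add, Complex.add_re, isTracial_rsmul, htr.1] at h3
        simp only [Complex.one_re, mul_one] at h3
        have h4 := (abs_le.1 ((hre τ htr e₁ e).trans hde)).2
        -- absorb the slack
        refine h0.trans ?_
        rw [le_div_iff₀ hθ, mul_comm]
        have h5 : (τ e₁).re ≤ (τ e).re + 2 * η := by linarith
        have : θ * (τ e').re ≤ (τ e).re + 4 * η := by linarith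
        linarith
      have h2 : (τ (a * f)).re - ((τ (f - f * f)).re + 12 * η) / θ - 2 * η ≤
          (τ (p * (q * f'))).re := by
        rw [← mul_assoc]
        have hcf2 : f₁ - θ⁻¹ • (f₁ - f₁ * f₁ + (4 * η) • (1 : A)) ≤ f' := by
          rw [hf', ← Algebra.algebraMap_eq_smul_one]
          conv_lhs => rw [← cfc_id' ℝ f₁, ← cfc_mul (fun t : ℝ => t) (fun t => t) f₁ (hcf _) (hcf _),
            ← cfc_sub (fun t : ℝ => t) (fun t => t * t) f₁ (hcf _) (hcf _),
            ← cfc_add_const (4 * η) (fun t : ℝ => t - t * t) f₁ (hcf _),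
            ← cfc_smul θ⁻¹ (fun t : ℝ => t - t * t + 4 * η) f₁ (hcf _),
            ← cfc_sub (fun t : ℝ => t) _ f₁ (hcf _) (hcf _)]
          refine cfc_mono (fun t ht => ?_) (hcf _) (hcf _)
          have h0 := hlowf t ht
          have h1 := hupf t ht
          show t - θ⁻¹ * (t - t * t + 4 * η) ≤ Tower.ind (1 - θ) t
          have hnn : 0 ≤ t - t * t + 4 * η := by
            rcases le_or_gt 0 t with h | h
            · nlinarith
            · nlinarith [(abs_le.1 ((spectrum.norm_le_norm_of_mem ht).trans hf₁n)).1]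
          have hi : 0 ≤ θ⁻¹ * (t - t * t + 4 * η) := mul_nonneg (inv_nonneg.2 hθ.le) hnn
          unfold Tower.ind
          split_ifs with h
          · linarith
          · rw [sub_nonpos, le_inv_mul_iff₀ hθ]
            push Not at h
            rcases le_or_gt 0 t with h' | h'
            · nlinarith
            · nlinarith [mul_nonneg hθ.le (neg_nonneg.2 h'.le)]
        have h3 := ω.re_mul_nonneg hap.nonneg (sub_nonneg.2 hcf2)
        simp only [mul_sub, mul_smul_comm, mul_add, mul_one, map_sub, map_add, ω, trOf_apply,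
          Complex.sub_re, Complex.add_re, isTracial_rsmul] at h3
        have ha1 : (τ a).re ≤ 1 := (le_abs_self _).trans ((Complex.abs_re_le_norm _).trans
          (((trOf htr).norm_apply_le _).trans (((trOf htr).nrm_le_norm _).trans hap.norm_le)))
        have hd1 : ‖a * f₁ - a * f‖ ≤ 2 * η := by
          rw [← mul_sub]
          exact (norm_mul_le _ _).trans ((mul_le_of_le_one_left (norm_nonneg _) hap.norm_le).trans hdf)
        have hd2 : ‖a * (f₁ * f₁) - a * (f * f)‖ ≤ 4 * η := by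
          rw [← mul_sub, show f₁ * f₁ - f * f = (f₁ - f) * f₁ + f * (f₁ - f) by noncomm_ring]
          refine (norm_mul_le _ _).trans ((mul_le_of_le_one_left (norm_nonneg _) hap.norm_le).trans ?_)
          refine (norm_add_le _ _).trans ?_
          nlinarith [norm_mul_le (f₁ - f) f₁, norm_mul_le f (f₁ - f), norm_nonneg (f₁ - f),
            norm_nonneg f, norm_nonneg f₁]
        have g1 := abs_le.1 ((hre τ htr _ _).trans hd1)
        have g2 := abs_le.1 ((hre τ htr _ _).trans hd2)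
        have hffnn : 0 ≤ f - f * f := by
          rw [show f - f * f = f * (1 - f) by rw [mul_sub, mul_one]]
          exact Commute.mul_nonneg hf0 (sub_nonneg.2 ((CStarAlgebra.norm_le_one_iff_of_nonneg f hf0).1 hf1))
            ((Commute.one_right f).sub_right (Commute.refl f))
        have g3 : (τ (a * f)).re - (τ (a * (f * f))).re ≤ (τ (f - f * f)).re := by
          rw [← Complex.sub_re, ← map_sub, ← mul_sub]
          refine (Complex.re_le_norm _).trans (((trOf htr).norm_apply_mul_nonneg a hffnn).trans ?_)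
          exact mul_le_of_le_one_left ((trOf htr).nonneg hffnn) hap.norm_le
        have key : θ⁻¹ * ((τ (a * f₁)).re - (τ (a * (f₁ * f₁))).re + 4 * η * (τ a).re) ≤
            ((τ (f - f * f)).re + 12 * η) / θ := by
          rw [inv_mul_eq_div]
          refine div_le_div_of_nonneg_right ?_ hθ.le
          nlinarith
        have e1 : θ⁻¹ * ((τ (a * f₁)).re - (τ (a * (f₁ * f₁))).re + 4 * η * (τ a).re) =
            θ⁻¹ * ((τ (a * f₁)).re - (τ (a * (f₁ * f₁))).re) + θ⁻¹ * (4 * η * (τ a).re) := by ring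
        nlinarith
      exact lt_of_le_of_lt h1 (lt_of_lt_of_le (hτ b τ htr) h2)
  have hqv : q * v = v := by
    conv_lhs => rw [← hvt]
    rw [← mul_assoc, ← mul_assoc, hqp.isIdempotentElem.eq, hvt]
  have hfv : f' * v = v := by
    conv_lhs => rw [← hvt]
    rw [← mul_assoc, ← mul_assoc, ← hqf.eq, mul_assoc q f' f', hf'p.isIdempotentElem.eq, hvt]
  set g : A := cfc (fun t => Real.sqrt t * Tower.ind θ t) e₁ with hg
  have hgs : star g = g := (cfc_predicate _ e₁ : IsSelfAdjoint g).star_eq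
  have hg1 : ‖g‖ ≤ 1 := norm_cfc_le zero_le_one fun t ht => by
    unfold Tower.ind
    split_ifs
    · rw [mul_one, Real.norm_of_nonneg (Real.sqrt_nonneg _)]
      exact Real.sqrt_le_one.2 (hupe t ht)
    · simp
  refine ⟨v * g, hvc.mul (he₁c.cfc _), (norm_mul_le _ _).trans (mul_le_one₀ hvn (norm_nonneg _) hg1),
    by rw [← mul_assoc, hqv], ?_, ?_⟩
  · have e1 : star (v * g) * (v * g) = cfc (fun t => t * Tower.ind θ t) e₁ := by
      rw [star_mul, hgs, show g * star v * (v * g) = g * (star v * v) * g by simp only [mul_assoc],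
        hve, he', hg, ← cfc_mul _ _ e₁ (hce _) (hce _), ← cfc_mul _ _ e₁ (hce _) (hce _)]
      refine cfc_congr fun t ht => ?_
      simp only [Tower.ind]
      split_ifs with h
      · simp [Real.mul_self_sqrt (hθ.le.trans h)]
      · simp
    rw [e1]
    have e2 : ‖cfc (fun t => t * Tower.ind θ t) e₁ - e₁‖ ≤ θ + 2 * η := by
      conv_lhs => arg 1; arg 2; rw [← cfc_id' ℝ e₁]
      rw [← cfc_sub _ _ e₁ (hce _) (hce _)]
      refine norm_cfc_le (by positivity) fun t ht => ?_
      unfold Tower.ind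
      split_ifs with h
      · simp; positivity
      · rw [mul_zero, zero_sub, norm_neg, Real.norm_eq_abs, abs_le]
        exact ⟨by linarith [hlowe t ht], by linarith⟩
    calc ‖cfc (fun t => t * Tower.ind θ t) e₁ - e‖ ≤
          ‖cfc (fun t => t * Tower.ind θ t) e₁ - e₁‖ + ‖e₁ - e‖ :=
          norm_sub_le_norm_sub_add_norm_sub _ _ _
      _ ≤ θ + 4 * η := by linarith
  · have e1 : f * (v * g) - v * g = ((f - f₁) * f' + (f₁ * f' - f')) * (v * g) := by
      have h0 : (f - f₁) * f' + (f₁ * f' - f') = f * f' - f' := by noncomm_ring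
      rw [h0, sub_mul, mul_assoc f f', ← mul_assoc f' v g, hfv]
    rw [e1]
    have e2 : ‖f₁ * f' - f'‖ ≤ θ := by
      conv_lhs => arg 1; arg 1; arg 1; rw [← cfc_id' ℝ f₁]
      rw [hf', ← cfc_mul _ _ f₁ (hcf _) (hcf _), ← cfc_sub _ _ f₁ (hcf _) (hcf _)]
      refine norm_cfc_le hθ.le fun t ht => ?_
      unfold Tower.ind
      split_ifs with h
      · rw [mul_one, Real.norm_eq_abs, abs_le]; constructor <;> linarith [hupf t ht]
      · simp [hθ.le]
    refine (norm_mul_le _ _).trans ((mul_le_of_le_one_right (norm_nonneg _)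
      ((norm_mul_le _ _).trans (mul_le_one₀ hvn (norm_nonneg _) hg1))).trans ((norm_add_le _ _).trans ?_))
    have e3 : ‖(f - f₁) * f'‖ ≤ 2 * η :=
      (norm_mul_le _ _).trans ((mul_le_of_le_one_right (norm_nonneg _) hf'p.norm_le).trans
        (by rw [norm_sub_rev]; exact hdf))
    linarith

theorem eventually_exp_near (T : Tower A) (k : ℕ) {l : Filter ℕ} {x : ℕ → A}
    (h : ∀ c, Tendsto (fun n => c * x n - x n * c) l (𝓝 0)) {η : ℝ} (hη : 0 < η) :
    ∀ᶠ n in l, ‖T.exp k (x n) - x n‖ ≤ η := by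
  have h0 : Tendsto (fun n => ∑ b, ∑ i, ‖x n * T.u k b 0 i - T.u k b 0 i * x n‖) l (𝓝 0) := by
    have : (0 : ℝ) = ∑ b : Fin (T.B k), ∑ _i : Fin (T.d k b + 1), (0 : ℝ) := by simp
    rw [this]
    refine tendsto_finsetSum _ fun b _ => tendsto_finsetSum _ fun i _ => ?_
    have := (h (T.u k b 0 i)).norm
    simp only [norm_sub_rev (T.u k b 0 i * _), norm_zero] at this
    exact this
  filter_upwards [h0.eventually (eventually_le_nhds hη)] with n hn
  exact (T.norm_exp_sub_le k _).trans hn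

/-- The estimates on the spread sum of one element. -/
theorem exists_spread_sum (hα : ∀ g h a, α (g * h) a = α g (α h a)) {T : Tower A} {K : Finset G}
    {ε ε₁ θ M η : ℝ} (P : Spread α T K (ε₁ ^ 2 / 16)) {σ : ∀ k ∈ K, Fin P.n → Fin P.n}
    (hσN : ∀ k hk i, P.w i ≠ 0 → T.CentrallyTrivial (α ((P.r (σ k hk i))⁻¹ * (k * P.r i))))
    (hσ2 : ∀ k hk, ∑ j, ((∑ i ∈ Finset.univ.filter (fun i => σ k hk i = j), P.w i) - P.w j) ^ 2 ≤
      ε₁ ^ 2 / 16)
    (hθ0 : 0 < θ) (hε₁ε : ε₁ ≤ ε) (hε₁0 : 0 ≤ ε₁) (hε₁1 : ε₁ ≤ 1)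
    (hθe : θ * (64 * M ^ 4) = ε₁ ^ 2) (hM : M = (P.n : ℝ) + 1)
    {s₀ q e f : A} {C : Finset A} (hs₀n : ‖s₀‖ ≤ 1) (hqp : IsStarProjection q) (hqs₀ : q * s₀ = s₀)
    (hqij : ∀ i j, i ≠ j → ‖q * α ((P.r i)⁻¹ * P.r j) q‖ ≤ θ)
    (hs₀e : ‖star s₀ * s₀ - e‖ ≤ θ + 4 * η) (hs₀f : ‖f * s₀ - s₀‖ ≤ θ + 3 * η)
    (hinv_e : ∀ i, ‖α (P.r i) e - e‖ ≤ θ) (hinv_f : ∀ i, ‖α (P.r i) f - f‖ ≤ θ)
    (hcomm : ∀ c ∈ C, ∀ i, ‖α (P.r i)⁻¹ c * s₀ - s₀ * α (P.r i)⁻¹ c‖ ≤ 2 * θ)
    (hfix : ∀ k hk i, P.w i ≠ 0 → ‖α ((P.r (σ k hk i))⁻¹ * (k * P.r i)) s₀ - s₀‖ ≤ θ)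
    (hη1 : η ≤ θ) :
    ∃ s : A, ‖s‖ ≤ 2 ∧ ‖star s * s - e‖ ≤ ε ∧ ‖f * s - s‖ ≤ ε ∧
      (∀ c ∈ C, ‖c * s - s * c‖ ≤ ε) ∧ ∀ k ∈ K, ‖α k s - s‖ ≤ ε := by
  classical
  have hn0 : (0 : ℝ) ≤ P.n := Nat.cast_nonneg _
  have hM1 : 1 ≤ M := by linarith
  have hM2 : M ≤ M ^ 4 := le_self_pow₀ hM1 (by norm_num)
  have hM24 : M ^ 2 ≤ M ^ 4 := pow_le_pow_right₀ hM1 (by norm_num)
  have hθε2 : 64 * (θ * M ^ 4) ≤ ε₁ := by nlinarith
  have hθε : 64 * (θ * M) ≤ ε₁ := by nlinarith
  set x : Fin P.n → A := fun i => α (P.r i) s₀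
  have hx : ∀ i, ‖x i‖ ≤ 1 := fun i => (StarAlgEquiv.norm_map _ _).trans_le hs₀n
  have hxor : ∀ i ∈ Finset.univ, ∀ j ∈ Finset.univ, i ≠ j → ‖star (x i) * x j‖ ≤ θ := by
    intro i _ j _ hij
    set d := (P.r i)⁻¹ * P.r j
    have e1 : star (x i) * x j = α (P.r i) (star s₀ * α d s₀) := by
      rw [map_mul, map_star, ← hα (P.r i) d, mul_inv_cancel_left]
    rw [e1, StarAlgEquiv.norm_map]
    have e2 : star s₀ * α d s₀ = star s₀ * (q * α d q) * α d s₀ := by
      conv_lhs => rw [← hqs₀]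
      rw [star_mul, hqp.isSelfAdjoint.star_eq, map_mul]
      noncomm_ring
    rw [e2]
    exact (norm_mul₃_le).trans ((mul_le_of_le_one_right (by positivity)
      ((StarAlgEquiv.norm_map _ _).trans_le hs₀n)).trans
        ((mul_le_of_le_one_left (norm_nonneg _) ((norm_star _).trans_le hs₀n)).trans (hqij i j hij)))
  have hw1 : ∀ i, |P.w i| ≤ 1 := fun i => (sq_le_one_iff₀ (abs_nonneg _)).1 (by
    rw [sq_abs, ← P.w_sq]
    exact Finset.single_le_sum (f := fun i => P.w i ^ 2) (fun i _ => sq_nonneg _) (Finset.mem_univ i))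
  have hwsum : ∑ i, |P.w i| ≤ M := by
    refine (Finset.sum_le_sum fun i _ => hw1 i).trans ?_
    simp [hM]
  have hwsum0 : 0 ≤ ∑ i, |P.w i| := Finset.sum_nonneg fun i _ => abs_nonneg _
  set s : A := ∑ i, P.w i • x i
  have hs1 : ∀ (y : Fin P.n → A) (β : ℝ), (∀ i, P.w i ≠ 0 → ‖y i‖ ≤ β) → 0 ≤ β →
      ‖∑ i, P.w i • y i‖ ≤ M * β := fun y β h hβ => by
    refine (norm_sum_le_of_le _ (n := fun i => |P.w i| * β) fun i _ => ?_).trans ?_
    · rw [norm_smul, Real.norm_eq_abs]
      by_cases hw : P.w i = 0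
      · simp [hw]
      · exact mul_le_mul_of_nonneg_left (h i hw) (abs_nonneg _)
    · rw [← Finset.sum_mul]
      exact mul_le_mul_of_nonneg_right hwsum hβ
  refine ⟨s, ?_, ?_, ?_, fun c hcC => ?_, fun g hg => ?_⟩
  · have h1 := norm_sum_orth_le Finset.univ P.w x (fun i _ => hx i) hxor hθ0.le
    rw [P.w_sq] at h1
    nlinarith [norm_nonneg s, mul_le_mul_of_nonneg_right (pow_le_pow_left₀ hwsum0 hwsum 2) hθ0.le,
      mul_le_mul_of_nonneg_right hM24 hθ0.le]
  · refine (norm_star_sum_mul_sum_le Finset.univ P.w x (e) (θ := 6 * θ) P.w_sq (fun i _ => ?_) hxor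
      hθ0.le).trans ?_
    · have e1 : star (x i) * x i - e = α (P.r i) (star s₀ * s₀ - e) + (α (P.r i) (e) - e) := by
        rw [map_sub, map_mul, map_star]; abel
      rw [e1]
      refine (norm_add_le _ _).trans ?_
      rw [StarAlgEquiv.norm_map]
      linarith [hinv_e i]
    · nlinarith [mul_le_mul_of_nonneg_right (pow_le_pow_left₀ hwsum0 hwsum 2) hθ0.le,
        mul_le_mul_of_nonneg_right hM24 hθ0.le, mul_le_mul_of_nonneg_right hM1 hθ0.le]
  · have e1 : f * s - s = ∑ i, P.w i • (f * x i - x i) := by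
      simp only [s, Finset.mul_sum, mul_smul_comm, smul_sub, Finset.sum_sub_distrib]
    rw [e1]
    refine (hs1 _ (5 * θ) (fun i _ => ?_) (by positivity)).trans (by nlinarith)
    have e2 : f * x i - x i = α (P.r i) (f * s₀ - s₀) - (α (P.r i) (f) - f) * x i := by
      simp only [x, map_sub, map_mul, sub_mul]; abel
    rw [e2]
    refine (norm_sub_le _ _).trans ?_
    rw [StarAlgEquiv.norm_map]
    have := (norm_mul_le (α (P.r i) (f) - f) (x i)).trans
      ((mul_le_of_le_one_right (norm_nonneg _) (hx i)).trans (hinv_f i))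
    linarith
  · have e1 : c * s - s * c = ∑ i, P.w i • (c * x i - x i * c) := by
      simp only [s, Finset.mul_sum, Finset.sum_mul, mul_smul_comm, smul_mul_assoc, smul_sub,
        Finset.sum_sub_distrib]
    rw [e1]
    refine (hs1 _ (2 * θ) (fun i _ => ?_) (by positivity)).trans (by nlinarith)
    have e2 : c * x i - x i * c =
        α (P.r i) (α (P.r i)⁻¹ c * s₀ - s₀ * α (P.r i)⁻¹ c) := by
      rw [map_sub, map_mul, map_mul, alpha_inv hα]
    rw [e2, StarAlgEquiv.norm_map]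
    exact hcomm c hcC i
  · set τσ := σ g hg
    set w' : Fin P.n → ℝ := fun j => ∑ i ∈ Finset.univ.filter (fun i => τσ i = j), P.w i
    have e1 : α g s - s = (∑ i, P.w i • (α g (x i) - x (τσ i))) + ∑ j, (w' j - P.w j) • x j := by
      have e2 : ∑ i, P.w i • x (τσ i) = ∑ j, w' j • x j := by
        simp only [w', Finset.sum_smul]
        rw [← Finset.sum_fiberwise Finset.univ τσ]
        refine Finset.sum_congr rfl fun j _ => Finset.sum_congr rfl fun i hi => ?_
        rw [(Finset.mem_filter.1 hi).2]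
      simp only [s, map_sum, map_rsmul', smul_sub, sub_smul, Finset.sum_sub_distrib, e2]
      abel
    rw [e1]
    refine (norm_add_le _ _).trans ?_
    have hA : ‖∑ i, P.w i • (α g (x i) - x (τσ i))‖ ≤ M * θ := by
      refine hs1 _ θ (fun i hi => ?_) hθ0.le
      have e3 : α g (x i) - x (τσ i) =
          α (P.r (τσ i)) (α ((P.r (τσ i))⁻¹ * (g * P.r i)) s₀ - s₀) := by
        rw [map_sub, ← hα (P.r (τσ i)), mul_inv_cancel_left, hα]
      rw [e3, StarAlgEquiv.norm_map]
      exact hfix g hg i hi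
    have hB : ‖∑ j, (w' j - P.w j) • x j‖ ≤ ε₁ / 2 := by
      refine (sq_le_sq₀ (norm_nonneg _) (by positivity)).1 ?_
      refine (norm_sum_orth_le Finset.univ _ x (fun i _ => hx i) hxor hθ0.le).trans ?_
      have h1 : ∑ j, |w' j - P.w j| ≤ 2 * M := by
        refine (Finset.sum_le_sum fun j _ => abs_sub (w' j) (P.w j)).trans ?_
        rw [Finset.sum_add_distrib]
        have h2 : ∑ j, |w' j| ≤ ∑ i, |P.w i| := by
          rw [← Finset.sum_fiberwise Finset.univ τσ fun i => |P.w i|]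
          exact Finset.sum_le_sum fun j _ => Finset.abs_sum_le_sum_abs _ _
        linarith
      have h3 := hσ2 g hg
      have h4 : (∑ j, |w' j - P.w j|) ^ 2 * θ ≤ (2 * M) ^ 2 * θ :=
        mul_le_mul_of_nonneg_right (pow_le_pow_left₀
          (Finset.sum_nonneg fun j _ => abs_nonneg _) h1 2) hθ0.le
      nlinarith [mul_le_mul_of_nonneg_right hM24 hθ0.le]
    linarith


/-- **Equivariant property (SI).** -/
theorem si_goal (hG : IsAmenableGroup G) (hα : ∀ g h a, α (g * h) a = α g (α h a)) (T : Tower A)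
    (hcomp : T.CompareGoal) (hpos : T.PosGoal) (hmove : T.MoveGoal) : SIGoal α := by
  classical
  intro l e f ρ hρ hb hec hfc hei hfi hen hfn hfw C K ε hε
  -- accuracy
  set ε₁ : ℝ := min ε 1 with hε₁
  have hε₁0 : 0 < ε₁ := lt_min hε one_pos
  have hε₁1 : ε₁ ≤ 1 := min_le_right _ _
  have hε₁ε : ε₁ ≤ ε := min_le_left _ _
  obtain ⟨P⟩ := exists_spread hG hα T K (show (0 : ℝ) < ε₁ ^ 2 / 16 by positivity)
  choose σ hσN hσ2 using P.shift
  set M : ℝ := (P.n : ℝ) + 1 with hM
  have hn0 : (0 : ℝ) ≤ P.n := Nat.cast_nonneg _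
  have hM1 : 1 ≤ M := by linarith
  set θ : ℝ := ε₁ ^ 2 / (64 * M ^ 4) with hθdef
  have hθ0 : 0 < θ := by positivity
  have hθe : θ * (64 * M ^ 4) = ε₁ ^ 2 := div_mul_cancel₀ _ (by positivity)
  -- the stage `k`
  choose K₁ hK₁ using fun x : C × Fin P.n => T.exists_near (α (P.r x.2)⁻¹ x.1) hθ0
  have hK₂ : ∀ x : K × Fin P.n, ∃ k₀, P.w x.2 ≠ 0 → ∀ y, ‖y‖ ≤ 1 → T.InComm k₀ y →
      ‖α ((P.r (σ x.1 x.1.2 x.2))⁻¹ * (x.1 * P.r x.2)) y - y‖ ≤ θ := by
    intro x
    by_cases hx : P.w x.2 = 0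
    · exact ⟨0, fun h => absurd hx h⟩
    · obtain ⟨k₀, hk₀⟩ := hσN x.1 x.1.2 x.2 hx θ hθ0
      exact ⟨k₀, fun _ => hk₀⟩
  choose K₂ hK₂ using hK₂
  set k := max (Finset.univ.sup K₁) (Finset.univ.sup K₂)
  -- the moved projection
  set pairs := {x : Fin P.n × Fin P.n // x.1 ≠ x.2}
  obtain ⟨k₂, q, hk, hqm, hqc, hqp, hqb, hqmove⟩ := hmove (Fintype.card pairs)
    (fun t => α ((P.r ((Fintype.equivFin pairs).symm t).1.1)⁻¹ *
      P.r ((Fintype.equivFin pairs).symm t).1.2))
    (fun t => P.moved _ _ ((Fintype.equivFin pairs).symm t).2) k θ hθ0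
  have hqij : ∀ i j, i ≠ j → ‖q * α ((P.r i)⁻¹ * P.r j) q‖ ≤ θ := fun i j hij => by
    have := hqmove (Fintype.equivFin pairs ⟨(i, j), hij⟩)
    rwa [Equiv.symm_apply_apply] at this
  -- the traces of the corners
  choose c hc0 hc using fun b => hpos k₂ (T.pr k b * q)
    (T.mul_mem_stage (T.stage_mono hk (T.pr_mem_stage k b)) hqm)
    ((T.isStarProjection_pr k b).mul hqp (hqc b 0 0).symm) (hqb b)
  obtain ⟨c₀, hc₀, hc₀le⟩ : ∃ c₀ : ℝ, 0 < c₀ ∧ ∀ b, c₀ ≤ c b := by
    rcases isEmpty_or_nonempty (Fin (T.B k)) with hE | hE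
    · exact ⟨1, one_pos, fun b => isEmptyElim b⟩
    · obtain ⟨b, -, hb'⟩ := Finset.exists_min_image Finset.univ c Finset.univ_nonempty
      exact ⟨c b, hc0 b, fun b' => hb' b' (Finset.mem_univ _)⟩
  set η : ℝ := min θ (min (ρ * c₀ * θ / 100) (ρ * c₀ / 100)) with hη
  have hη0 : 0 < η := lt_min hθ0 (lt_min (by positivity) (by positivity))
  have hη1 : η ≤ θ := min_le_left _ _
  have hη2 : η ≤ ρ * c₀ * θ / 100 := (min_le_right _ _).trans (min_le_left _ _)
  have hη3 : η ≤ ρ * c₀ / 100 := (min_le_right _ _).trans (min_le_right _ _)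
  have E1 : ∀ᶠ n in l, ∀ b, ∀ τ : A →ₗ[ℂ] ℂ, IsTracial τ →
      ‖τ (T.pr k b * q * f n - (ρ : ℂ) • (T.pr k b * q))‖ ≤ η :=
    eventually_all.2 fun b => hfw (T.pr k b * q) η hη0
  have E2 : ∀ᶠ n in l, ∀ i, ‖α (P.r i) (e n) - e n‖ ≤ θ ∧ ‖α (P.r i) (f n) - f n‖ ≤ θ :=
    eventually_all.2 fun i => by
      have h1 := (hei (P.r i)).norm
      have h2 := (hfi (P.r i)).norm
      rw [norm_zero] at h1 h2
      exact (h1.eventually (eventually_le_nhds hθ0)).and (h2.eventually (eventually_le_nhds hθ0))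
  filter_upwards [eventually_exp_near T k hec hη0, eventually_exp_near T k₂ hfc hη0, hen η hη0,
    hfn η hη0, E1, E2] with n hne hnf hnte hntf hnw hninv
  obtain ⟨he0, he1, hf0, hf1⟩ := hb n
  obtain ⟨s₀, hs₀c, hs₀n, hqs₀, hs₀e, hs₀f⟩ := exists_s0 T hcomp hk hqm hqc hqp he0 he1 hf0 hf1
    hθ0 hη0 hne hnf fun b τ hτ => by
      have h1 := hnw b τ hτ
      rw [map_sub, map_smul] at h1
      have h2 := (Complex.abs_re_le_norm _).trans h1
      rw [Complex.sub_re, smul_eq_mul, Complex.re_ofReal_mul, abs_le] at h2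
      have h3 := (Complex.re_le_norm _).trans (hnte τ hτ)
      have h4 := (Complex.re_le_norm _).trans (hntf τ hτ)
      have h5 : ρ * c₀ ≤ ρ * (τ (T.pr k b * q)).re :=
        mul_le_mul_of_nonneg_left ((hc₀le b).trans (hc b τ hτ)) hρ.le
      have h6 : ((τ (e n)).re + 4 * η) / θ ≤ ρ * c₀ / 10 := by
        rw [div_le_iff₀ hθ0]; nlinarith
      have h7 : ((τ (f n - f n * f n)).re + 12 * η) / θ ≤ ρ * c₀ / 5 := by
        rw [div_le_iff₀ hθ0]; nlinarith
      have : 0 < ρ * c₀ := mul_pos hρ hc₀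
      linarith
  have hinv_e := fun i => (hninv i).1
  have hinv_f := fun i => (hninv i).2
  have hcomm : ∀ c ∈ C, ∀ i, ‖α (P.r i)⁻¹ c * s₀ - s₀ * α (P.r i)⁻¹ c‖ ≤ 2 * θ := by
    intro c hcC i
    obtain ⟨y, hy, hyc, -, -⟩ := hK₁ (⟨c, hcC⟩, i) k
      ((Finset.le_sup (Finset.mem_univ _)).trans (le_max_left _ _))
    have hy' := hs₀c.of_mem hy
    have e3 : α (P.r i)⁻¹ c * s₀ - s₀ * α (P.r i)⁻¹ c =
        (α (P.r i)⁻¹ c - y) * s₀ - s₀ * (α (P.r i)⁻¹ c - y) := by
      rw [sub_mul, mul_sub, hy'.eq]; abel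
    rw [e3]
    refine (norm_sub_le _ _).trans ?_
    rw [norm_sub_rev] at hyc
    linarith [(norm_mul_le (α (P.r i)⁻¹ c - y) s₀).trans (mul_le_of_le_one_right (norm_nonneg _) hs₀n),
      (norm_mul_le s₀ (α (P.r i)⁻¹ c - y)).trans (mul_le_of_le_one_left (norm_nonneg _) hs₀n)]
  have hfix : ∀ g hg i, P.w i ≠ 0 →
      ‖α ((P.r (σ g hg i))⁻¹ * (g * P.r i)) s₀ - s₀‖ ≤ θ := fun g hg i hi =>
    hK₂ (⟨g, hg⟩, i) hi s₀ hs₀n
      (hs₀c.mono ((Finset.le_sup (Finset.mem_univ _)).trans (le_max_right _ _)))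
  exact exists_spread_sum hα P hσN hσ2 hθ0 hε₁ε hε₁0.le hε₁1 hθe hM hs₀n hqp hqs₀ hqij hs₀e hs₀f
    hinv_e hinv_f hcomm hfix hη1

end Vale.Agent.P095.AF
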