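import Vale.Agent.P095.AF.DropHom
import Vale.Agent.P095.AF.Lift
import Vale.Agent.P095.AF.SI
import Vale.Agent.P095.AF.Absorb
import Vale.Agent.P095.AF.Build
import Vale.Agent.P095.AF.Trace
import Vale.Agent.P095.AF.McDuff
import Vale.Agent.P095.Upgrade.Transfer
import Vale.Agent.P095.Upgrade.Final

/-!
# P095: equivariant Z-stability of amenable actions on simple AF algebras
-/

open scoped ComplexOrder
open Filter

namespace Vale.Agent.P095.AF

/-- Every action of a countable amenable group on a simple unital infinite-dimensional AF algebra is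
equivariantly `Z`-stable. -/
theorem isEquivariantlyZStable_of_isAF {G A : Type*} [Group G] [Countable G] [CStarAlgebra A]
    [IsSimpleRing A] (hG : IsAmenableGroup G) (hAF : IsAF A) (hinf : ¬FiniteDimensional ℂ A)
    (α : G → A ≃⋆ₐ[ℂ] A) (hα : ∀ g h a, α (g * h) a = α g (α h a)) :
    IsEquivariantlyZStable α := by
  let _ := CStarAlgebra.spectralOrder A
  have _ := CStarAlgebra.spectralOrderedRing A
  obtain ⟨T⟩ := hAF.nonempty_tower
  have := T.separableSpace
  have hM := isUniformlyMcDuff_of_isAF hAF hinf
  have hE : HasEquivariantUniformMcDuff α :=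
    hasEquivariantUniformMcDuff_of_goal hM α hα (mcDuffGoal_of_foelner hG _)
  have hsi : SIGoal α :=
    si_goal hG hα T T.compare_goal T.pos_goal (T.move_goal T.full_goal)
  exact isEquivariantlyZStable_of_drop hα
    (dropGoal_of_si (ω := hyperfilter ℕ) α hyperfilter_le_cofinite (lift_goal α hE) hsi)

end Vale.Agent.P095.AF
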