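import Vale.Agent.P095.Defs
import Mathlib

/-!
# P095: quasicentral elements of small trace, explicitly

For finitely many automorphisms and a tracially small `y₀`, a weighted sum `Y` of the orbit of `y₀`
is moved at most by a fixed factor, so `log Y` is moved by a bounded amount and a slowly varying
function of it is almost invariant, has small trace and is almost `1` on `y₀`.
-/

open scoped ComplexOrder
open Filter Topology Polynomial

namespace Vale.Agent.P095.AF

variable {A : Type*} [CStarAlgebra A]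

theorem norm_pow_sub_pow_le {a b : A} (ha : ‖a‖ ≤ 1) (hb : ‖b‖ ≤ 1) (k : ℕ) :
    ‖a ^ k - b ^ k‖ ≤ k * ‖a - b‖ := by
  induction k with
  | zero => simp
  | succ k ih =>
    have e : a ^ (k + 1) - b ^ (k + 1) = a * (a ^ k - b ^ k) + (a - b) * b ^ k := by
      rw [pow_succ', pow_succ', mul_sub, sub_mul]; abel
    have hbk : ‖b ^ k‖ ≤ 1 := by
      rcases Nat.eq_zero_or_pos k with rfl | hk
      · rw [pow_zero]
        rcases subsingleton_or_nontrivial A with h | h
        · simp [Subsingleton.elim (1 : A) 0]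
        · exact CStarRing.norm_one.le
      · exact (norm_pow_le' b hk).trans (pow_le_one₀ (norm_nonneg _) hb)
    rw [e]
    refine (norm_add_le _ _).trans ?_
    have h1 : ‖a * (a ^ k - b ^ k)‖ ≤ k * ‖a - b‖ :=
      (norm_mul_le _ _).trans ((mul_le_of_le_one_left (norm_nonneg _) ha).trans ih)
    have h2 : ‖(a - b) * b ^ k‖ ≤ ‖a - b‖ :=
      (norm_mul_le _ _).trans (mul_le_of_le_one_right (norm_nonneg _) hbk)
    push_cast
    linarith

theorem exists_aeval_lipschitz (p : ℝ[X]) :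
    ∃ L : ℝ, 0 ≤ L ∧ ∀ a b : A, ‖a‖ ≤ 1 → ‖b‖ ≤ 1 → ‖aeval a p - aeval b p‖ ≤ L * ‖a - b‖ := by
  induction p using Polynomial.induction_on' with
  | add p q hp hq =>
    obtain ⟨L, hL, hp⟩ := hp
    obtain ⟨M, hM, hq⟩ := hq
    refine ⟨L + M, add_nonneg hL hM, fun a b ha hb => ?_⟩
    rw [map_add, map_add, add_sub_add_comm, add_mul]
    exact (norm_add_le _ _).trans (add_le_add (hp a b ha hb) (hq a b ha hb))
  | monomial k c =>
    refine ⟨|c| * k, by positivity, fun a b ha hb => ?_⟩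
    rw [aeval_monomial, aeval_monomial, ← Algebra.smul_def, ← Algebra.smul_def, ← smul_sub,
      norm_smul, Real.norm_eq_abs, mul_assoc]
    exact mul_le_mul_of_nonneg_left (norm_pow_sub_pow_le ha hb k) (abs_nonneg c)

/-- Functional calculus is uniformly continuous on selfadjoint contractions. -/
theorem exists_uniform_cfc (f : ℝ → ℝ) (hf : Continuous f) {ε : ℝ} (hε : 0 < ε) :
    ∃ δ : ℝ, 0 < δ ∧ ∀ a b : A, IsSelfAdjoint a → IsSelfAdjoint b → ‖a‖ ≤ 1 → ‖b‖ ≤ 1 →
      ‖a - b‖ ≤ δ → ‖cfc f a - cfc f b‖ ≤ ε := by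
  rcases subsingleton_or_nontrivial A with h | h
  · exact ⟨1, one_pos, fun a b _ _ _ _ _ => by
      simp [Subsingleton.elim (cfc f a) (cfc f b), hε.le]⟩
  obtain ⟨p, hp⟩ := exists_polynomial_near_of_continuousOn (-1) 1 f hf.continuousOn (ε / 3)
    (by positivity)
  obtain ⟨L, hL, hLip⟩ := exists_aeval_lipschitz (A := A) p
  have hnear : ∀ c : A, IsSelfAdjoint c → ‖c‖ ≤ 1 → ‖cfc f c - aeval c p‖ ≤ ε / 3 := by
    intro c hc hc1
    rw [← cfc_polynomial p c, ← cfc_sub f p.eval c hf.continuousOn p.continuous.continuousOn]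
    refine norm_cfc_le (by positivity) fun x hx => ?_
    rw [Real.norm_eq_abs, abs_sub_comm]
    exact (hp x (abs_le.1 ((spectrum.norm_le_norm_of_mem hx).trans hc1))).le
  refine ⟨ε / (3 * (L + 1)), by positivity, fun a b ha hb ha1 hb1 hab => ?_⟩
  have h1 : L * ‖a - b‖ ≤ ε / 3 := by
    refine (mul_le_mul_of_nonneg_left hab hL).trans ?_
    rw [mul_div_assoc', div_le_div_iff₀ (by positivity) (by norm_num)]
    nlinarith
  calc ‖cfc f a - cfc f b‖ =
        ‖(cfc f a - aeval a p) + (aeval a p - aeval b p) + (aeval b p - cfc f b)‖ := by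
        congr 1; abel
    _ ≤ _ := norm_add₃_le
    _ ≤ ε / 3 + ε / 3 + ε / 3 := by
        refine add_le_add (add_le_add (hnear a ha ha1) ((hLip a b ha1 hb1).trans h1)) ?_
        rw [norm_sub_rev]; exact hnear b hb hb1
    _ = ε := by ring

theorem isTracial_re_mono [PartialOrder A] [StarOrderedRing A] {τ : A →ₗ[ℂ] ℂ} (h : IsTracial τ)
    {x y : A} (hxy : x ≤ y) : (τ x).re ≤ (τ y).re := by
  obtain ⟨s, hs⟩ := CStarAlgebra.nonneg_iff_eq_star_mul_self.1 (sub_nonneg.2 hxy)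
  have h0 : 0 ≤ τ (y - x) := by rw [hs]; exact h.2.1 s
  rw [map_sub] at h0
  simpa using (Complex.le_def.1 h0).1

theorem isTracial_comp {τ : A →ₗ[ℂ] ℂ} (h : IsTracial τ) (σ : A ≃⋆ₐ[ℂ] A) :
    ∃ τ' : A →ₗ[ℂ] ℂ, IsTracial τ' ∧ ∀ a, τ' a = τ (σ a) :=
  ⟨{ toFun := fun a => τ (σ a)
     map_add' := fun a b => by simp
     map_smul' := fun c a => by simp },
   ⟨by show τ (σ 1) = 1; rw [map_one]; exact h.1,
    fun a => by
      show 0 ≤ τ (σ (star a * a))
      rw [map_mul, map_star]; exact h.2.1 _,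
    fun a b => by
      show τ (σ (a * b)) = τ (σ (b * a))
      rw [map_mul σ, map_mul σ]; exact h.2.2 _ _⟩, fun _ => rfl⟩

theorem isTracial_rsmul (τ : A →ₗ[ℂ] ℂ) (r : ℝ) (x : A) : (τ (r • x)).re = r * (τ x).re := by
  rw [← Complex.coe_smul, map_smul]; simp

/-- The cut: `0` below `-2/3` and `1` above `-1/3`. -/
noncomputable def cut (t : ℝ) : ℝ := min 1 (max 0 (3 * t + 2))

theorem continuous_cut : Continuous cut := by unfold cut; fun_prop

theorem cut_mem (t : ℝ) : 0 ≤ cut t ∧ cut t ≤ 1 :=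
  ⟨le_min zero_le_one (le_max_left _ _), min_le_left _ _⟩

variable [PartialOrder A] [StarOrderedRing A]

theorem map_nonneg' (σ : A ≃⋆ₐ[ℂ] A) {x : A} (hx : 0 ≤ x) : 0 ≤ σ x := by
  obtain ⟨s, rfl⟩ := CStarAlgebra.nonneg_iff_eq_star_mul_self.1 hx
  rw [map_mul, map_star]; exact star_mul_self_nonneg _

theorem map_mono' (σ : A ≃⋆ₐ[ℂ] A) {x y : A} (h : x ≤ y) : σ x ≤ σ y := by
  rw [← sub_nonneg, ← map_sub]; exact map_nonneg' σ (sub_nonneg.2 h)

theorem map_rsmul' (σ : A ≃⋆ₐ[ℂ] A) (r : ℝ) (x : A) : σ (r • x) = r • σ x := by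
  rw [← Complex.coe_smul, map_smul, Complex.coe_smul]

theorem map_cfc' (σ : A ≃⋆ₐ[ℂ] A) (f : ℝ → ℝ) {a : A} (ha : IsSelfAdjoint a)
    (hf : ContinuousOn f (spectrum ℝ a)) : σ (cfc f a) = cfc f (σ a) := by
  have hc : Continuous σ := (AddMonoidHomClass.isometry_of_norm σ (StarAlgEquiv.norm_map σ)).continuous
  exact StarAlgHomClass.map_cfc ((σ : A →⋆ₐ[ℂ] A).restrictScalars ℝ) f a hf hc ha (ha.map σ)

theorem isStrictlyPositive_smul_one {r : ℝ} (hr : 0 < r) : IsStrictlyPositive (r • (1 : A)) := by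
  rw [← Algebra.algebraMap_eq_smul_one]
  refine ((IsUnit.mk0 r hr.ne').map (algebraMap ℝ A)).isStrictlyPositive ?_
  rw [Algebra.algebraMap_eq_smul_one]
  exact smul_nonneg hr.le zero_le_one

theorem norm_le_of_bounds {x : A} (hx : IsSelfAdjoint x) {r : ℝ} (hr : 0 ≤ r)
    (h1 : algebraMap ℝ A (-r) ≤ x) (h2 : x ≤ algebraMap ℝ A r) : ‖x‖ ≤ r := by
  rw [← cfc_id' ℝ x]
  exact norm_cfc_le hr fun t ht => abs_le.2
    ⟨(algebraMap_le_iff_le_spectrum (R := ℝ) hx).1 h1 t ht,
      (le_algebraMap_iff_spectrum_le (R := ℝ) hx).1 h2 t ht⟩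

/-- The orbit sums of `y`. -/
noncomputable def orbitSum {ι : Type*} [Fintype ι] (S : ι → A ≃⋆ₐ[ℂ] A) (y : A) : ℕ → A
  | 0 => y
  | r + 1 => ∑ s, S s (orbitSum S y r)

theorem orbitSum_spec {ι : Type*} [Fintype ι] (S : ι → A ≃⋆ₐ[ℂ] A) {y : A} (hy : 0 ≤ y) (r : ℕ) :
    0 ≤ orbitSum S y r ∧ ‖orbitSum S y r‖ ≤ (Fintype.card ι : ℝ) ^ r * ‖y‖ ∧
      (∀ s, S s (orbitSum S y r) ≤ orbitSum S y (r + 1)) ∧
      ∀ δ : ℝ, (∀ τ : A →ₗ[ℂ] ℂ, IsTracial τ → (τ y).re ≤ δ) →
        ∀ τ : A →ₗ[ℂ] ℂ, IsTracial τ → (τ (orbitSum S y r)).re ≤ (Fintype.card ι : ℝ) ^ r * δ := by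
  have hle : ∀ r, 0 ≤ orbitSum S y r → ∀ s, S s (orbitSum S y r) ≤ orbitSum S y (r + 1) :=
    fun r h s => Finset.single_le_sum (f := fun s => S s (orbitSum S y r))
      (fun i _ => map_nonneg' (S i) h) (Finset.mem_univ s)
  induction r with
  | zero => exact ⟨hy, by simp [orbitSum], hle 0 hy, fun δ h τ hτ => by simpa [orbitSum] using h τ hτ⟩
  | succ r ih =>
    obtain ⟨h0, hn, -, ht⟩ := ih
    have h0' : 0 ≤ orbitSum S y (r + 1) := Finset.sum_nonneg fun s _ => map_nonneg' (S s) h0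
    refine ⟨h0', ?_, hle _ h0', fun δ h τ hτ => ?_⟩
    · refine (norm_sum_le_of_le _ (fun s _ => (StarAlgEquiv.norm_map (S s) _).trans_le hn)).trans ?_
      rw [Finset.sum_const, Finset.card_univ, nsmul_eq_mul, pow_succ']
      exact le_of_eq (mul_assoc _ _ _).symm
    · rw [orbitSum, map_sum, Complex.re_sum]
      refine (Finset.sum_le_sum fun s _ => ?_).trans (le_of_eq (b := (Fintype.card ι : ℝ) ^ (r + 1) * δ)
        (a := ∑ _s : ι, (Fintype.card ι : ℝ) ^ r * δ) ?_)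
      · obtain ⟨τ', hτ', he⟩ := isTracial_comp hτ (S s)
        rw [← he]; exact ht δ h τ' hτ'
      · rw [Finset.sum_const, Finset.card_univ, nsmul_eq_mul, pow_succ']
        ring

/-- A symmetric family moves a truncated weighted orbit sum by at most a constant factor. -/
theorem exists_orbit {ι : Type*} [Fintype ι] (R : ℝ) (hR : 2 * (Fintype.card ι : ℝ) + 2 ≤ R)
    {η : ℝ} (hη : 0 < η) :
    ∃ M : ℕ, ∀ (S : ι → A ≃⋆ₐ[ℂ] A) (y : A), 0 ≤ y → ‖y‖ ≤ 1 → ∃ Y : A,
      η • (1 : A) ≤ Y ∧ y ≤ Y ∧ Y ≤ (2 + η) • (1 : A) ∧ (∀ s, S s Y ≤ R • Y) ∧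
      ∀ δ : ℝ, 0 ≤ δ → (∀ τ : A →ₗ[ℂ] ℂ, IsTracial τ → (τ y).re ≤ δ) →
        ∀ τ : A →ₗ[ℂ] ℂ, IsTracial τ → (τ Y).re ≤ 2 * δ + η := by
  set c : ℝ := (Fintype.card ι : ℝ) with hcdef
  have hc : 0 ≤ c := Nat.cast_nonneg _
  have hR1 : 2 ≤ R := by linarith
  have hR0 : 0 < R := by linarith
  have hq : c / R ≤ 1 / 2 := by rw [div_le_iff₀ hR0]; linarith
  have hq0 : 0 ≤ c / R := div_nonneg hc hR0.le
  obtain ⟨M, hM⟩ := exists_pow_lt_of_lt_one (show (0 : ℝ) < η / R by positivity)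
    (show (1 / 2 : ℝ) < 1 by norm_num)
  refine ⟨M + 1, fun S y hy hy1 => ?_⟩
  have hb := orbitSum_spec S hy
  set w : ℕ → A := fun r => (R⁻¹ ^ r) • orbitSum S y r with hw
  have hw0 : ∀ r, 0 ≤ w r := fun r => smul_nonneg (by positivity) (hb r).1
  have hwn : ∀ r, ‖w r‖ ≤ (c / R) ^ r := fun r => by
    rw [hw, norm_smul, Real.norm_of_nonneg (by positivity), div_eq_inv_mul, mul_pow]
    exact mul_le_mul_of_nonneg_left ((hb r).2.1.trans (mul_le_of_le_one_right (by positivity) hy1))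
      (by positivity)
  have hws : ∀ r s, S s (w r) ≤ R • w (r + 1) := fun r s => by
    rw [hw, map_rsmul', smul_smul, pow_succ', ← mul_assoc, mul_inv_cancel₀ hR0.ne', one_mul]
    exact smul_le_smul_of_nonneg_left ((hb r).2.2.1 s) (by positivity)
  have hsum : ∀ N, ∑ r ∈ Finset.range N, (c / R) ^ r ≤ 2 := by
    intro N
    induction N with
    | zero => simp
    | succ N ih =>
      rw [Finset.sum_range_succ', pow_zero]
      simp only [pow_succ', ← Finset.mul_sum]
      nlinarith [Finset.sum_nonneg (s := Finset.range N) (f := fun i => (c / R) ^ i)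
        fun i _ => pow_nonneg hq0 i]
  set P := ∑ r ∈ Finset.range (M + 1), w r with hP
  have hP0 : 0 ≤ P := Finset.sum_nonneg fun r _ => hw0 r
  have hη1 : (0 : A) ≤ η • (1 : A) := smul_nonneg hη.le zero_le_one
  refine ⟨P + η • 1, le_add_of_nonneg_left hP0, ?_, ?_, fun s => ?_, fun δ hδ h τ hτ => ?_⟩
  · refine le_trans ?_ (le_add_of_nonneg_right hη1)
    refine le_trans (le_of_eq ?_) (Finset.single_le_sum (fun r _ => hw0 r)
      (Finset.mem_range.2 (Nat.succ_pos M)))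
    simp [hw, orbitSum]
  · rw [add_smul]
    refine add_le_add ?_ le_rfl
    rw [← Algebra.algebraMap_eq_smul_one]
    exact (CStarAlgebra.norm_le_iff_le_algebraMap P (by norm_num) hP0).1
      ((norm_sum_le_of_le _ fun r _ => hwn r).trans (hsum _))
  · rw [map_add, hP, map_sum, map_rsmul', map_one]
    have h1 : ∑ r ∈ Finset.range (M + 1), S s (w r) ≤ R • ∑ r ∈ Finset.range (M + 1), w (r + 1) := by
      rw [Finset.smul_sum]; exact Finset.sum_le_sum fun r _ => hws r s
    have h2 : ∑ r ∈ Finset.range (M + 1), w (r + 1) ≤ P + w (M + 1) := by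
      rw [hP, ← Finset.sum_range_succ, Finset.sum_range_succ' (fun r => w r) (M + 1)]
      exact le_add_of_nonneg_right (hw0 0)
    have h3 : R • w (M + 1) + η • (1 : A) ≤ R • (η • (1 : A)) := by
      have hsmall : (c / R) ^ (M + 1) ≤ η / R / 2 := by
        calc (c / R) ^ (M + 1) ≤ (1 / 2 : ℝ) ^ (M + 1) := pow_le_pow_left₀ hq0 hq _
          _ = (1 / 2) ^ M / 2 := by rw [pow_succ]; ring
          _ ≤ η / R / 2 := by linarith
      have h4 : w (M + 1) ≤ (η / R / 2) • (1 : A) := by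
        rw [← Algebra.algebraMap_eq_smul_one]
        exact (CStarAlgebra.norm_le_iff_le_algebraMap _ (by positivity) (hw0 _)).1
          ((hwn _).trans hsmall)
      refine (add_le_add (smul_le_smul_of_nonneg_left h4 hR0.le) le_rfl).trans ?_
      rw [smul_smul, ← add_smul, smul_smul]
      refine smul_le_smul_of_nonneg_right ?_ zero_le_one
      field_simp
      nlinarith
    calc ∑ r ∈ Finset.range (M + 1), S s (w r) + η • 1 ≤ R • (P + w (M + 1)) + η • 1 :=
          add_le_add (h1.trans (smul_le_smul_of_nonneg_left h2 hR0.le)) le_rfl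
      _ ≤ R • P + R • (η • (1 : A)) := by rw [smul_add, add_assoc]; exact add_le_add le_rfl h3
      _ = R • (P + η • 1) := (smul_add _ _ _).symm
  · rw [map_add, Complex.add_re, hP, map_sum, Complex.re_sum, isTracial_rsmul, hτ.1]
    simp only [Complex.one_re, mul_one]
    refine add_le_add ?_ le_rfl
    refine (Finset.sum_le_sum fun r _ => ?_).trans ((Finset.sum_mul _ _ δ).symm.le.trans
      (mul_le_mul_of_nonneg_right (hsum (M + 1)) hδ))
    rw [hw, isTracial_rsmul, div_eq_inv_mul, mul_pow, mul_assoc]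
    exact mul_le_mul_of_nonneg_left ((hb r).2.2.2 δ h τ hτ) (by positivity)

/-- **Quasicentral elements.** A tracially small positive contraction lies almost under an almost
invariant positive contraction of small trace. -/
theorem exists_quasicentral (n : ℕ) {ε : ℝ} (hε : 0 < ε) :
    ∃ δ : ℝ, 0 < δ ∧ ∀ (γ : Fin n → A ≃⋆ₐ[ℂ] A) (y₀ : A), 0 ≤ y₀ → ‖y₀‖ ≤ 1 →
      (∀ τ : A →ₗ[ℂ] ℂ, IsTracial τ → (τ y₀).re ≤ δ) →
      ∃ h : A, 0 ≤ h ∧ h ≤ 1 ∧ (∀ i, ‖γ i h - h‖ ≤ ε) ∧ ‖(1 - h) * y₀ * (1 - h)‖ ≤ ε ∧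
        ∀ τ : A →ₗ[ℂ] ℂ, IsTracial τ → (τ h).re ≤ ε := by
  rcases subsingleton_or_nontrivial A with hs | hs
  · exact ⟨1, one_pos, fun γ y₀ _ _ _ => ⟨0, le_rfl, (Subsingleton.elim _ _).le, fun i => by
      simp [Subsingleton.elim (γ i 0 - 0) 0, hε.le], by
      simp [Subsingleton.elim y₀ 0, hε.le],
      fun τ _ => by simpa using hε.le⟩⟩
  set R : ℝ := 2 * (Fintype.card (Fin n ⊕ Fin n) : ℝ) + 2 with hR
  have hR1 : 1 < R := by
    have : (0 : ℝ) ≤ Fintype.card (Fin n ⊕ Fin n) := Nat.cast_nonneg _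
    linarith
  obtain ⟨d, hd, hdcfc⟩ := exists_uniform_cfc (A := A) cut continuous_cut hε
  -- the scale
  set T : ℝ := max (max (Real.log R / d) 2) (12 / ε) with hT
  have hT1 : Real.log R / d ≤ T := (le_max_left _ _).trans (le_max_left _ _)
  have hT2 : 2 ≤ T := (le_max_right _ _).trans (le_max_left _ _)
  have hT3 : 12 / ε ≤ T := le_max_right _ _
  have hT0 : 0 < T := by linarith
  have hexp : Real.exp (-(T / 3)) ≤ ε / 4 := by
    have h1 : T / 3 + 1 ≤ Real.exp (T / 3) := Real.add_one_le_exp _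
    rw [Real.exp_neg, inv_le_comm₀ (Real.exp_pos _) (by positivity), inv_div]
    have : 4 / ε = (12 / ε) / 3 := by ring
    linarith
  set η := Real.exp (-T) with hη
  have hη0 : 0 < η := Real.exp_pos _
  have hη1 : η ≤ 1 := Real.exp_le_one_iff.2 (by linarith)
  obtain ⟨M, hM⟩ := exists_orbit (A := A) (ι := Fin n ⊕ Fin n) R le_rfl hη0
  refine ⟨ε / (4 * Real.exp (2 * T / 3)), by positivity, fun γ y₀ h0 h1 htr => ?_⟩
  obtain ⟨Y, hYη, hYy, hY3, hYS, hYtr⟩ := hM (Sum.elim γ fun i => (γ i).symm) y₀ h0 h1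
  have hYsp : ∀ t ∈ spectrum ℝ Y, η ≤ t ∧ t ≤ 2 + η := by
    have hsa : IsSelfAdjoint Y :=
      .of_nonneg ((smul_nonneg hη0.le zero_le_one).trans hYη)
    intro t ht
    refine ⟨(algebraMap_le_iff_le_spectrum (R := ℝ) hsa).1 ?_ t ht,
      (le_algebraMap_iff_spectrum_le (R := ℝ) hsa).1 ?_ t ht⟩
    · rwa [Algebra.algebraMap_eq_smul_one]
    · rwa [Algebra.algebraMap_eq_smul_one]
  have hY0 : 0 ≤ Y := (smul_nonneg hη0.le zero_le_one).trans hYη
  have hYsa : IsSelfAdjoint Y := .of_nonneg hY0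
  have hYpos : IsStrictlyPositive Y :=
    (isStrictlyPositive_smul_one hη0).of_le hYη
  set F : ℝ → ℝ := fun t => T⁻¹ * Real.log t with hF
  have hne : ∀ t ∈ spectrum ℝ Y, t ≠ 0 := fun t ht => (hη0.trans_le (hYsp t ht).1).ne'
  have hFc : ContinuousOn F (spectrum ℝ Y) :=
    (Real.continuousOn_log.mono fun t ht => hne t ht).const_smul T⁻¹
  set L : A := cfc F Y with hL
  have hLlog : L = T⁻¹ • CFC.log Y := by
    rw [hL, CFC.log, ← cfc_smul (T⁻¹ : ℝ) Real.log Y (Real.continuousOn_log.mono fun t ht => hne t ht)]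
    rfl
  have hLsa : IsSelfAdjoint L := cfc_predicate _ _
  have hlogsp : ∀ t ∈ spectrum ℝ Y, |Real.log t| ≤ T := fun t ht => by
    obtain ⟨h1, h2⟩ := hYsp t ht
    have ht0 := hη0.trans_le h1
    rw [abs_le]
    constructor
    · have := Real.log_le_log hη0 h1
      rwa [hη, Real.log_exp] at this
    · have := Real.log_le_sub_one_of_pos ht0
      linarith
  have hLn : ‖L‖ ≤ 1 := norm_cfc_le zero_le_one fun t ht => by
    rw [hF, Real.norm_eq_abs, abs_mul, abs_inv, abs_of_pos hT0, inv_mul_le_iff₀ hT0, mul_one]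
    exact hlogsp t ht
  set h := cfc cut L with hh
  have hh0 : 0 ≤ h := cfc_nonneg fun t _ => (cut_mem t).1
  have hh1 : h ≤ 1 := cfc_le_one _ _ fun t _ => (cut_mem t).2
  have hcomp : h = cfc (fun t => cut (F t)) Y :=
    (cfc_comp' cut F Y continuous_cut.continuousOn hFc).symm
  refine ⟨h, hh0, hh1, fun i => ?_, ?_, fun τ hτ => ?_⟩
  · have hlogmap : ∀ σ : A ≃⋆ₐ[ℂ] A, σ Y ≤ R • Y → σ (CFC.log Y) ≤
        algebraMap ℝ A (Real.log R) + CFC.log Y := by
      intro σ hσ
      rw [show σ (CFC.log Y) = CFC.log (σ Y) from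
        map_cfc' σ Real.log hYsa (Real.continuousOn_log.mono fun t ht => hne t ht)]
      rw [← CFC.log_smul' Y (by linarith) hYpos]
      refine CFC.log_le_log hσ ?_
      refine (isStrictlyPositive_smul_one hη0).of_le ?_
      have := map_mono' σ hYη
      rwa [map_rsmul', map_one] at this
    have u1 := hlogmap (γ i) (hYS (Sum.inl i))
    have u2 := map_mono' (γ i) (hlogmap (γ i).symm (hYS (Sum.inr i)))
    rw [StarAlgEquiv.apply_symm_apply, map_add,
      show γ i (algebraMap ℝ A (Real.log R)) = algebraMap ℝ A (Real.log R) by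
        rw [Algebra.algebraMap_eq_smul_one, map_rsmul', map_one]] at u2
    have hlogsa : IsSelfAdjoint (CFC.log Y) := IsSelfAdjoint.log
    have hDn : ‖γ i (CFC.log Y) - CFC.log Y‖ ≤ Real.log R := by
      refine norm_le_of_bounds ((hlogsa.map (γ i)).sub hlogsa) (Real.log_nonneg hR1.le) ?_
        (sub_le_iff_le_add.2 u1)
      rw [map_neg, neg_le_sub_iff_le_add, add_comm]; exact u2
    have hd' : ‖γ i L - L‖ ≤ d := by
      rw [hLlog, map_rsmul', ← smul_sub, norm_smul, Real.norm_of_nonneg (by positivity)]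
      refine (mul_le_mul_of_nonneg_left hDn (by positivity)).trans ?_
      rw [inv_mul_le_iff₀ hT0]
      rw [div_le_iff₀ hd] at hT1
      linarith
    rw [hh, map_cfc' (γ i) cut hLsa continuous_cut.continuousOn]
    exact hdcfc _ _ (hLsa.map (γ i)) hLsa ((StarAlgEquiv.norm_map _ _).trans_le hLn) hLn hd'
  · have hs : IsSelfAdjoint (1 - h) := (IsSelfAdjoint.one A).sub (.of_nonneg hh0)
    have e1 : ‖(1 - h) * y₀ * (1 - h)‖ ≤ ‖(1 - h) * Y * (1 - h)‖ := by
      refine CStarAlgebra.norm_le_norm_of_nonneg_of_le ?_ ?_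
      · have := star_left_conjugate_nonneg h0 (1 - h); rwa [hs.star_eq] at this
      · have := star_left_conjugate_le_conjugate hYy (1 - h); rwa [hs.star_eq] at this
    refine e1.trans ?_
    have hg : ContinuousOn (fun t => cut (F t)) (spectrum ℝ Y) :=
      continuous_cut.comp_continuousOn hFc
    have e2 : (1 - h) * Y * (1 - h) = cfc (fun t => (1 - cut (F t)) * t * (1 - cut (F t))) Y := by
      rw [cfc_mul (fun t => (1 - cut (F t)) * t) (fun t => 1 - cut (F t)) Y (by fun_prop) (by fun_prop),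
        cfc_mul (fun t => 1 - cut (F t)) (fun t => t) Y (by fun_prop) (by fun_prop),
        cfc_sub (fun _ => (1 : ℝ)) (fun t => cut (F t)) Y (by fun_prop) hg,
        cfc_const_one ℝ Y, cfc_id' ℝ Y, ← hcomp]
    rw [e2]
    refine (norm_cfc_le (by positivity : (0 : ℝ) ≤ ε / 4) fun t ht => ?_).trans (by linarith)
    have ht0 := hη0.trans_le (hYsp t ht).1
    obtain ⟨c0, c1⟩ := cut_mem (F t)
    have hnn := mul_nonneg (mul_nonneg (sub_nonneg.2 c1) ht0.le) (sub_nonneg.2 c1)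
    rw [Real.norm_of_nonneg hnn]
    rcases le_or_gt (-(1 / 3)) (F t) with hF1 | hF1
    · have : cut (F t) = 1 := by
        rw [cut, min_eq_left]
        exact le_max_of_le_right (by linarith)
      simp [this]; positivity
    · have h4 : Real.log t ≤ -(T / 3) := by
        rw [hF, inv_mul_lt_iff₀ hT0] at hF1; linarith
      have h5 : t ≤ ε / 4 := by
        calc t = Real.exp (Real.log t) := (Real.exp_log ht0).symm
          _ ≤ Real.exp (-(T / 3)) := Real.exp_le_exp.2 h4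
          _ ≤ ε / 4 := hexp
      calc (1 - cut (F t)) * t * (1 - cut (F t)) ≤ 1 * t * 1 := by gcongr <;> linarith
        _ ≤ ε / 4 := by linarith
  · have e3 : h ≤ Real.exp (2 * T / 3) • Y := by
      rw [hcomp]
      conv_rhs => rw [← cfc_id' ℝ Y, ← cfc_smul (Real.exp (2 * T / 3)) (fun t : ℝ => t) Y]
      refine cfc_mono (fun t ht => ?_) (continuous_cut.comp_continuousOn hFc) (by fun_prop)
      have ht0 := hη0.trans_le (hYsp t ht).1
      rcases le_or_gt (F t) (-(2 / 3)) with hF1 | hF1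
      · have : cut (F t) = 0 := by
          rw [cut, max_eq_left (by linarith), min_eq_right zero_le_one]
        rw [this]; positivity
      · have h4 : -(2 * T / 3) ≤ Real.log t := by
          rw [hF, lt_inv_mul_iff₀ hT0] at hF1; linarith
        calc cut (F t) ≤ 1 := (cut_mem _).2
          _ = Real.exp (2 * T / 3) * Real.exp (-(2 * T / 3)) := by rw [← Real.exp_add]; simp
          _ ≤ Real.exp (2 * T / 3) * t := by
              gcongr
              calc Real.exp (-(2 * T / 3)) ≤ Real.exp (Real.log t) := Real.exp_le_exp.2 h4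
                _ = t := Real.exp_log ht0
    refine (isTracial_re_mono hτ e3).trans ?_
    rw [isTracial_rsmul]
    refine (mul_le_mul_of_nonneg_left (hYtr _ (by positivity) htr τ hτ) (Real.exp_pos _).le).trans ?_
    rw [mul_add, hη, ← Real.exp_add, show 2 * T / 3 + -T = -(T / 3) by ring]
    have : Real.exp (2 * T / 3) * (2 * (ε / (4 * Real.exp (2 * T / 3)))) = ε / 2 := by
      field_simp; ring
    linarith

end Vale.Agent.P095.AF
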