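import Vale.Agent.P095.AF.Stages
import Vale.Agent.P095.AF.Quasi

/-!
# P095: projections moved away by automorphisms which are not centrally trivial
-/

open scoped ComplexOrder

noncomputable section

namespace Vale.Agent.P095.AF.Tower

variable {A : Type*} [CStarAlgebra A] [PartialOrder A] [StarOrderedRing A] (T : Tower A)

/-- The indicator of `[a, ∞)`. -/
def ind (a t : ℝ) : ℝ := if a ≤ t then 1 else 0

theorem ind_mul_ind (a t : ℝ) : ind a t * ind a t = ind a t := by unfold ind; split_ifs <;> simp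

theorem isStarProjection_cfc_ind {k : ℕ} {x : A} (hx : x ∈ T.stage k) (a : ℝ) :
    IsStarProjection (cfc (ind a) x) := by
  refine ⟨?_, cfc_predicate _ x⟩
  show cfc (ind a) x * cfc (ind a) x = cfc (ind a) x
  rw [← cfc_mul _ _ x (T.continuousOn_spectrum hx _) (T.continuousOn_spectrum hx _)]
  exact cfc_congr fun t _ => ind_mul_ind a t

/-- The staircase approximating `min t (N h)`. -/
def stair (h : ℝ) (N : ℕ) (s : ℝ) : ℝ := ∑ l ∈ Finset.range N, h * ind ((l + 1 : ℕ) * h) s

theorem stair_spec {h : ℝ} (hh : 0 ≤ h) {s : ℝ} (hs : 0 ≤ s) (N : ℕ) :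
    stair h N s ≤ s ∧ stair h N s ≤ N * h ∧ (s < (N + 1 : ℕ) * h → s < stair h N s + h) ∧
      ((N : ℝ) * h ≤ s → stair h N s = N * h) := by
  induction N with
  | zero => simp [stair, hs]
  | succ N ih =>
    obtain ⟨h1, h2, h3, h4⟩ := ih
    have e : stair h (N + 1) s = stair h N s + h * ind ((N + 1 : ℕ) * h) s :=
      Finset.sum_range_succ _ _
    rw [e]
    push_cast at *
    rcases le_or_gt (((N : ℝ) + 1) * h) s with hc | hc
    · rw [ind, if_pos hc, mul_one, h4 (le_trans (by nlinarith) hc)]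
      exact ⟨by linarith, by linarith, fun hlt => by linarith, fun _ => by ring⟩
    · rw [ind, if_neg (not_le.2 hc), mul_zero, add_zero]
      exact ⟨h1, by nlinarith, fun _ => h3 hc, fun hle => absurd hle (not_le.2 hc)⟩

variable (σ : A ≃⋆ₐ[ℂ] A)

theorem isStarProjection_map {p : A} (hp : IsStarProjection p) : IsStarProjection (σ p) :=
  ⟨by show σ p * σ p = σ p; rw [← map_mul, hp.isIdempotentElem.eq],
    by show star (σ p) = σ p; rw [← map_star, hp.isSelfAdjoint.star_eq]⟩

/-- A projection in a commutant with `x (1 - σ x)` uniformly large. -/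
theorem exists_moved (hσ : ¬T.CentrallyTrivial σ) :
    ∃ c : ℝ, 0 < c ∧ ∀ k, ∃ m x, k ≤ m ∧ x ∈ T.stage m ∧ T.InComm k x ∧ IsStarProjection x ∧
      c ≤ ‖x * (1 - σ x)‖ := by
  simp only [CentrallyTrivial, not_forall, not_exists, not_le] at hσ
  obtain ⟨ε₀, hε₀, hσ⟩ := hσ
  refine ⟨ε₀ / 16, by positivity, fun k => ?_⟩
  obtain ⟨x, hx1, hxc, hxm⟩ := hσ k
  obtain ⟨a, ha, ha1, hac, ham⟩ : ∃ a : A, IsSelfAdjoint a ∧ ‖a‖ ≤ 1 ∧ T.InComm k a ∧
      ε₀ / 2 < ‖σ a - a‖ := by
    set r : A := (realPart x : A) with hrdef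
    set i : A := (imaginaryPart x : A) with hidef
    have hr : T.InComm k r := by
      rw [hrdef, realPart_apply_coe, ← Complex.coe_smul]
      exact (hxc.add hxc.star).smul _
    have hi : T.InComm k i := by
      rw [hidef, imaginaryPart_apply_coe, ← Complex.coe_smul]
      exact ((hxc.sub hxc.star).smul _).smul _
    by_contra hcon
    push_neg at hcon
    have h1 := hcon r (realPart x).2 ((realPart.norm_le x).trans hx1) hr
    have h2 := hcon i (imaginaryPart x).2 ((imaginaryPart.norm_le x).trans hx1) hi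
    have e : σ x - x = (σ r - r) + Complex.I • (σ i - i) := by
      conv_lhs => rw [← realPart_add_I_smul_imaginaryPart x]
      rw [map_add, map_smul, smul_sub, ← hrdef, ← hidef]
      abel
    rw [e] at hxm
    have h3 := norm_add_le (σ r - r) (Complex.I • (σ i - i))
    rw [norm_smul, Complex.norm_I, one_mul] at h3
    linarith
  obtain ⟨m₀, hm₀⟩ := T.exists_near a (show 0 < ε₀ / 16 by positivity)
  set m := max k m₀
  obtain ⟨y₀, hy₀, hy₀a, hy₀n, hy₀s⟩ := hm₀ m (le_max_right _ _)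
  set y := T.exp k y₀
  have hym : y ∈ T.stage m := T.exp_mem_stage (le_max_left _ _) hy₀
  have hyc : T.InComm k y := T.inComm_exp k _
  have hys : IsSelfAdjoint y := T.isSelfAdjoint_exp k (hy₀s ha)
  have hyn : ‖y‖ ≤ 1 := (T.norm_exp_le k _).trans (hy₀n.trans ha1)
  have hya : ‖y - a‖ ≤ ε₀ / 16 := by
    rw [show y - a = T.exp k (y₀ - a) by rw [T.exp_sub, T.exp_of_inComm k hac]]
    exact (T.norm_exp_le k _).trans hy₀a.le
  have hmove : 3 * ε₀ / 8 < ‖σ y - y‖ := by
    have e : σ a - a = (σ y - y) + (-σ (y - a) + (y - a)) := by rw [map_sub]; abel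
    have h1 := norm_add_le (σ y - y) (-σ (y - a) + (y - a))
    have h2 := norm_add_le (-σ (y - a)) (y - a)
    rw [← e] at h1
    rw [norm_neg, StarAlgEquiv.norm_map] at h2
    linarith
  obtain ⟨N, hN⟩ := exists_nat_gt (32 / ε₀)
  have hN0 : (0 : ℝ) < N := lt_trans (by positivity) hN
  set h : ℝ := 2 / N with hh
  have hh0 : 0 ≤ h := by positivity
  have hNh : (N : ℝ) * h = 2 := by rw [hh]; field_simp
  have hsmall : h ≤ ε₀ / 16 := by
    rw [hh, div_le_iff₀ hN0]
    rw [div_lt_iff₀ hε₀] at hN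
    linarith
  set P : ℕ → A := fun l => cfc (ind ((l + 1 : ℕ) * h - 1)) y
  have hP : ∀ l, IsStarProjection (P l) := fun l => T.isStarProjection_cfc_ind hym _
  have hPc : ∀ l, T.InComm k (P l) := fun l => hyc.cfc _
  have hPm : ∀ l, P l ∈ T.stage m := fun l => T.cfc_mem_stage hym _
  set F : A := ∑ l ∈ Finset.range N, h • P l with hFdef
  have hF : F = cfc (fun t => stair h N (t + 1)) y := by
    have e : (fun t => stair h N (t + 1)) =
        ∑ l ∈ Finset.range N, fun t => h * ind ((l + 1 : ℕ) * h - 1) t := by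
      funext t
      simp only [stair, Finset.sum_apply, ind, sub_le_iff_le_add]
    rw [e, cfc_sum _ y _ fun l _ => T.continuousOn_spectrum hym _]
    exact Finset.sum_congr rfl fun l _ =>
      (cfc_const_mul h _ y (T.continuousOn_spectrum hym _)).symm
  have hFy : ‖F - (y + 1)‖ ≤ h := by
    rw [hF, show y + 1 = cfc (fun t : ℝ => t + 1) y by rw [cfc_add_const 1 (fun t : ℝ => t) y,
      cfc_id' ℝ y, map_one], ← cfc_sub _ _ y (T.continuousOn_spectrum hym _) (by fun_prop)]
    refine norm_cfc_le hh0 fun t ht => ?_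
    rcases subsingleton_or_nontrivial A with hA | hA
    · simp [spectrum.of_subsingleton] at ht
    have ht1 : |t| ≤ 1 := (spectrum.norm_le_norm_of_mem ht).trans hyn
    obtain ⟨t0, t1⟩ := abs_le.1 ht1
    obtain ⟨s1, -, s3, s4⟩ := stair_spec hh0 (show 0 ≤ t + 1 by linarith) N
    rw [Real.norm_eq_abs, abs_le]
    refine ⟨?_, by linarith⟩
    rcases lt_or_ge (t + 1) ((N + 1 : ℕ) * h) with hlt | hge
    · linarith [s3 hlt]
    · push_cast at hge
      rw [s4 (by linarith)]
      linarith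
  obtain ⟨l, -, hl⟩ : ∃ l ∈ Finset.range N, ε₀ / 8 ≤ ‖σ (P l) - P l‖ := by
    by_contra hcon
    push_neg at hcon
    have e : σ y - y = (σ F - F) - σ (F - (y + 1)) + (F - (y + 1)) := by
      rw [map_sub, map_add, map_one]; abel
    have hFm : ‖σ F - F‖ ≤ (N : ℝ) * (h * (ε₀ / 8)) := by
      rw [hFdef, map_sum, ← Finset.sum_sub_distrib]
      refine (norm_sum_le_of_le _ fun l hl => ?_).trans (le_of_eq (b := (N : ℝ) * (h * (ε₀ / 8)))
        (a := ∑ _l ∈ Finset.range N, h * (ε₀ / 8)) (by simp))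
      rw [map_rsmul', ← smul_sub, norm_smul, Real.norm_of_nonneg hh0]
      exact mul_le_mul_of_nonneg_left (hcon l hl).le hh0
    rw [← mul_assoc, hNh] at hFm
    have h1 := norm_add_le (σ F - F - σ (F - (y + 1))) (F - (y + 1))
    have h2 := norm_sub_le (σ F - F) (σ (F - (y + 1)))
    rw [← e] at h1
    rw [StarAlgEquiv.norm_map] at h2
    linarith
  set p := P l
  have e : σ p - p = (1 - p) * σ p - p * (1 - σ p) := by noncomm_ring
  have h1 := norm_sub_le ((1 - p) * σ p) (p * (1 - σ p))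
  rw [← e] at h1
  rcases le_or_gt (ε₀ / 16) ‖p * (1 - σ p)‖ with h2 | h2
  · exact ⟨m, p, le_max_left _ _, hPm l, hPc l, hP l, h2⟩
  · refine ⟨m, 1 - p, le_max_left _ _, sub_mem (T.one_mem_stage m) (hPm l),
      (T.inComm_one k).sub (hPc l), (hP l).one_sub, ?_⟩
    rw [map_sub, map_one, sub_sub_cancel]
    linarith

/-- A nonzero projection in a commutant with `x σ x` uniformly less than one. -/
theorem exists_small (hσ : ¬T.CentrallyTrivial σ) :
    ∃ θ : ℝ, 0 ≤ θ ∧ θ < 1 ∧ ∀ m : ℕ, ∃ m' x, m ≤ m' ∧ x ∈ T.stage m' ∧ T.InComm m x ∧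
      IsStarProjection x ∧ x ≠ 0 ∧ ‖x * σ x‖ ≤ θ := by
  obtain ⟨c, hc, hmoved⟩ := T.exists_moved σ hσ
  set d : ℝ := min (c ^ 2) 1 with hddef
  have hd : 0 < d := lt_min (by positivity) one_pos
  have hd1 : d ≤ 1 := min_le_right _ _
  refine ⟨Real.sqrt (1 - d / 4), Real.sqrt_nonneg _, ?_, fun m => ?_⟩
  · rw [Real.sqrt_lt' one_pos]; linarith
  obtain ⟨Nm, hNm⟩ : ∃ Nm : ℝ, Nm = ∑ b : Fin (T.B m), ∑ _i : Fin (T.d m b + 1), (1 : ℝ) :=
    ⟨_, rfl⟩
  have hNm0 : 0 ≤ Nm :=
    hNm ▸ Finset.sum_nonneg fun _ _ => Finset.sum_nonneg fun _ _ => zero_le_one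
  set η : ℝ := d / (32 * (Nm + 1)) with hη
  have hη0 : 0 < η := by positivity
  have hηd : η * (32 * (Nm + 1)) = d := div_mul_cancel₀ d (by positivity)
  choose K hK using fun x : T.Idx m => T.exists_near (σ.symm (T.u m x.1 x.2.1 x.2.2)) hη0
  set k := max m (Finset.univ.sup K)
  obtain ⟨m₂, x, hkm, hxm, hxc, hxp, hxn⟩ := hmoved k
  have hmk : m ≤ k := le_max_left _ _
  have hxcm : T.InComm m x := hxc.mono hmk
  have hxx := hxp.isIdempotentElem.eq
  have hxs := hxp.isSelfAdjoint.star_eq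
  set X : A := 1 - σ x with hX
  have hXp : IsStarProjection X := (isStarProjection_map σ hxp).one_sub
  set z₀ := x * X * x
  have hz₀ : 0 ≤ z₀ := by
    have := star_left_conjugate_nonneg hXp.nonneg x
    rwa [hxs] at this
  have hz₀n : d ≤ ‖z₀‖ := by
    have e : z₀ = x * X * star (x * X) := by
      rw [star_mul, hXp.isSelfAdjoint.star_eq, hxs]
      show x * X * x = x * X * (X * x)
      rw [← mul_assoc (x * X) X x, mul_assoc x X X, hXp.isIdempotentElem.eq]
    rw [e, CStarRing.norm_self_mul_star]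
    exact (min_le_left _ _).trans (by nlinarith)
  have hXu : ∀ b i, ‖X * T.u m b 0 i - T.u m b 0 i * X‖ ≤ 2 * η := by
    intro b i
    obtain ⟨w, hw, hwu, -, -⟩ := hK ⟨b, 0, i⟩ k
      ((Finset.le_sup (Finset.mem_univ _)).trans (le_max_right _ _))
    have hcomm := hxc.of_mem hw
    set u' := σ.symm (T.u m b 0 i)
    have e1 : X * T.u m b 0 i - T.u m b 0 i * X = σ (u' * x - x * u') := by
      rw [map_sub, map_mul, map_mul, StarAlgEquiv.apply_symm_apply]
      simp only [hX]
      noncomm_ring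
    have e2 : u' * x - x * u' = (u' - w) * x - x * (u' - w) := by
      rw [sub_mul, mul_sub, hcomm.eq]; abel
    rw [e1, StarAlgEquiv.norm_map, e2]
    refine (norm_sub_le _ _).trans ?_
    rw [norm_sub_rev] at hwu
    nlinarith [norm_mul_le (u' - w) x, norm_mul_le x (u' - w), hxp.norm_le, norm_nonneg (u' - w),
      norm_nonneg x]
  have hexp : ‖T.exp m z₀ - z₀‖ ≤ Nm * (2 * η) := by
    refine (T.norm_exp_sub_le m z₀).trans ?_
    rw [hNm, Finset.sum_mul]
    refine Finset.sum_le_sum fun b _ => ?_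
    rw [Finset.sum_mul]
    refine Finset.sum_le_sum fun i _ => ?_
    rw [one_mul]
    have hu := (hxcm b 0 i).eq
    have e : z₀ * T.u m b 0 i - T.u m b 0 i * z₀ =
        x * (X * T.u m b 0 i - T.u m b 0 i * X) * x := by
      simp only [z₀, mul_sub, sub_mul, mul_assoc, ← hu]
      simp only [← mul_assoc, hu]
    rw [e]
    refine (norm_mul₃_le).trans ?_
    calc ‖x‖ * ‖X * T.u m b 0 i - T.u m b 0 i * X‖ * ‖x‖ ≤ 1 * (2 * η) * 1 :=
          mul_le_mul (mul_le_mul hxp.norm_le (hXu b i) (norm_nonneg _) zero_le_one) hxp.norm_le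
            (norm_nonneg _) (by positivity)
      _ = 2 * η := by ring
  obtain ⟨m₃', hm₃⟩ := T.exists_near X hη0
  set m₃ := max m₂ m₃'
  obtain ⟨w, hw, hwX, hwn, hws⟩ := hm₃ m₃ (le_max_right _ _)
  have hm3 : m ≤ m₃ := hmk.trans (hkm.trans (le_max_left _ _))
  have hxm3 : x ∈ T.stage m₃ := T.stage_mono (le_max_left _ _) hxm
  set z := x * T.exp m w * x with hzdef
  have hzm : z ∈ T.stage m₃ :=
    T.mul_mem_stage (T.mul_mem_stage hxm3 (T.exp_mem_stage hm3 hw)) hxm3
  have hzc : T.InComm m z := (hxcm.mul (T.inComm_exp m w)).mul hxcm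
  have hzs : IsSelfAdjoint z := by
    have := (T.isSelfAdjoint_exp m (hws hXp.isSelfAdjoint)).conjugate x
    rwa [hxs] at this
  have hz1 : ‖z‖ ≤ 1 := (norm_mul₃_le).trans (mul_le_one₀ (mul_le_one₀ hxp.norm_le (norm_nonneg _)
    ((T.norm_exp_le m w).trans (hwn.trans hXp.norm_le))) (norm_nonneg _) hxp.norm_le)
  set η' : ℝ := d / 8
  have hzz : ‖z - z₀‖ ≤ η' := by
    have e : z - z₀ = T.exp m (x * (w - X) * x) + (T.exp m z₀ - z₀) := by
      simp only [z₀, hzdef, mul_sub, sub_mul, T.exp_sub, T.exp_mul_mul m hxcm hxcm]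
      abel
    rw [e]
    refine (norm_add_le _ _).trans ((add_le_add ((T.norm_exp_le m _).trans ((norm_mul₃_le).trans
      (mul_le_of_le_one_right (by positivity) hxp.norm_le |>.trans
        (mul_le_of_le_one_left (norm_nonneg _) hxp.norm_le |>.trans hwX.le)))) hexp).trans ?_)
    show η + Nm * (2 * η) ≤ d / 8
    nlinarith
  set q := cfc (ind (d / 2)) z with hqdef
  have hq : IsStarProjection q := T.isStarProjection_cfc_ind hzm _
  have hxz : x * z = z := by simp only [hzdef, ← mul_assoc, hxx]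
  have hxq : x * q = q := by
    have e : q = z * cfc (fun t => ind (d / 2) t / t) z := by
      conv_rhs => arg 1; rw [← cfc_id' ℝ z]
      rw [← cfc_mul _ _ z (by fun_prop) (T.continuousOn_spectrum hzm _)]
      refine cfc_congr fun t _ => ?_
      rcases eq_or_ne t 0 with rfl | ht
      · simp [ind, not_le.2 (half_pos hd)]
      · rw [mul_div_cancel₀ _ ht]
    rw [e, ← mul_assoc, hxz]
  have hqx : q * x = q := by
    have := congrArg star hxq
    rwa [star_mul, hq.isSelfAdjoint.star_eq, hxs] at this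
  have hlow : ∀ t ∈ spectrum ℝ z, -η' ≤ t := by
    refine (algebraMap_le_iff_le_spectrum (R := ℝ) hzs).1 ?_
    have h1 : z₀ - z ≤ algebraMap ℝ A η' :=
      ((hz₀.isSelfAdjoint.sub hzs).le_algebraMap_norm_self).trans
        (algebraMap_mono A (by rw [norm_sub_rev]; exact hzz))
    rw [map_neg, neg_le_iff_add_nonneg]
    calc (0 : A) ≤ z₀ := hz₀
      _ = z + (z₀ - z) := by abel
      _ ≤ z + algebraMap ℝ A η' := add_le_add le_rfl h1
  refine ⟨m₃, q, hm3, T.cfc_mem_stage hzm _, hzc.cfc _, hq, fun hq0 => ?_, ?_⟩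
  · rcases subsingleton_or_nontrivial A with hA | hA
    · have : ‖z₀‖ = 0 := by simp [Subsingleton.elim z₀ 0]
      linarith
    have hlt : ∀ t ∈ spectrum ℝ z, t < d / 2 := by
      intro t ht
      by_contra hge
      push_neg at hge
      have heq := eqOn_of_cfc_eq_cfc (R := ℝ) (a := z) (f := ind (d / 2)) (g := fun _ => 0)
        (hf := T.continuousOn_spectrum hzm _) (hg := continuousOn_const) (ha := hzs)
        (show cfc (ind (d / 2)) z = cfc (fun _ => (0 : ℝ)) z by rw [← hqdef, hq0, cfc_const_zero])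
      have := heq ht
      simp [ind, hge] at this
    have hzn : ‖z‖ ≤ d / 2 := by
      rw [← cfc_id' ℝ z]
      exact norm_cfc_le (by positivity) fun t ht =>
        abs_le.2 ⟨by linarith [hlow t ht, show η' = d / 8 from rfl], (hlt t ht).le⟩
    have := norm_sub_norm_le z₀ z
    rw [norm_sub_rev] at hzz
    linarith [show η' = d / 8 from rfl]
  · refine (sq_le_sq₀ (norm_nonneg _) (Real.sqrt_nonneg _)).1 ?_
    rw [Real.sq_sqrt (by linarith), sq, ← CStarRing.norm_self_mul_star (x := q * σ q),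
      star_mul, hq.isSelfAdjoint.star_eq, (isStarProjection_map σ hq).isSelfAdjoint.star_eq,
      show q * σ q * (σ q * q) = q * (σ q * σ q) * q by simp only [mul_assoc],
      (isStarProjection_map σ hq).isIdempotentElem.eq]
    have hqle : q ≤ x := by
      have h2 : q * x * q ≤ x := by
        rw [hqx, hq.isIdempotentElem.eq]
        have e : x - q = x * (1 - q) * x := by
          rw [mul_sub, mul_one, sub_mul, hxx, mul_assoc, hqx, hxq]
        rw [← sub_nonneg, e]
        have := star_left_conjugate_nonneg hq.one_sub.nonneg x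
        rwa [hxs] at this
      rwa [hqx, hq.isIdempotentElem.eq] at h2
    have h3 : 0 ≤ q * σ q * q := by
      have := star_left_conjugate_nonneg (isStarProjection_map σ hq).nonneg q
      rwa [hq.isSelfAdjoint.star_eq] at this
    have h4 : q * σ q * q ≤ q * σ x * q := by
      have := star_left_conjugate_le_conjugate (map_mono' σ hqle) q
      rwa [hq.isSelfAdjoint.star_eq] at this
    refine (CStarAlgebra.norm_le_norm_of_nonneg_of_le h3 h4).trans ?_
    have e : q * σ x * q = (q - q * z * q) + q * (z - z₀) * q := by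
      have e1 : q * z₀ * q = q * X * q := by
        simp only [z₀, ← mul_assoc, hqx]
        rw [mul_assoc _ x q, hxq]
      rw [mul_sub q z, sub_mul, e1]
      simp only [hX, mul_sub, sub_mul, mul_one, hq.isIdempotentElem.eq]
      abel
    rw [e]
    refine (norm_add_le _ _).trans ?_
    have h5 : ‖q - q * z * q‖ ≤ 1 - d / 2 := by
      have e2 : q - q * z * q =
          cfc (fun t => ind (d / 2) t - ind (d / 2) t * t * ind (d / 2) t) z := by
        rw [cfc_sub _ _ z (T.continuousOn_spectrum hzm _) (T.continuousOn_spectrum hzm _),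
          cfc_mul _ _ z (T.continuousOn_spectrum hzm _) (T.continuousOn_spectrum hzm _),
          cfc_mul _ _ z (T.continuousOn_spectrum hzm _) (T.continuousOn_spectrum hzm _),
          cfc_id' ℝ z]
      rw [e2]
      refine norm_cfc_le (by linarith) fun t ht => ?_
      rcases subsingleton_or_nontrivial A with hA | hA
      · simp [spectrum.of_subsingleton] at ht
      have ht1 : t ≤ 1 :=
        ((le_abs_self t).trans (spectrum.norm_le_norm_of_mem ht)).trans hz1
      unfold ind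
      split_ifs with h
      · rw [one_mul, mul_one, Real.norm_of_nonneg (by linarith)]; linarith
      · simp; linarith
    have h6 : ‖q * (z - z₀) * q‖ ≤ η' :=
      (norm_mul₃_le).trans ((mul_le_of_le_one_right (by positivity) hq.norm_le).trans
        ((mul_le_of_le_one_left (norm_nonneg _) hq.norm_le).trans hzz))
    linarith [show η' = d / 8 from rfl]

variable {T}

theorem mul_ne_zero_of_corner {m : ℕ} {a x : A} (ha : a ∈ T.stage m) (hx : T.InComm m x)
    {b : Fin (T.B m)} (hb : T.pr m b * x ≠ 0) (hab : T.zr m b * a ≠ 0) : a * x ≠ 0 := by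
  obtain ⟨Y, rfl⟩ := T.exists_hom_eq ha
  intro h0
  refine hab ?_
  rw [zr_mul_hom, hom_single]
  refine Finset.sum_eq_zero fun i _ => Finset.sum_eq_zero fun j _ => ?_
  have h1 : T.u m b 0 i * T.hom m Y * T.u m b j 0 * x = 0 := by
    rw [mul_assoc, ← (hx b j 0).eq, ← mul_assoc, mul_assoc (T.u m b 0 i), h0, mul_zero, zero_mul]
  rw [u_hom_u, smul_mul_assoc] at h1
  rcases smul_eq_zero.1 h1 with h | h
  · rw [h, zero_smul]
  · exact absurd h hb

theorem move_one (hfull : T.FullGoal) (hσ : ¬T.CentrallyTrivial σ) (k : ℕ) {ε : ℝ} (hε : 0 < ε)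
    {m : ℕ} {q : A} (hkm : k ≤ m) (hqm : q ∈ T.stage m) (hqc : T.InComm k q)
    (hqp : IsStarProjection q) (hqb : ∀ b, T.pr k b * q ≠ 0) :
    ∃ m' q', k ≤ m' ∧ q' ∈ T.stage m' ∧ T.InComm k q' ∧ IsStarProjection q' ∧
      (∀ b, T.pr k b * q' ≠ 0) ∧ q * q' = q' ∧ ‖q' * σ q'‖ ≤ ε := by
  obtain ⟨θ, hθ0, hθ1, hsmall⟩ := T.exists_small σ hσ
  set η : ℝ := ε * (1 - θ) / 4
  have hη : 0 < η := by
    have : 0 < 1 - θ := by linarith
    positivity
  suffices ∀ r : ℕ, ∃ m' q', k ≤ m' ∧ q' ∈ T.stage m' ∧ T.InComm k q' ∧ IsStarProjection q' ∧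
      (∀ b, T.pr k b * q' ≠ 0) ∧ q * q' = q' ∧ ‖q' * σ q'‖ ≤ θ ^ r + ε / 2 by
    obtain ⟨r, hr⟩ := exists_pow_lt_of_lt_one (half_pos hε) hθ1
    obtain ⟨m', q', h1, h2, h3, h4, h5, h6, h7⟩ := this r
    exact ⟨m', q', h1, h2, h3, h4, h5, h6, h7.trans (by linarith)⟩
  intro r
  induction r with
  | zero =>
    refine ⟨m, q, hkm, hqm, hqc, hqp, hqb, hqp.isIdempotentElem.eq, ?_⟩
    have : ‖q * σ q‖ ≤ 1 := (norm_mul_le _ _).trans
      (mul_le_one₀ hqp.norm_le (norm_nonneg _) (isStarProjection_map σ hqp).norm_le)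
    rw [pow_zero]; linarith
  | succ r ih =>
    obtain ⟨m₁, p, hkm₁, hpm, hpc, hpp, hpb, hqp', hpn⟩ := ih
    choose M₀ hM₀ using fun b => hfull m₁ (T.pr k b * p)
      (T.mul_mem_stage (T.stage_mono hkm₁ (T.pr_mem_stage k b)) hpm) (hpb b)
    obtain ⟨K, hK⟩ := T.exists_near (σ p) hη
    set M := max m₁ (max K (Finset.univ.sup M₀))
    have hm₁M : m₁ ≤ M := le_max_left _ _
    obtain ⟨w, hw, hwp, -, -⟩ := hK M ((le_max_left _ _).trans (le_max_right _ _))
    obtain ⟨m', x, hMm', hxm, hxc, hxp, hx0, hxn⟩ := hsmall M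
    have hpx : Commute p x := (hxc.of_mem (T.stage_mono hm₁M hpm)).symm
    refine ⟨m', p * x, hkm₁.trans (hm₁M.trans hMm'),
      T.mul_mem_stage (T.stage_mono (hm₁M.trans hMm') hpm) hxm,
      hpc.mul (hxc.mono (hkm₁.trans hm₁M)), hpp.mul hxp hpx, fun b => ?_,
      by rw [← mul_assoc, hqp'], ?_⟩
    · obtain ⟨β, hβ⟩ : ∃ β, T.pr M β * x ≠ 0 := by
        by_contra hcon
        push_neg at hcon
        exact hx0 (hxc.eq_zero_iff.2 hcon)
      rw [← mul_assoc]
      exact mul_ne_zero_of_corner (T.mul_mem_stage (T.stage_mono (hkm₁.trans hm₁M) (T.pr_mem_stage k b))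
        (T.stage_mono hm₁M hpm)) hxc hβ (hM₀ b M ((Finset.le_sup (Finset.mem_univ b)).trans
          ((le_max_right _ _).trans (le_max_right _ _))) β)
    · have hcomm := hxc.of_mem hw
      have e : p * x * σ (p * x) =
          p * σ p * (x * σ x) + p * (x * (σ p - w) - (σ p - w) * x) * σ x := by
        rw [map_mul, mul_sub x, sub_mul (σ p), hcomm.eq]
        noncomm_ring
      rw [e]
      refine (norm_add_le _ _).trans ?_
      rw [norm_sub_rev] at hwp
      have h1 : ‖p * σ p * (x * σ x)‖ ≤ (θ ^ r + ε / 2) * θ :=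
        (norm_mul_le _ _).trans (mul_le_mul hpn hxn (norm_nonneg _) (by positivity))
      have h2 : ‖x * (σ p - w) - (σ p - w) * x‖ ≤ 2 * η := by
        refine (norm_sub_le _ _).trans ?_
        nlinarith [norm_mul_le x (σ p - w), norm_mul_le (σ p - w) x, hxp.norm_le,
          norm_nonneg (σ p - w), norm_nonneg x]
      have h3 : ‖p * (x * (σ p - w) - (σ p - w) * x) * σ x‖ ≤ 2 * η :=
        (norm_mul₃_le).trans ((mul_le_of_le_one_right (by positivity)
          (isStarProjection_map σ hxp).norm_le).trans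
            ((mul_le_of_le_one_left (norm_nonneg _) hpp.norm_le).trans h2))
      have : θ ^ (r + 1) = θ ^ r * θ := pow_succ θ r
      have : η = ε * (1 - θ) / 4 := rfl
      nlinarith

/-- **Moving.** -/
theorem move_goal (hfull : T.FullGoal) : T.MoveGoal := by
  classical
  intro n σ hσ k ε hε
  suffices ∀ s : Finset (Fin n), ∃ m q, k ≤ m ∧ q ∈ T.stage m ∧ T.InComm k q ∧
      IsStarProjection q ∧ (∀ b, T.pr k b * q ≠ 0) ∧ ∀ i ∈ s, ‖q * σ i q‖ ≤ ε by
    obtain ⟨m, q, h1, h2, h3, h4, h5, h6⟩ := this Finset.univ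
    exact ⟨m, q, h1, h2, h3, h4, h5, fun i => h6 i (Finset.mem_univ i)⟩
  intro s
  induction s using Finset.induction_on with
  | empty =>
    exact ⟨k, 1, le_rfl, T.one_mem_stage k, T.inComm_one k, .one A, fun b => by
      rw [mul_one]; exact T.u_ne k b, by simp⟩
  | insert i s hi ih =>
    obtain ⟨m, q, h1, h2, h3, h4, h5, h6⟩ := ih
    obtain ⟨m', q', g1, g2, g3, g4, g5, g6, g7⟩ := move_one (σ i) hfull (hσ i) k hε h1 h2 h3 h4 h5
    refine ⟨m', q', g1, g2, g3, g4, g5, fun j hj => ?_⟩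
    rcases Finset.mem_insert.1 hj with rfl | hj
    · exact g7
    · have e : q' * σ j q' = q' * (q * σ j q) * σ j q' := by
        have g6' : q' * q = q' := by
          have := congrArg star g6
          rwa [star_mul, g4.isSelfAdjoint.star_eq, h4.isSelfAdjoint.star_eq] at this
        rw [← mul_assoc, g6', mul_assoc, ← map_mul, g6]
      rw [e]
      refine (norm_mul₃_le).trans ((mul_le_of_le_one_right (by positivity)
        (isStarProjection_map _ g4).norm_le).trans
          ((mul_le_of_le_one_left (norm_nonneg _) g4.norm_le).trans (h6 j hj)))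

end Vale.Agent.P095.AF.Tower
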