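import Vale.Agent.P095.AF.Defs

/-!
# P095: the stages of a tower of matrix units
-/

open scoped ComplexOrder
open Finset

noncomputable section

namespace Vale.Agent.P095.AF.Tower

variable {A : Type*} [CStarAlgebra A] (T : Tower A)

/-- The index set of the units of a stage. -/
abbrev Idx (k : ℕ) : Type := Σ b, Fin (T.d k b + 1) × Fin (T.d k b + 1)

/-- The direct sum of matrix algebras of a stage. -/
abbrev Mat (k : ℕ) : Type := ∀ b : Fin (T.B k), Matrix (Fin (T.d k b + 1)) (Fin (T.d k b + 1)) ℂ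

theorem u_mem_stage (k : ℕ) (b i j) : T.u k b i j ∈ T.stage k :=
  Submodule.subset_span ⟨⟨b, i, j⟩, rfl⟩

theorem pr_mem_stage (k : ℕ) (b) : T.pr k b ∈ T.stage k := T.u_mem_stage k b 0 0

theorem zr_mem_stage (k : ℕ) (b) : T.zr k b ∈ T.stage k :=
  Submodule.sum_mem _ fun i _ => T.u_mem_stage k b i i

theorem u_mul_u (k : ℕ) (b b' : Fin (T.B k)) (i j : Fin (T.d k b + 1))
    (l r : Fin (T.d k b' + 1)) :
    T.u k b i j * T.u k b' l r =
      if h : b = b' then (if (h ▸ j : Fin (T.d k b' + 1)) = l then T.u k b' (h ▸ i) r else 0)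
      else 0 := by
  split_ifs with h h'
  · subst h; simp only at h' ⊢; rw [T.mul_u, if_pos h']
  · subst h; simp only at h' ⊢; rw [T.mul_u, if_neg h']
  · exact T.mul_u_ne k b b' h i j l r

theorem one_mem_stage (k : ℕ) : (1 : A) ∈ T.stage k := by
  rw [← T.sum_u k]
  exact Submodule.sum_mem _ fun b _ => T.zr_mem_stage k b

theorem mul_mem_stage {k : ℕ} {x y : A} (hx : x ∈ T.stage k) (hy : y ∈ T.stage k) :
    x * y ∈ T.stage k := by
  induction hx, hy using Submodule.span_induction₂ with
  | mem_mem a c ha hc =>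
    obtain ⟨⟨b, i, j⟩, rfl⟩ := ha
    obtain ⟨⟨b', l, r⟩, rfl⟩ := hc
    by_cases h : b = b'
    · subst h
      show T.u k b i j * T.u k b l r ∈ _
      rw [T.mul_u]
      split_ifs
      · exact T.u_mem_stage k b i r
      · exact zero_mem _
    · show T.u k b i j * T.u k b' l r ∈ _
      rw [T.mul_u_ne k b b' h]
      exact zero_mem _
  | zero_left => simp
  | zero_right => simp
  | add_left _ _ _ _ _ _ h h' => rw [add_mul]; exact add_mem h h'
  | add_right _ _ _ _ _ _ h h' => rw [mul_add]; exact add_mem h h'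
  | smul_left r _ _ _ _ h => rw [smul_mul_assoc]; exact Submodule.smul_mem _ r h
  | smul_right r _ _ _ _ h => rw [mul_smul_comm]; exact Submodule.smul_mem _ r h

theorem star_mem_stage {k : ℕ} {x : A} (hx : x ∈ T.stage k) : star x ∈ T.stage k := by
  induction hx using Submodule.span_induction with
  | mem a ha => obtain ⟨⟨b, i, j⟩, rfl⟩ := ha; rw [T.star_u]; exact T.u_mem_stage k b j i
  | zero => simp
  | add _ _ _ _ h h' => rw [star_add]; exact add_mem h h'
  | smul r _ _ h => rw [star_smul]; exact Submodule.smul_mem _ _ h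

theorem stage_succ_le (k : ℕ) : T.stage k ≤ T.stage (k + 1) :=
  Submodule.span_le.2 <| by rintro _ ⟨⟨b, i, j⟩, rfl⟩; exact T.nested k b i j

theorem stage_mono {k m : ℕ} (h : k ≤ m) : T.stage k ≤ T.stage m :=
  monotone_nat_of_le_succ T.stage_succ_le h

/-- A stage as a star subalgebra. -/
def alg (k : ℕ) : StarSubalgebra ℂ A where
  carrier := T.stage k
  mul_mem' := T.mul_mem_stage
  one_mem' := T.one_mem_stage k
  add_mem' := add_mem
  zero_mem' := zero_mem _
  algebraMap_mem' r := by
    show algebraMap ℂ A r ∈ T.stage k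
    rw [Algebra.algebraMap_eq_smul_one]
    exact Submodule.smul_mem _ r (T.one_mem_stage k)
  star_mem' := T.star_mem_stage

@[simp] theorem mem_alg {k : ℕ} {x : A} : x ∈ T.alg k ↔ x ∈ T.stage k := Iff.rfl

instance (k : ℕ) : FiniteDimensional ℂ (T.stage k) :=
  FiniteDimensional.span_of_finite ℂ (Set.finite_range _)

theorem isClosed_stage (k : ℕ) : IsClosed (T.stage k : Set A) :=
  Submodule.closed_of_finiteDimensional _

/-! ### Norms of the units -/

theorem isStarProjection_u (k : ℕ) (b i) : IsStarProjection (T.u k b i i) :=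
  ⟨(T.mul_u k b i i i i).trans (if_pos rfl), T.star_u k b i i⟩

theorem isStarProjection_pr (k : ℕ) (b) : IsStarProjection (T.pr k b) := T.isStarProjection_u k b 0

theorem zr_mul_u (k : ℕ) (b : Fin (T.B k)) (i j) : T.zr k b * T.u k b i j = T.u k b i j := by
  simp [zr, Finset.sum_mul, T.mul_u]

theorem u_mul_zr (k : ℕ) (b : Fin (T.B k)) (i j) : T.u k b i j * T.zr k b = T.u k b i j := by
  simp [zr, Finset.mul_sum, T.mul_u]

theorem zr_mul_u_ne (k : ℕ) {b b' : Fin (T.B k)} (h : b ≠ b') (i j) :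
    T.zr k b * T.u k b' i j = 0 := by
  simp [zr, Finset.sum_mul, T.mul_u_ne k b b' h]

theorem u_mul_zr_ne (k : ℕ) {b b' : Fin (T.B k)} (h : b ≠ b') (i j) :
    T.u k b i j * T.zr k b' = 0 := by
  simp [zr, Finset.mul_sum, T.mul_u_ne k b b' h]

theorem isStarProjection_zr (k : ℕ) (b) : IsStarProjection (T.zr k b) := by
  refine ⟨?_, ?_⟩
  · show T.zr k b * T.zr k b = T.zr k b
    conv_lhs => arg 2; rw [zr]
    rw [Finset.mul_sum]
    exact Finset.sum_congr rfl fun i _ => T.zr_mul_u k b i i
  · show star (T.zr k b) = _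
    simp [zr, star_sum, T.star_u]

theorem norm_u_le (k : ℕ) (b i j) : ‖T.u k b i j‖ ≤ 1 := by
  have h := (T.isStarProjection_u k b j).norm_le
  have e : star (T.u k b i j) * T.u k b i j = T.u k b j j := by
    rw [T.star_u, T.mul_u, if_pos rfl]
  rw [← e, CStarRing.norm_star_mul_self] at h
  nlinarith [norm_nonneg (T.u k b i j)]

theorem norm_zr_le (k : ℕ) (b) : ‖T.zr k b‖ ≤ 1 := (T.isStarProjection_zr k b).norm_le

theorem norm_pr (k : ℕ) (b) : ‖T.pr k b‖ = 1 := by
  have h := CStarRing.norm_star_mul_self (x := T.pr k b)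
  rw [(T.isStarProjection_pr k b).isSelfAdjoint.star_eq,
    (T.isStarProjection_pr k b).isIdempotentElem.eq] at h
  exact mul_left_cancel₀ (norm_ne_zero_iff.2 (T.u_ne k b)) (by rw [mul_one]; exact h.symm)

/-! ### The relative commutants -/

variable {T}

theorem InComm.of_mem {k : ℕ} {x : A} (h : T.InComm k x) {y : A} (hy : y ∈ T.stage k) :
    Commute x y := by
  induction hy using Submodule.span_induction with
  | mem a ha => obtain ⟨⟨b, i, j⟩, rfl⟩ := ha; exact h b i j
  | zero => exact Commute.zero_right x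
  | add _ _ _ _ h h' => exact h.add_right h'
  | smul r _ _ h => exact h.smul_right r

theorem InComm.mono {k m : ℕ} (hkm : k ≤ m) {x : A} (h : T.InComm m x) : T.InComm k x :=
  fun b i j => h.of_mem (T.stage_mono hkm (T.u_mem_stage k b i j))

theorem InComm.add {k : ℕ} {x y : A} (h : T.InComm k x) (h' : T.InComm k y) :
    T.InComm k (x + y) := fun b i j => (h b i j).add_left (h' b i j)

theorem InComm.sub {k : ℕ} {x y : A} (h : T.InComm k x) (h' : T.InComm k y) :
    T.InComm k (x - y) := fun b i j => (h b i j).sub_left (h' b i j)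

theorem InComm.neg {k : ℕ} {x : A} (h : T.InComm k x) : T.InComm k (-x) :=
  fun b i j => (h b i j).neg_left

theorem InComm.smul {k : ℕ} {x : A} (h : T.InComm k x) (r : ℂ) : T.InComm k (r • x) :=
  fun b i j => (h b i j).smul_left r

theorem InComm.mul {k : ℕ} {x y : A} (h : T.InComm k x) (h' : T.InComm k y) :
    T.InComm k (x * y) := fun b i j => (h b i j).mul_left (h' b i j)

theorem InComm.star {k : ℕ} {x : A} (h : T.InComm k x) : T.InComm k (star x) := fun b i j => by
  have := (h b j i).star_star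
  rwa [T.star_u] at this

variable (T)

theorem inComm_one (k : ℕ) : T.InComm k 1 := fun _ _ _ => Commute.one_left _

theorem inComm_zero (k : ℕ) : T.InComm k 0 := fun _ _ _ => Commute.zero_left _

theorem inComm_sum {k : ℕ} {ι : Type*} (s : Finset ι) (f : ι → A)
    (h : ∀ i ∈ s, T.InComm k (f i)) : T.InComm k (∑ i ∈ s, f i) :=
  fun b i j => Commute.sum_left _ _ _ fun l hl => h l hl b i j

theorem isClosed_inComm (k : ℕ) : IsClosed {x | T.InComm k x} := by
  simp only [InComm, commute_iff_eq, Set.setOf_forall]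
  exact isClosed_iInter fun b => isClosed_iInter fun i => isClosed_iInter fun j =>
    isClosed_eq (continuous_id.mul continuous_const) (continuous_const.mul continuous_id)

theorem inComm_zr (k : ℕ) (b : Fin (T.B k)) : T.InComm k (T.zr k b) := by
  intro b' i j
  by_cases h : b = b'
  · subst h; exact (T.zr_mul_u k b i j).trans (T.u_mul_zr k b i j).symm
  · exact (T.zr_mul_u_ne k h i j).trans (T.u_mul_zr_ne k (Ne.symm h) i j).symm

/-! ### The conditional expectation -/

theorem sum_sandwich_mul_u (k : ℕ) (f : Fin (T.B k) → A) (b i j) :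
    (∑ b', ∑ l, T.u k b' l 0 * f b' * T.u k b' 0 l) * T.u k b i j =
      T.u k b i 0 * f b * T.u k b 0 j := by
  rw [Finset.sum_mul, Finset.sum_eq_single b, Finset.sum_mul, Finset.sum_eq_single i]
  · rw [mul_assoc, T.mul_u, if_pos rfl]
  · intro l _ hl; rw [mul_assoc, T.mul_u, if_neg hl, mul_zero]
  · simp
  · intro b' _ hb
    rw [Finset.sum_mul]
    exact Finset.sum_eq_zero fun l _ => by rw [mul_assoc, T.mul_u_ne k b' b hb, mul_zero]
  · simp

theorem u_mul_sum_sandwich (k : ℕ) (f : Fin (T.B k) → A) (b i j) :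
    T.u k b i j * (∑ b', ∑ l, T.u k b' l 0 * f b' * T.u k b' 0 l) =
      T.u k b i 0 * f b * T.u k b 0 j := by
  rw [Finset.mul_sum, Finset.sum_eq_single b, Finset.mul_sum, Finset.sum_eq_single j]
  · rw [← mul_assoc, ← mul_assoc, T.mul_u, if_pos rfl]
  · intro l _ hl; rw [← mul_assoc, ← mul_assoc, T.mul_u, if_neg (Ne.symm hl), zero_mul, zero_mul]
  · simp
  · intro b' _ hb
    rw [Finset.mul_sum]
    exact Finset.sum_eq_zero fun l _ => by
      rw [← mul_assoc, ← mul_assoc, T.mul_u_ne k b b' (Ne.symm hb), zero_mul, zero_mul]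
  · simp

/-- Placing an element of every corner along the diagonal of its block. -/
def lift (k : ℕ) (f : Fin (T.B k) → A) : A := ∑ b, ∑ l, T.u k b l 0 * f b * T.u k b 0 l

theorem exp_eq_lift (k : ℕ) (x : A) : T.exp k x = T.lift k fun _ => x := rfl

theorem inComm_lift (k : ℕ) (f : Fin (T.B k) → A) : T.InComm k (T.lift k f) := fun b i j =>
  (T.sum_sandwich_mul_u k f b i j).trans (T.u_mul_sum_sandwich k f b i j).symm

theorem inComm_exp (k : ℕ) (x : A) : T.InComm k (T.exp k x) := T.inComm_lift k _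

theorem lift_add (k : ℕ) (f g : Fin (T.B k) → A) : T.lift k (f + g) = T.lift k f + T.lift k g := by
  simp [lift, mul_add, add_mul, Finset.sum_add_distrib]

theorem lift_smul (k : ℕ) (r : ℂ) (f : Fin (T.B k) → A) : T.lift k (r • f) = r • T.lift k f := by
  simp [lift, mul_smul_comm, smul_mul_assoc, Finset.smul_sum]

theorem star_lift (k : ℕ) (f : Fin (T.B k) → A) : star (T.lift k f) = T.lift k (star f) := by
  simp [lift, star_sum, T.star_u, mul_assoc]

theorem lift_mul (k : ℕ) (f g : Fin (T.B k) → A) :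
    T.lift k f * T.lift k g = T.lift k fun b => f b * T.pr k b * g b := by
  conv_lhs => arg 2; rw [lift]
  rw [Finset.mul_sum]
  refine Finset.sum_congr rfl fun b _ => ?_
  rw [Finset.mul_sum]
  refine Finset.sum_congr rfl fun l _ => ?_
  rw [← mul_assoc, ← mul_assoc, lift, T.sum_sandwich_mul_u]
  simp only [pr, mul_assoc]

theorem exp_add (k : ℕ) (x y : A) : T.exp k (x + y) = T.exp k x + T.exp k y :=
  T.lift_add k (fun _ => x) fun _ => y

theorem exp_smul (k : ℕ) (r : ℂ) (x : A) : T.exp k (r • x) = r • T.exp k x :=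
  T.lift_smul k r fun _ => x

theorem exp_sub (k : ℕ) (x y : A) : T.exp k (x - y) = T.exp k x - T.exp k y := by
  rw [sub_eq_add_neg, exp_add, show -y = (-1 : ℂ) • y by simp, exp_smul]; simp [sub_eq_add_neg]

theorem star_exp (k : ℕ) (x : A) : star (T.exp k x) = T.exp k (star x) :=
  T.star_lift k fun _ => x

theorem isSelfAdjoint_exp (k : ℕ) {x : A} (hx : IsSelfAdjoint x) :
    IsSelfAdjoint (T.exp k x) := by
  rw [IsSelfAdjoint, star_exp, hx.star_eq]

theorem exp_mul_left (k : ℕ) {a : A} (ha : T.InComm k a) (x : A) :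
    T.exp k (a * x) = a * T.exp k x := by
  simp only [exp, Finset.mul_sum]
  refine Finset.sum_congr rfl fun b _ => Finset.sum_congr rfl fun l _ => ?_
  rw [← mul_assoc (T.u k b l 0), ← (ha b l 0).eq]
  simp only [mul_assoc]

theorem exp_mul_right (k : ℕ) {a : A} (ha : T.InComm k a) (x : A) :
    T.exp k (x * a) = T.exp k x * a := by
  simp only [exp, Finset.sum_mul]
  refine Finset.sum_congr rfl fun b _ => Finset.sum_congr rfl fun l _ => ?_
  rw [mul_assoc, mul_assoc, (ha b 0 l).eq]
  simp only [mul_assoc]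

theorem exp_mul_mul (k : ℕ) {a c : A} (ha : T.InComm k a) (hc : T.InComm k c) (x : A) :
    T.exp k (a * x * c) = a * T.exp k x * c := by
  rw [T.exp_mul_right k hc, T.exp_mul_left k ha]

theorem exp_one (k : ℕ) : T.exp k 1 = 1 := by
  simp [exp, T.mul_u, T.sum_u]

theorem exp_of_inComm (k : ℕ) {x : A} (hx : T.InComm k x) : T.exp k x = x := by
  simpa [exp_one] using T.exp_mul_left k hx 1

theorem lift_mem_stage {k m : ℕ} (hkm : k ≤ m) {f : Fin (T.B k) → A}
    (hf : ∀ b, f b ∈ T.stage m) : T.lift k f ∈ T.stage m :=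
  Submodule.sum_mem _ fun b _ => Submodule.sum_mem _ fun l _ => T.mul_mem_stage
    (T.mul_mem_stage (T.stage_mono hkm (T.u_mem_stage k b l 0)) (hf b))
    (T.stage_mono hkm (T.u_mem_stage k b 0 l))

theorem exp_mem_stage {k m : ℕ} (hkm : k ≤ m) {x : A} (hx : x ∈ T.stage m) :
    T.exp k x ∈ T.stage m := T.lift_mem_stage hkm fun _ => hx

theorem norm_exp_sub_le (k : ℕ) (x : A) :
    ‖T.exp k x - x‖ ≤ ∑ b, ∑ i, ‖x * T.u k b 0 i - T.u k b 0 i * x‖ := by
  have e : T.exp k x - x =
      ∑ b, ∑ i, T.u k b i 0 * (x * T.u k b 0 i - T.u k b 0 i * x) := by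
    simp only [mul_sub, ← mul_assoc, T.mul_u, if_true, Finset.sum_sub_distrib, ← Finset.sum_mul,
      T.sum_u, one_mul]
    rfl
  rw [e]
  refine (norm_sum_le _ _).trans (Finset.sum_le_sum fun b _ => (norm_sum_le _ _).trans
    (Finset.sum_le_sum fun i _ => (norm_mul_le _ _).trans ?_))
  exact mul_le_of_le_one_left (norm_nonneg _) (T.norm_u_le k b i 0)

theorem exp_nonneg [PartialOrder A] [StarOrderedRing A] (k : ℕ) {x : A} (hx : 0 ≤ x) :
    0 ≤ T.exp k x := by
  refine Finset.sum_nonneg fun b _ => Finset.sum_nonneg fun i _ => ?_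
  have := star_left_conjugate_nonneg hx (T.u k b 0 i)
  rwa [T.star_u] at this

theorem norm_exp_le (k : ℕ) (x : A) : ‖T.exp k x‖ ≤ ‖x‖ := by
  letI := CStarAlgebra.spectralOrder A
  have := CStarAlgebra.spectralOrderedRing A
  have e : star (T.exp k x) * T.exp k x = T.lift k fun b => star x * T.pr k b * x := by
    rw [T.star_exp, exp_eq_lift, exp_eq_lift, T.lift_mul]
  have h1 : star (T.exp k x) * T.exp k x ≤ algebraMap ℝ A (‖x‖ ^ 2) := by
    rw [e]
    calc _ ≤ T.lift k fun _ => algebraMap ℝ A (‖x‖ ^ 2) := by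
          refine Finset.sum_le_sum fun b _ => Finset.sum_le_sum fun i _ => ?_
          have hb : star x * T.pr k b * x ≤ algebraMap ℝ A (‖x‖ ^ 2) := by
            refine (CStarAlgebra.norm_le_iff_le_algebraMap _ (by positivity)
              (star_left_conjugate_nonneg (T.isStarProjection_pr k b).nonneg x)).1 ?_
            refine (norm_mul_le _ _).trans ?_
            rw [sq]
            refine mul_le_mul ((norm_mul_le _ _).trans ?_) le_rfl (norm_nonneg _) (norm_nonneg _)
            rw [norm_star, T.norm_pr, mul_one]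
          have := star_left_conjugate_le_conjugate hb (T.u k b 0 i)
          rwa [T.star_u] at this
      _ = _ := T.exp_of_inComm k fun b i j => Algebra.commute_algebraMap_left _ _
  have h2 := CStarAlgebra.norm_le_norm_of_nonneg_of_le (star_mul_self_nonneg _) h1
  rw [CStarRing.norm_star_mul_self] at h2
  rcases subsingleton_or_nontrivial A with hA | hA
  · simp [Subsingleton.elim (T.exp k x) 0]
  · rw [norm_algebraMap', Real.norm_of_nonneg (by positivity)] at h2
    nlinarith [norm_nonneg (T.exp k x), norm_nonneg x]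

/-! ### The corners -/

variable {T}

theorem InComm.pr_mul_comm {k : ℕ} {x : A} (hx : T.InComm k x) (b) :
    T.pr k b * x = x * T.pr k b := (hx b 0 0).eq.symm

theorem InComm.eq_lift {k : ℕ} {x : A} (hx : T.InComm k x) :
    x = T.lift k fun b => T.pr k b * x := by
  conv_lhs => rw [← T.exp_of_inComm k hx]
  refine Finset.sum_congr rfl fun b _ => Finset.sum_congr rfl fun i _ => ?_
  rw [← mul_assoc (T.u k b i 0), pr, T.mul_u, if_pos rfl]

theorem InComm.eq_zero_iff {k : ℕ} {x : A} (hx : T.InComm k x) :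
    x = 0 ↔ ∀ b, T.pr k b * x = 0 := by
  refine ⟨fun h b => by rw [h, mul_zero], fun h => ?_⟩
  rw [hx.eq_lift]
  simp [lift, h]

/-! ### Spectral calculus in a stage -/

variable (T)

theorem finite_spectrum {k : ℕ} {x : A} (hx : x ∈ T.stage k) : (spectrum ℂ x).Finite := by
  have : FiniteDimensional ℂ (T.alg k).toSubalgebra.toSubmodule :=
    inferInstanceAs (FiniteDimensional ℂ (T.stage k))
  have hint : IsIntegral ℂ x := IsIntegral.of_mem_of_fg (T.alg k).toSubalgebra
    (Submodule.fg_iff_finiteDimensional _ |>.2 inferInstance) x hx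
  rcases subsingleton_or_nontrivial A with hA | hA
  · simp [spectrum.of_subsingleton]
  · exact Set.Finite.subset (Polynomial.finite_setOf_isRoot (minpoly.ne_zero hint))
      fun c hc => by
        have h := spectrum.subset_polynomial_aeval x (minpoly ℂ x) ⟨c, hc, rfl⟩
        rw [minpoly.aeval, spectrum.zero_eq] at h
        simpa using h

theorem finite_spectrum_real {k : ℕ} {x : A} (hx : x ∈ T.stage k) : (spectrum ℝ x).Finite :=
  (T.finite_spectrum hx).preimage Complex.ofReal_injective.injOn |>.subset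
    fun c hc => spectrum.algebraMap_mem ℂ hc

theorem continuousOn_spectrum {k : ℕ} {x : A} (hx : x ∈ T.stage k) (f : ℝ → ℝ) :
    ContinuousOn f (spectrum ℝ x) := by
  rw [continuousOn_iff_continuous_domRestrict]
  have := (T.finite_spectrum_real hx).to_subtype
  exact continuous_of_discreteTopology

theorem cfc_eq_aeval {k : ℕ} {x : A} (hx : x ∈ T.stage k) (hxs : IsSelfAdjoint x) (f : ℝ → ℝ) :
    ∃ p : Polynomial ℝ, cfc f x = Polynomial.aeval x p := by
  classical
  set s := (T.finite_spectrum_real hx).toFinset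
  refine ⟨Lagrange.interpolate s id f, ?_⟩
  rw [← cfc_polynomial _ x hxs]
  refine cfc_congr fun t ht => ?_
  exact (Lagrange.eval_interpolate_at_node f (Function.injective_id.injOn)
    ((T.finite_spectrum_real hx).mem_toFinset.2 ht)).symm

theorem cfc_mem_stage {k : ℕ} {x : A} (hx : x ∈ T.stage k) (f : ℝ → ℝ) :
    cfc f x ∈ T.stage k := by
  by_cases hxs : IsSelfAdjoint x
  · obtain ⟨p, hp⟩ := T.cfc_eq_aeval hx hxs f
    rw [hp, ← Polynomial.aeval_map_algebraMap ℂ x p, Polynomial.aeval_eq_sum_range]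
    exact Submodule.sum_mem _ fun i _ => Submodule.smul_mem _ _
      (pow_mem (show x ∈ T.alg k from hx) i)
  · rw [cfc_apply_of_not_predicate x hxs]; exact zero_mem _

variable {T} in
theorem InComm.cfc {j : ℕ} {x : A} (h : T.InComm j x) (f : ℝ → ℝ) : T.InComm j (cfc f x) :=
  fun b i l => h b i l |>.cfc_real f

/-! ### Density -/

theorem exists_near (x : A) {ε : ℝ} (hε : 0 < ε) :
    ∃ K, ∀ m, K ≤ m → ∃ y ∈ T.stage m, ‖y - x‖ < ε ∧ ‖y‖ ≤ ‖x‖ ∧
      (IsSelfAdjoint x → IsSelfAdjoint y) := by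
  obtain ⟨z, hz, hzx⟩ := T.dense.exists_dist_lt x (by positivity : 0 < ε / 3)
  obtain ⟨K, hK⟩ := Set.mem_iUnion.1 hz
  rw [dist_comm, dist_eq_norm] at hzx
  refine ⟨K, fun m hm => ?_⟩
  classical
  set w : A := if IsSelfAdjoint x then (1 / 2 : ℂ) • (z + star z) else z with hw
  have hwm : w ∈ T.stage K := by
    rw [hw]
    split_ifs
    · exact Submodule.smul_mem _ _ (add_mem hK (T.star_mem_stage hK))
    · exact hK
  have hwx : ‖w - x‖ < ε / 3 := by
    rw [hw]
    split_ifs with hs
    · have e : (1 / 2 : ℂ) • (z + star z) - x = (1 / 2 : ℂ) • ((z - x) + star (z - x)) := by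
        rw [star_sub, hs.star_eq]; module
      rw [e, norm_smul]
      norm_num
      have h' := norm_add_le (z - x) (star (z - x))
      rw [norm_star (z - x), star_sub] at h'
      linarith
    · exact hzx
  set c : ℝ := ‖x‖ / max ‖x‖ ‖w‖ with hc
  refine ⟨(c : ℂ) • w, Submodule.smul_mem _ _ (T.stage_mono hm hwm), ?_, ?_, fun hs => ?_⟩
  · rcases eq_or_lt_of_le (le_max_of_le_left (norm_nonneg x) : 0 ≤ max ‖x‖ ‖w‖) with h0 | h0
    · have : ‖x‖ = 0 := le_antisymm (h0 ▸ le_max_left _ _) (norm_nonneg _)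
      simp [hc, this, hε]
    · have hw' : ‖(c : ℂ) • w - w‖ ≤ ‖w - x‖ := by
        rw [show (c : ℂ) • w - w = ((c - 1 : ℝ) : ℂ) • w by push_cast; module, norm_smul,
          Complex.norm_real, Real.norm_eq_abs, abs_sub_comm,
          abs_of_nonneg (by rw [hc, sub_nonneg, div_le_one h0]; exact le_max_left _ _)]
        refine le_trans ?_ (abs_norm_sub_norm_le w x)
        rcases le_total ‖w‖ ‖x‖ with h | h
        · rw [max_eq_left h] at hc h0
          rw [hc, div_self h0.ne', sub_self, zero_mul]; exact abs_nonneg _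
        · rw [max_eq_right h] at hc h0
          rw [hc, abs_of_nonneg (sub_nonneg.2 h), sub_mul, one_mul, div_mul_cancel₀ _ h0.ne']
      have := norm_sub_le_norm_sub_add_norm_sub ((c : ℂ) • w) w x
      linarith
  · rw [norm_smul, Complex.norm_real, Real.norm_of_nonneg (by positivity), hc]
    rcases eq_or_lt_of_le (le_max_of_le_left (norm_nonneg x) : 0 ≤ max ‖x‖ ‖w‖) with h0 | h0
    · rw [← h0]; simp
    · rw [div_mul_eq_mul_div, div_le_iff₀ h0]
      exact mul_le_mul_of_nonneg_left (le_max_right _ _) (norm_nonneg _)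
  · refine IsSelfAdjoint.smul (Complex.conj_ofReal c) ?_
    rw [hw, if_pos hs]
    exact IsSelfAdjoint.smul (by simp [isSelfAdjoint_iff]) (IsSelfAdjoint.add_star_self z)

/-! ### A stage as a direct sum of matrix algebras -/

/-- The matrix picture of a stage, as a linear map. -/
def comb (k : ℕ) : T.Mat k →ₗ[ℂ] A where
  toFun X := ∑ b, ∑ i, ∑ j, X b i j • T.u k b i j
  map_add' X Y := by simp [add_smul, Finset.sum_add_distrib]
  map_smul' r X := by simp [Finset.smul_sum, smul_smul]

theorem comb_mul (k : ℕ) (X Y : T.Mat k) : T.comb k (X * Y) = T.comb k X * T.comb k Y := by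
  simp only [comb, LinearMap.coe_mk, AddHom.coe_mk, Finset.sum_mul]
  refine Finset.sum_congr rfl fun b _ => ?_
  simp only [Pi.mul_apply, Matrix.mul_apply, Finset.sum_smul, Finset.mul_sum]
  refine Finset.sum_congr rfl fun i _ => ?_
  rw [Finset.sum_comm]
  refine Finset.sum_congr rfl fun j _ => ?_
  symm
  rw [Finset.sum_eq_single b, Finset.sum_eq_single j]
  · exact Finset.sum_congr rfl fun l _ => by rw [smul_mul_smul_comm, T.mul_u, if_pos rfl]
  · intro l _ hl
    exact Finset.sum_eq_zero fun r _ => by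
      rw [smul_mul_smul_comm, T.mul_u, if_neg (Ne.symm hl), smul_zero]
  · simp
  · intro b' _ hb
    exact Finset.sum_eq_zero fun l _ => Finset.sum_eq_zero fun r _ => by
      rw [smul_mul_smul_comm, T.mul_u_ne k b b' (Ne.symm hb), smul_zero]
  · simp

theorem comb_one (k : ℕ) : T.comb k 1 = 1 := by
  simp [comb, Matrix.one_apply, T.sum_u]

theorem comb_star (k : ℕ) (X : T.Mat k) : T.comb k (star X) = star (T.comb k X) := by
  simp only [comb, LinearMap.coe_mk, AddHom.coe_mk, star_sum, star_smul, T.star_u]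
  refine Finset.sum_congr rfl fun b _ => ?_
  rw [Finset.sum_comm]
  rfl

/-- The matrix picture of a stage. -/
def hom (k : ℕ) : T.Mat k →⋆ₐ[ℂ] A :=
  { AlgHom.ofLinearMap (T.comb k) (T.comb_one k) (T.comb_mul k) with map_star' := T.comb_star k }

theorem hom_apply (k : ℕ) (X : T.Mat k) :
    T.hom k X = ∑ b, ∑ i, ∑ j, X b i j • T.u k b i j := rfl

theorem hom_single (k : ℕ) (b : Fin (T.B k))
    (M : Matrix (Fin (T.d k b + 1)) (Fin (T.d k b + 1)) ℂ) :
    T.hom k (Pi.single b M) = ∑ i, ∑ j, M i j • T.u k b i j := by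
  rw [hom_apply, Finset.sum_eq_single b]
  · simp
  · intro b' _ hb; simp [Pi.single_eq_of_ne hb]
  · simp

theorem hom_mem (k : ℕ) (X : T.Mat k) : T.hom k X ∈ T.stage k := by
  rw [hom_apply]
  exact Submodule.sum_mem _ fun b _ => Submodule.sum_mem _ fun i _ => Submodule.sum_mem _ fun j _ =>
    Submodule.smul_mem _ _ (T.u_mem_stage k b i j)

theorem exists_hom_eq {k : ℕ} {x : A} (hx : x ∈ T.stage k) : ∃ X, T.hom k X = x := by
  induction hx using Submodule.span_induction with
  | mem a ha =>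
    obtain ⟨⟨b, i, j⟩, rfl⟩ := ha
    refine ⟨Pi.single b (Matrix.single i j 1), ?_⟩
    rw [hom_single, Finset.sum_eq_single i, Finset.sum_eq_single j]
    · simp
    · intro l _ hl; simp [Ne.symm hl]
    · simp
    · intro l _ hl; simp [Ne.symm hl]
    · simp
  | zero => exact ⟨0, map_zero _⟩
  | add _ _ _ _ h h' => obtain ⟨X, rfl⟩ := h; obtain ⟨Y, rfl⟩ := h'; exact ⟨X + Y, map_add _ X Y⟩
  | smul r _ _ h => obtain ⟨X, rfl⟩ := h; exact ⟨r • X, map_smul _ r X⟩

theorem u_hom_u (k : ℕ) (X : T.Mat k) (b i j) :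
    T.u k b 0 i * T.hom k X * T.u k b j 0 = X b i j • T.pr k b := by
  rw [hom_apply]
  simp only [Finset.mul_sum, Finset.sum_mul, mul_smul_comm, smul_mul_assoc]
  rw [Finset.sum_eq_single b, Finset.sum_eq_single i, Finset.sum_eq_single j]
  · rw [T.mul_u, if_pos rfl, T.mul_u, if_pos rfl]; rfl
  · intro l _ hl; rw [T.mul_u, if_pos rfl, T.mul_u, if_neg hl, smul_zero]
  · simp
  · intro l _ hl
    exact Finset.sum_eq_zero fun r _ => by rw [T.mul_u, if_neg (Ne.symm hl), zero_mul, smul_zero]
  · simp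
  · intro b' _ hb
    exact Finset.sum_eq_zero fun l _ => Finset.sum_eq_zero fun r _ => by
      rw [T.mul_u_ne k b b' (Ne.symm hb), zero_mul, smul_zero]
  · simp

theorem hom_injective (k : ℕ) : Function.Injective (T.hom k) := fun X Y h => by
  funext b
  ext i j
  exact smul_left_injective ℂ (T.u_ne k b) ((T.u_hom_u k X b i j).symm.trans
    ((congrArg (fun z => T.u k b 0 i * z * T.u k b j 0) h).trans (T.u_hom_u k Y b i j)))

theorem norm_coord_le (k : ℕ) (X : T.Mat k) (b i j) : ‖X b i j‖ ≤ ‖T.hom k X‖ := by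
  have h := congrArg norm (T.u_hom_u k X b i j)
  rw [norm_smul, T.norm_pr, mul_one] at h
  rw [← h]
  refine (norm_mul_le _ _).trans ((mul_le_of_le_one_right (norm_nonneg _) (T.norm_u_le _ _ _ _)).trans
    ((norm_mul_le _ _).trans (mul_le_of_le_one_left (norm_nonneg _) (T.norm_u_le _ _ _ _))))

theorem zr_eq_hom (k : ℕ) (b : Fin (T.B k)) : T.zr k b = T.hom k (Pi.single b 1) := by
  simp [hom_single, zr, Matrix.one_apply]

theorem zr_mul_hom (k : ℕ) (b : Fin (T.B k)) (X : T.Mat k) :
    T.zr k b * T.hom k X = T.hom k (Pi.single b (X b)) := by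
  rw [zr_eq_hom, ← map_mul]
  congr 1
  funext b'
  rcases eq_or_ne b' b with rfl | hb
  · simp
  · simp [Pi.single_eq_of_ne hb]

end Vale.Agent.P095.AF.Tower
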